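import Crest.Agent.R59.CohaDefs

/-! # The coefficient field `K = ℚ((v))`, positivity, quantum dilogarithm series -/

set_option autoImplicit false

namespace Crest.Agent.R59
open Finset

/-- the coefficient field `ℚ((v))` -/
def K : Type := LaurentSeries ℚ

noncomputable instance : Field K := inferInstanceAs (Field (LaurentSeries ℚ))

instance : CharZero K :=
  (RingHom.charZero_iff (ϕ := (HahnSeries.C : ℚ →+* LaurentSeries ℚ)) (RingHom.injective _)).1
    inferInstance

/-- the variable `v = q^(1/2)` -/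
noncomputable def v : K := (HahnSeries.single 1 1 : LaurentSeries ℚ)

/-- `q ↦ v ^ 2` -/
noncomputable def iota : PowerSeries ℚ →+* K :=
  ((HahnSeries.ofPowerSeries ℤ ℚ).comp
    (PowerSeries.expand (R := ℚ) 2 two_ne_zero).toRingHom : PowerSeries ℚ →+* LaurentSeries ℚ)

/-- `ℕ[v, v⁻¹]` -/
noncomputable def Pos : Subsemiring K := Subsemiring.closure {v, v⁻¹}

/-- `E⁺(Y) = ∏ (1 - q^j Y)⁻¹` (`b = false`) and `E⁻(Y) = ∏ (1 + q^j Y)` (`b = true`) -/
noncomputable def Eser (b : Bool) : PowerSeries K := PowerSeries.mk fun k => iota (cser b k)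

/-- `∏_{j < c} (1 + v^(2j+1-c) Y)`: symmetric Gaussian binomials -/
noncomputable def Bpoly (c : ℕ) : Polynomial K :=
  ∏ j ∈ range c, (1 + Polynomial.C (v ^ (2 * (j : ℤ) + 1 - c)) * Polynomial.X)

namespace BaseAux

/-- the coefficient of `v ^ n` -/
noncomputable def co (n : ℤ) : K →+ ℚ := HahnSeries.coeff.addMonoidHom (Γ := ℤ) (R := ℚ) n

theorem v_zpow (n : ℤ) : v ^ n = (HahnSeries.single n 1 : LaurentSeries ℚ) :=
  (RatFunc.single_zpow n).symm

theorem co_v_zpow (m n : ℤ) : co m (v ^ n) = if m = n then 1 else 0 := by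
  rw [v_zpow]
  split_ifs with h
  · rw [h]; exact HahnSeries.coeff_single_same n (1 : ℚ)
  · exact HahnSeries.coeff_single_of_ne h

theorem co_mul_nonneg {x y : K} (hx : ∀ n, 0 ≤ co n x) (hy : ∀ n, 0 ≤ co n y) (n : ℤ) :
    0 ≤ co n (x * y) :=
  (sum_nonneg fun ij _ => mul_nonneg (hx ij.1) (hy ij.2)).trans_eq
    (HahnSeries.coeff_mul (Γ := ℤ) (R := ℚ) (x := x) (y := y) (a := n)).symm

theorem co_zpow_nonneg (m n : ℤ) : 0 ≤ co m (v ^ n) := by
  rw [co_v_zpow]; split_ifs <;> norm_num

theorem co_nonneg {x : K} (hx : x ∈ Pos) : ∀ n, 0 ≤ co n x := by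
  refine Subsemiring.closure_induction (p := fun x _ => ∀ n, 0 ≤ co n x) ?_ ?_ ?_ ?_ ?_ hx
  · rintro x (rfl | rfl) n
    · simpa only [zpow_one] using co_zpow_nonneg n 1
    · simpa only [zpow_neg_one] using co_zpow_nonneg n (-1)
  · exact fun n => (map_zero _).ge
  · intro n; simpa only [zpow_zero] using co_zpow_nonneg n 0
  · intro x y _ _ hx hy n
    rw [map_add]; exact add_nonneg (hx n) (hy n)
  · exact fun x y _ _ hx hy => co_mul_nonneg hx hy

end BaseAux

open BaseAux

theorem v_ne_zero : v ≠ 0 := HahnSeries.single_ne_zero (Γ := ℤ) (R := ℚ) one_ne_zero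

theorem v_zpow_injective : Function.Injective (fun n : ℤ => v ^ n) := fun m n h => by
  have h1 := congrArg (co m) h
  rw [co_v_zpow, co_v_zpow, if_pos rfl] at h1
  by_contra h2
  rw [if_neg h2] at h1
  exact one_ne_zero h1

theorem v_zpow_ne_one {n : ℤ} (hn : n ≠ 0) : v ^ n ≠ 1 := fun h =>
  hn (v_zpow_injective (h.trans (zpow_zero v).symm))

theorem iota_X : iota PowerSeries.X = v ^ 2 := by
  show HahnSeries.ofPowerSeries ℤ ℚ (PowerSeries.expand (R := ℚ) 2 two_ne_zero PowerSeries.X) = _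
  rw [PowerSeries.expand_X, map_pow, HahnSeries.ofPowerSeries_X]
  rfl

theorem iota_injective : Function.Injective iota := fun f g h => by
  have h1 : PowerSeries.expand (R := ℚ) 2 two_ne_zero f =
      PowerSeries.expand (R := ℚ) 2 two_ne_zero g := HahnSeries.ofPowerSeries_injective (Γ := ℤ) h
  ext m
  rw [← PowerSeries.coeff_expand_mul 2 two_ne_zero, h1, PowerSeries.coeff_expand_mul]

theorem v_zpow_mem_Pos (n : ℤ) : v ^ n ∈ Pos := by
  have h1 : v ∈ Pos := Subsemiring.subset_closure (Or.inl rfl)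
  have h2 : v⁻¹ ∈ Pos := Subsemiring.subset_closure (Or.inr rfl)
  obtain ⟨m, rfl | rfl⟩ := n.eq_nat_or_neg
  · rw [zpow_natCast]; exact pow_mem h1 m
  · rw [zpow_neg, zpow_natCast, ← inv_pow]; exact pow_mem h2 m

theorem BaseAux.co_aeval (c : Polynomial ℤ) (n : ℤ) (i : ℕ) :
    co (n + 2 * i) (v ^ n * Polynomial.aeval (v ^ 2) c) = c.coeff i := by
  induction c using Polynomial.induction_on' with
  | add p q hp hq => rw [map_add, mul_add, map_add, hp, hq, Polynomial.coeff_add, Int.cast_add]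
  | monomial m a =>
    rw [Polynomial.aeval_monomial, ← Algebra.smul_def, mul_smul_comm, map_zsmul, ← pow_mul,
      ← zpow_natCast, ← zpow_add₀ v_ne_zero, co_v_zpow, Polynomial.coeff_monomial]
    by_cases h : m = i
    · rw [if_pos h, if_pos (by rw [h]; push_cast; rfl), zsmul_one]
    · rw [if_neg h, if_neg (by push_cast; omega), smul_zero, Int.cast_zero]

/-- an integer polynomial in `q = v ^ 2` which is positive up to a power of `v` has nonnegative
coefficients -/
theorem coeff_nonneg_of_mem_Pos (c : Polynomial ℤ) (n : ℤ)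
    (h : v ^ n * Polynomial.aeval (v ^ 2) c ∈ Pos) (i : ℕ) : 0 ≤ c.coeff i := by
  have := co_nonneg h (n + 2 * i)
  rw [co_aeval] at this
  exact_mod_cast this

theorem aeval_v_sq_injective :
    Function.Injective (fun c : Polynomial ℤ => (Polynomial.aeval (v ^ 2) c : K)) := fun p q h => by
  ext i
  have h1 := co_aeval p 0 i
  rw [show Polynomial.aeval (v ^ 2) p = Polynomial.aeval (v ^ 2) q from h, co_aeval] at h1
  exact_mod_cast h1.symm

theorem cser_zero (b : Bool) : cser b 0 = 1 := by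
  show (if b then PowerSeries.X ^ Nat.choose 0 2 else 1) * ∏ j ∈ range 0, _ = _
  cases b <;> simp

theorem BaseAux.cser_succ (b : Bool) (k : ℕ) : cser b (k + 1) * (1 - PowerSeries.X ^ (k + 1)) =
    (if b then PowerSeries.X ^ k else 1) * cser b k := by
  show (if b then PowerSeries.X ^ Nat.choose (k + 1) 2 else 1) * (∏ j ∈ range (k + 1), _) * _ =
    _ * ((if b then PowerSeries.X ^ Nat.choose k 2 else 1) * ∏ j ∈ range k, _)
  rw [prod_range_succ, mul_assoc, mul_assoc, PowerSeries.inv_mul_cancel _ (by simp), mul_one,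
    ← mul_assoc, Nat.choose_succ_succ' k 1, Nat.choose_one_right]
  cases b
  · simp
  · simp [pow_add]

theorem BaseAux.coeff_Eser (b : Bool) (k : ℕ) :
    PowerSeries.coeff k (Eser b) = iota (cser b k) := PowerSeries.coeff_mk _ _

theorem constantCoeff_Eser (b : Bool) : PowerSeries.constantCoeff (Eser b) = 1 := by
  rw [← PowerSeries.coeff_zero_eq_constantCoeff_apply, coeff_Eser, cser_zero, map_one]

theorem Eser_true_eq :
    Eser true = (1 + PowerSeries.X) * PowerSeries.rescale (v ^ 2) (Eser true) := by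
  ext k
  rw [add_mul, one_mul, map_add]
  cases k with
  | zero => rw [PowerSeries.coeff_zero_X_mul, PowerSeries.coeff_rescale, pow_zero, one_mul, add_zero]
  | succ k =>
    have := congrArg iota (cser_succ true k)
    rw [if_pos rfl, map_mul, map_mul, map_sub, map_one, map_pow, map_pow, iota_X] at this
    rw [PowerSeries.coeff_succ_X_mul, PowerSeries.coeff_rescale, PowerSeries.coeff_rescale,
      coeff_Eser, coeff_Eser]
    linear_combination this

theorem Eser_false_eq :
    (1 - PowerSeries.X) * Eser false = PowerSeries.rescale (v ^ 2) (Eser false) := by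
  ext k
  rw [sub_mul, one_mul, map_sub]
  cases k with
  | zero => rw [PowerSeries.coeff_zero_X_mul, PowerSeries.coeff_rescale, pow_zero, one_mul, sub_zero]
  | succ k =>
    have := congrArg iota (cser_succ false k)
    rw [if_neg Bool.false_ne_true, one_mul, map_mul, map_sub, map_one, map_pow, iota_X] at this
    rw [PowerSeries.coeff_succ_X_mul, PowerSeries.coeff_rescale, coeff_Eser, coeff_Eser]
    linear_combination this

theorem BaseAux.rescale_step {σ E : PowerSeries K} (h : E = σ * PowerSeries.rescale (v ^ 2) E)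
    (j : ℤ) : PowerSeries.rescale (v ^ j) E =
      PowerSeries.rescale (v ^ j) σ * PowerSeries.rescale (v ^ (j + 2)) E := by
  conv_lhs => rw [h]
  rw [map_mul, PowerSeries.rescale_rescale, zpow_add₀ v_ne_zero, mul_comm (v ^ j)]
  rfl

theorem BaseAux.exists_pos (b : Bool) : ∃ σ : PowerSeries K, (∀ k, PowerSeries.coeff k σ ∈ Pos) ∧
    Eser b = σ * PowerSeries.rescale (v ^ 2) (Eser b) := by
  cases b
  · refine ⟨PowerSeries.mk 1, fun k => ?_, ?_⟩
    · rw [PowerSeries.coeff_mk]; exact one_mem _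
    · rw [← Eser_false_eq, ← mul_assoc, PowerSeries.mk_one_mul_one_sub_eq_one, one_mul]
  · refine ⟨_, fun k => ?_, Eser_true_eq⟩
    rw [map_add, PowerSeries.coeff_one, PowerSeries.coeff_X]
    refine add_mem ?_ ?_ <;> split_ifs
    exacts [one_mem _, zero_mem _, one_mem _, zero_mem _]

/-- shifting the argument down multiplies by a positive series -/
theorem exists_pos_ratio (b : Bool) (i : ℤ) (c : ℕ) :
    ∃ ρ : PowerSeries K, (∀ k, PowerSeries.coeff k ρ ∈ Pos) ∧
      PowerSeries.rescale (v ^ (i - 2 * c)) (Eser b) = ρ * PowerSeries.rescale (v ^ i) (Eser b) := by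
  obtain ⟨σ, hσ, hE⟩ := exists_pos b
  induction c with
  | zero =>
    refine ⟨1, fun k => ?_, by simp⟩
    rw [PowerSeries.coeff_one]
    split_ifs
    exacts [one_mem _, zero_mem _]
  | succ c ih =>
    obtain ⟨ρ, hρ, h⟩ := ih
    refine ⟨PowerSeries.rescale (v ^ (i - 2 * (c + 1 : ℕ))) σ * ρ, fun k => ?_, ?_⟩
    · rw [PowerSeries.coeff_mul]
      refine sum_mem fun p _ => mul_mem ?_ (hρ _)
      rw [PowerSeries.coeff_rescale]
      exact mul_mem (pow_mem (v_zpow_mem_Pos _) _) (hσ _)
    · rw [rescale_step hE, mul_assoc, ← h,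
        show i - 2 * ((c + 1 : ℕ) : ℤ) + 2 = i - 2 * c by push_cast; ring]

theorem BaseAux.natDegree_lin (a : K) : (1 + Polynomial.C a * Polynomial.X).natDegree ≤ 1 := by
  rw [add_comm, ← Polynomial.C_1]
  exact Polynomial.natDegree_linear_le

theorem BaseAux.natDegree_prod (a : ℕ → K) (n : ℕ) :
    (∏ j ∈ range n, (1 + Polynomial.C (a j) * Polynomial.X)).natDegree ≤ n :=
  (Polynomial.natDegree_prod_le _ _).trans
    ((sum_le_card_nsmul _ _ 1 fun _ _ => natDegree_lin _).trans (by simp))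

theorem BaseAux.reflect_prod (a : ℕ → K) (n : ℕ) :
    (∏ j ∈ range n, (1 + Polynomial.C (a j) * Polynomial.X)).reflect n =
      ∏ j ∈ range n, (Polynomial.X + Polynomial.C (a j)) := by
  induction n with
  | zero => simp
  | succ n ih =>
    rw [prod_range_succ, prod_range_succ,
      Polynomial.reflect_mul _ _ (natDegree_prod a n) (natDegree_lin _), ih]
    simp

theorem Bpoly_natDegree_le (c : ℕ) : (Bpoly c).natDegree ≤ c := natDegree_prod _ c

theorem Bpoly_coeff_zero (c : ℕ) : (Bpoly c).coeff 0 = 1 :=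
  (Polynomial.coeff_zero_prod _ _).trans (prod_eq_one fun j _ => by simp)

theorem BaseAux.prod_v (c n : ℕ) :
    ∏ j ∈ range n, v ^ (2 * (j : ℤ) + 1 - c) = v ^ ((n : ℤ) * n - n * c) := by
  induction n with
  | zero => simp
  | succ n ih =>
    rw [prod_range_succ, ih, ← zpow_add₀ v_ne_zero]
    congr 1
    push_cast
    ring

theorem BaseAux.reflect_Bpoly (c : ℕ) : (Bpoly c).reflect c = Bpoly c := by
  refine (reflect_prod _ c).trans ?_
  have h : ∀ j ∈ range c, Polynomial.X + Polynomial.C (v ^ (2 * (j : ℤ) + 1 - c)) =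
      Polynomial.C (v ^ (2 * (j : ℤ) + 1 - c)) *
        (1 + Polynomial.C (v ^ (2 * ((c - 1 - j : ℕ) : ℤ) + 1 - c)) * Polynomial.X) := fun j hj => by
    have := mem_range.1 hj
    rw [mul_add, mul_one, ← mul_assoc, ← map_mul, ← zpow_add₀ v_ne_zero,
      show 2 * (j : ℤ) + 1 - c + (2 * ((c - 1 - j : ℕ) : ℤ) + 1 - c) = 0 by omega, zpow_zero,
      map_one, one_mul, add_comm]
  rw [prod_congr rfl h, prod_mul_distrib, ← map_prod, prod_v, sub_self, zpow_zero, map_one, one_mul]
  exact prod_range_reflect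
    (fun j => 1 + Polynomial.C (v ^ (2 * (j : ℤ) + 1 - c)) * Polynomial.X) c

theorem Bpoly_coeff_symm {c k : ℕ} (h : k ≤ c) : (Bpoly c).coeff (c - k) = (Bpoly c).coeff k := by
  conv_rhs => rw [← reflect_Bpoly, Polynomial.coeff_reflect, Polynomial.revAt_le h]

theorem BaseAux.rescale_C (a r : K) : PowerSeries.rescale a (PowerSeries.C r) = PowerSeries.C r := by
  ext k
  rw [PowerSeries.coeff_rescale, PowerSeries.coeff_C]
  split_ifs with h
  · rw [h, pow_zero, one_mul]
  · exact mul_zero _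

theorem BaseAux.rescale_iter (m : ℤ) (n : ℕ) : PowerSeries.rescale (v ^ m) (Eser true) =
    (∏ j ∈ range n, (1 + PowerSeries.C (v ^ (m + 2 * j)) * PowerSeries.X)) *
      PowerSeries.rescale (v ^ (m + 2 * n)) (Eser true) := by
  induction n with
  | zero => simp
  | succ n ih =>
    rw [ih, prod_range_succ, mul_assoc, rescale_step Eser_true_eq, map_add, map_one,
      PowerSeries.rescale_X, show m + 2 * (n : ℤ) + 2 = m + 2 * ((n + 1 : ℕ) : ℤ) by push_cast; ring]

/-- `E⁻(v^(i - c) Y) = B_c(v^(i-1) Y) · E⁻(v^(i + c) Y)` -/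
theorem Eser_true_shift (i : ℤ) (c : ℕ) :
    PowerSeries.rescale (v ^ (i - c)) (Eser true) =
      PowerSeries.rescale (v ^ (i - 1)) (Bpoly c : PowerSeries K) *
        PowerSeries.rescale (v ^ (i + c)) (Eser true) := by
  rw [rescale_iter (i - c) c, show i - c + 2 * c = i + c by ring]
  congr 1
  refine Eq.trans ?_ (congrArg _ (map_prod Polynomial.coeToPowerSeries.ringHom
    (fun j : ℕ => 1 + Polynomial.C (v ^ (2 * (j : ℤ) + 1 - c)) * Polynomial.X) (range c)).symm)
  rw [map_prod]
  refine prod_congr rfl fun j _ => ?_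
  rw [Polynomial.coeToPowerSeries.ringHom_apply, Polynomial.coe_add, Polynomial.coe_one,
    Polynomial.coe_mul, Polynomial.coe_C, Polynomial.coe_X, map_add, map_one, map_mul,
    PowerSeries.rescale_X, rescale_C, ← mul_assoc, ← map_mul, ← zpow_add₀ v_ne_zero,
    show 2 * (j : ℤ) + 1 - c + (i - 1) = i - c + 2 * j by ring]

end Crest.Agent.R59
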