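import Crest.Agent.R59.CohaDefs

/-! # Polynomial COHA: slopes, shifts, ideals, filtration (basic API) -/

set_option autoImplicit false
set_option linter.unusedSectionVars false

namespace Crest.Agent.R59
open MvPolynomial Finset

section counts
variable {C X : Type} [Fintype C] [DecidableEq C] {Q : Quiv C X}

theorem sum_cnt_mul {R : Type*} [CommSemiring R] (f : C → R) (A : Finset X) :
    ∑ c, (Q.cnt A c : R) * f c = ∑ s ∈ A, f (Q.col s) := by
  rw [← Finset.sum_fiberwise' A Q.col f]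
  refine Finset.sum_congr rfl fun c _ => ?_
  rw [Finset.sum_const, nsmul_eq_mul, Quiv.cnt]

theorem lin_cnt (z : C → ℤ) (A : Finset X) : lin z (Q.cnt A) = ∑ s ∈ A, z (Q.col s) :=
  sum_cnt_mul z A

theorem av_cnt (A B : Finset X) : av Q.a (Q.cnt A) (Q.cnt B) = ∑ s ∈ A, ∑ t ∈ B, Q.ar s t := by
  unfold av Quiv.ar
  rw [← sum_cnt_mul (Q := Q) (fun c => ∑ t ∈ B, Q.a c (Q.col t)) A]
  refine Finset.sum_congr rfl fun c _ => ?_
  rw [← sum_cnt_mul (Q := Q) (fun c' => Q.a c c') B, Finset.mul_sum]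
  exact Finset.sum_congr rfl fun c' _ => by simp [mul_assoc]

theorem cnt_union [DecidableEq X] {A B : Finset X} (h : Disjoint A B) :
    Q.cnt (A ∪ B) = Q.cnt A + Q.cnt B := by
  funext c
  simp only [Quiv.cnt, Pi.add_apply, Finset.filter_union]
  exact Finset.card_union_of_disjoint (Finset.disjoint_filter_filter h)

theorem cnt_eq_zero_iff (A : Finset X) : Q.cnt A = 0 ↔ A = ∅ := by
  constructor
  · intro h
    rw [Finset.eq_empty_iff_forall_notMem]
    intro s hs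
    have := congrFun h (Q.col s)
    simp only [Quiv.cnt, Pi.zero_apply, Finset.card_eq_zero, Finset.filter_eq_empty_iff] at this
    exact this hs rfl
  · rintro rfl
    funext c
    simp [Quiv.cnt]

theorem sum_cnt (A : Finset X) : ∑ c, Q.cnt A c = A.card := by
  simpa using sum_cnt_mul (Q := Q) (fun _ => (1 : ℕ)) A

theorem cnt_eq_sum_fib (S : Finset X) (π : X → ℕ) {k : ℕ} (h : ∀ s ∈ S, π s < k) :
    Q.cnt S = ∑ i ∈ range k, Q.cnt (fib S π i) := by
  funext c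
  rw [Finset.sum_apply]
  simp only [Quiv.cnt, fib]
  rw [Finset.card_eq_sum_card_fiberwise (f := π) (t := range k)
    (fun s hs => by simpa using h s (Finset.mem_filter.1 (Finset.mem_coe.1 hs)).1)]
  exact Finset.sum_congr rfl fun i _ => by rw [Finset.filter_comm]

theorem av_add_left (a : C → C → ℕ) (d d' e : C → ℕ) : av a (d + d') e = av a d e + av a d' e := by
  simp only [av, Pi.add_apply, add_mul, Finset.sum_add_distrib]

theorem av_add_right (a : C → C → ℕ) (d e e' : C → ℕ) : av a d (e + e') = av a d e + av a d e' := by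
  simp only [av, Pi.add_apply, add_mul, mul_add, Finset.sum_add_distrib]

theorem lin_add (z : C → ℤ) (d e : C → ℕ) : lin z (d + e) = lin z d + lin z e := by
  simp only [lin, Pi.add_apply, Nat.cast_add, add_mul, Finset.sum_add_distrib]

variable (Z : Stab Q)

theorem Stab.wsum_pos {A : Finset X} (hA : A.Nonempty) : 0 < lin Z.w (Q.cnt A) := by
  rw [lin_cnt]
  exact Finset.sum_pos (fun s _ => Z.w_pos _) hA

theorem Stab.sum_sub_eq (A : Finset X) (μ : ℚ) :
    ∑ s ∈ A, ((Z.z (Q.col s) : ℚ) - μ * (Z.w (Q.col s) : ℚ)) =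
      (lin Z.z (Q.cnt A) : ℚ) - μ * (lin Z.w (Q.cnt A) : ℚ) := by
  rw [lin_cnt, lin_cnt, Finset.sum_sub_distrib, ← Finset.mul_sum]
  push_cast
  rfl

theorem Stab.wsum_pos' {A : Finset X} (hA : A.Nonempty) : (0 : ℚ) < lin Z.w (Q.cnt A) := by
  exact_mod_cast Z.wsum_pos hA

theorem Stab.lt_sl_iff {A : Finset X} (hA : A.Nonempty) (μ : ℚ) :
    μ < Z.sl A ↔ 0 < ∑ s ∈ A, ((Z.z (Q.col s) : ℚ) - μ * (Z.w (Q.col s) : ℚ)) := by
  rw [Z.sum_sub_eq, Stab.sl, lt_div_iff₀ (Z.wsum_pos' hA), sub_pos]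

theorem Stab.sl_lt_iff {A : Finset X} (hA : A.Nonempty) (μ : ℚ) :
    Z.sl A < μ ↔ ∑ s ∈ A, ((Z.z (Q.col s) : ℚ) - μ * (Z.w (Q.col s) : ℚ)) < 0 := by
  rw [Z.sum_sub_eq, Stab.sl, div_lt_iff₀ (Z.wsum_pos' hA), sub_neg]

theorem Stab.sl_eq_iff {A : Finset X} (hA : A.Nonempty) (μ : ℚ) :
    Z.sl A = μ ↔ ∑ s ∈ A, ((Z.z (Q.col s) : ℚ) - μ * (Z.w (Q.col s) : ℚ)) = 0 := by
  rw [Z.sum_sub_eq, Stab.sl, div_eq_iff (Z.wsum_pos' hA).ne', sub_eq_zero]

theorem Stab.sl_le_iff {A B : Finset X} (hA : A.Nonempty) (hB : B.Nonempty) :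
    Z.sl A ≤ Z.sl B ↔
      lin Z.z (Q.cnt A) * lin Z.w (Q.cnt B) ≤ lin Z.z (Q.cnt B) * lin Z.w (Q.cnt A) := by
  rw [Stab.sl, Stab.sl, div_le_div_iff₀ (Z.wsum_pos' hA) (Z.wsum_pos' hB)]
  exact_mod_cast Iff.rfl

/-- the arrow count is symmetric on sets of equal slope -/
theorem Stab.ar_symm {A B : Finset X} (h : Z.sl A = Z.sl B) :
    ∑ s ∈ A, ∑ t ∈ B, Q.ar s t = ∑ s ∈ B, ∑ t ∈ A, Q.ar s t := by
  rcases A.eq_empty_or_nonempty with rfl | hA
  · simp
  rcases B.eq_empty_or_nonempty with rfl | hB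
  · simp
  rw [← av_cnt, ← av_cnt]
  exact Z.symm _ _ (le_antisymm ((Z.sl_le_iff hA hB).1 h.le) ((Z.sl_le_iff hB hA).1 h.ge))

theorem Stab.Pure.anti [DecidableEq X] {Z : Stab Q} {S : Finset X} {ρ : X → ℕ} (h : Z.Pure S ρ) :
    Z.Anti S ρ := fun s hs t ht _ => by rw [h s hs, h t ht]

theorem Stab.pure_const [DecidableEq X] (S : Finset X) : Z.Pure S (fun _ => 0) := fun s _ => by
  simp [fib]

theorem Stab.Pure.congr [DecidableEq X] {Z : Stab Q} {S : Finset X} {ρ ρ' : X → ℕ}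
    (h : Z.Pure S ρ) (hk : SameKer S ρ ρ') : Z.Pure S ρ' := fun s hs => by
  rw [← h s hs]
  congr 1
  exact Finset.filter_congr fun t ht => (hk t ht s hs).symm

end counts

section hi
variable {σ τ υ R : Type*} [CommRing R]

/-- the coefficients of `G` in degrees `> n` lie in `J` -/
def Hi (J : Ideal R) (n : ℤ) (G : MvPolynomial σ R) : Prop :=
  ∀ α : σ →₀ ℕ, n < (Finsupp.degree α : ℕ) → coeff α G ∈ J

theorem Hi.mul {J : Ideal R} {n m : ℤ} {G G' : MvPolynomial σ R} (h : Hi J n G) (h' : Hi J m G') :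
    Hi J (n + m) (G * G') := by
  classical
  intro α hα
  rw [coeff_mul]
  refine Ideal.sum_mem _ fun x hx => ?_
  have e : Finsupp.degree α = Finsupp.degree x.1 + Finsupp.degree x.2 := by
    rw [← mem_antidiagonal.1 hx, map_add]
  by_cases h1 : n < (Finsupp.degree x.1 : ℕ)
  · exact Ideal.mul_mem_right _ _ (h _ h1)
  · exact Ideal.mul_mem_left _ _ (h' _ (by omega))

theorem aeval_monomial_isHomogeneous {φ : σ → MvPolynomial τ R} (hφ : ∀ i, (φ i).IsHomogeneous 1)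
    (γ : σ →₀ ℕ) : (aeval φ (monomial γ (1 : R))).IsHomogeneous (Finsupp.degree γ) := by
  simpa using (isHomogeneous_monomial (1 : R) (rfl : Finsupp.degree γ = _)).aeval φ hφ

/-- substitution of linear forms -/
theorem Hi.aeval {J : Ideal R} {n : ℤ} {G : MvPolynomial σ R} (h : Hi J n G)
    {φ : σ → MvPolynomial τ R} (hφ : ∀ i, (φ i).IsHomogeneous 1) : Hi J n (aeval φ G) := by
  intro α hα
  rw [G.as_sum, map_sum, coeff_sum]
  refine Ideal.sum_mem _ fun γ _ => ?_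
  rw [← mul_one (coeff γ G), ← smul_eq_mul, ← smul_monomial, map_smul, coeff_smul, smul_eq_mul]
  by_cases h1 : n < (Finsupp.degree γ : ℕ)
  · exact Ideal.mul_mem_right _ _ (h _ h1)
  · rw [(aeval_monomial_isHomogeneous hφ γ).coeff_eq_zero (by omega), mul_zero]
    exact J.zero_mem

/-- homogeneity for the total degree in two sets of variables -/
def Bi (d : ℕ) (G : MvPolynomial τ (MvPolynomial σ R)) : Prop :=
  ∀ (α : τ →₀ ℕ) (β : σ →₀ ℕ), coeff β (coeff α G) ≠ 0 → Finsupp.degree α + Finsupp.degree β = d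

theorem Bi.add {d : ℕ} {G G' : MvPolynomial τ (MvPolynomial σ R)} (h : Bi d G) (h' : Bi d G') :
    Bi d (G + G') := by
  intro α β hne
  rw [coeff_add, coeff_add] at hne
  by_cases h1 : coeff β (coeff α G) = 0
  · rw [h1, zero_add] at hne
    exact h' α β hne
  · exact h α β h1

theorem Bi.mul {d d' : ℕ} {G G' : MvPolynomial τ (MvPolynomial σ R)} (h : Bi d G) (h' : Bi d' G') :
    Bi (d + d') (G * G') := by
  classical
  intro α β hne
  rw [coeff_mul, coeff_sum] at hne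
  obtain ⟨x, hx, hne⟩ := Finset.exists_ne_zero_of_sum_ne_zero hne
  rw [coeff_mul] at hne
  obtain ⟨y, hy, hne⟩ := Finset.exists_ne_zero_of_sum_ne_zero hne
  have h1 := h _ _ (left_ne_zero_of_mul hne)
  have h2 := h' _ _ (right_ne_zero_of_mul hne)
  rw [← mem_antidiagonal.1 hx, ← mem_antidiagonal.1 hy, map_add, map_add]
  omega

theorem bi_C {d : ℕ} {p : MvPolynomial σ R} (hp : p.IsHomogeneous d) :
    Bi d (C p : MvPolynomial τ (MvPolynomial σ R)) := by
  classical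
  intro α β hne
  rw [coeff_C] at hne
  split_ifs at hne with h
  · rw [← h, map_zero, zero_add]
    by_contra h'
    exact hne (hp.coeff_eq_zero h')
  · simp at hne

theorem bi_X (i : τ) : Bi 1 (X i : MvPolynomial τ (MvPolynomial σ R)) := by
  classical
  intro α β hne
  rw [coeff_X] at hne
  split_ifs at hne with h
  · rw [coeff_one] at hne
    split_ifs at hne with h'
    · rw [← h, ← h']; simp
    · simp at hne
  · simp at hne

theorem Bi.pow {d : ℕ} {G : MvPolynomial τ (MvPolynomial σ R)} (h : Bi d G) (k : ℕ) :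
    Bi (k * d) (G ^ k) := by
  induction k with
  | zero => simpa using bi_C (τ := τ) (isHomogeneous_one σ R)
  | succ k ih => rw [pow_succ, add_mul, one_mul]; exact ih.mul h

theorem Bi.prod {ι : Type*} (s : Finset ι) {d : ι → ℕ} {G : ι → MvPolynomial τ (MvPolynomial σ R)}
    (h : ∀ i ∈ s, Bi (d i) (G i)) : Bi (∑ i ∈ s, d i) (∏ i ∈ s, G i) := by
  classical
  induction s using Finset.induction_on with
  | empty => simpa using bi_C (τ := τ) (isHomogeneous_one σ R)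
  | insert i s hi ih =>
    rw [Finset.sum_insert hi, Finset.prod_insert hi]
    exact (h i (mem_insert_self _ _)).mul (ih fun j hj => h j (mem_insert_of_mem hj))

theorem bi_aeval_monomial {φ : υ → MvPolynomial τ (MvPolynomial σ R)} (hφ : ∀ i, Bi 1 (φ i))
    (γ : υ →₀ ℕ) : Bi (Finsupp.degree γ) (aeval φ (monomial γ (1 : R))) := by
  rw [aeval_monomial, map_one, one_mul, Finsupp.prod, Finsupp.degree_apply]
  exact Bi.prod _ fun i _ => by simpa using (hφ i).pow (γ i)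

theorem coeff_coeff_aeval (φ : υ → MvPolynomial τ (MvPolynomial σ R)) (G : MvPolynomial υ R)
    (α : τ →₀ ℕ) (β : σ →₀ ℕ) : coeff β (coeff α (aeval φ G)) =
      ∑ γ ∈ G.support, coeff γ G * coeff β (coeff α (aeval φ (monomial γ (1 : R)))) := by
  conv_lhs => rw [G.as_sum, map_sum, coeff_sum, coeff_sum]
  refine Finset.sum_congr rfl fun γ _ => ?_
  rw [← mul_one (coeff γ G), ← smul_eq_mul, ← smul_monomial, map_smul, coeff_smul, coeff_smul,
    smul_eq_mul, smul_eq_mul, mul_one]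

theorem bi_aeval {φ : υ → MvPolynomial τ (MvPolynomial σ R)} (hφ : ∀ i, Bi 1 (φ i))
    {G : MvPolynomial υ R} {d : ℕ} (hG : G.IsHomogeneous d) : Bi d (aeval φ G) := by
  intro α β hne
  rw [coeff_coeff_aeval] at hne
  obtain ⟨γ, -, hne⟩ := Finset.exists_ne_zero_of_sum_ne_zero hne
  rw [bi_aeval_monomial hφ γ α β (right_ne_zero_of_mul hne)]
  by_contra h
  exact left_ne_zero_of_mul hne (hG.coeff_eq_zero h)

/-- substitution of linear forms in two sets of variables -/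
theorem Hi.coeff_aeval {J : Ideal R} {n : ℤ} {G : MvPolynomial υ R} (h : Hi J n G)
    {φ : υ → MvPolynomial τ (MvPolynomial σ R)} (hφ : ∀ i, Bi 1 (φ i)) (α : τ →₀ ℕ) :
    Hi J (n - (Finsupp.degree α : ℕ)) (coeff α (MvPolynomial.aeval φ G)) := by
  intro β hβ
  rw [coeff_coeff_aeval]
  refine Ideal.sum_mem _ fun γ _ => ?_
  by_cases h1 : n < (Finsupp.degree γ : ℕ)
  · exact Ideal.mul_mem_right _ _ (h _ h1)
  · have h2 : coeff β (coeff α (MvPolynomial.aeval φ (monomial γ (1 : R)))) = 0 := by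
      by_contra h3
      have := bi_aeval_monomial hφ γ α β h3
      omega
    rw [h2, mul_zero]
    exact J.zero_mem

theorem Bi.isHomogeneous {d : ℕ} {G : MvPolynomial τ (MvPolynomial σ R)} (h : Bi d G)
    (α : τ →₀ ℕ) : (coeff α G).IsHomogeneous (d - Finsupp.degree α) := by
  intro β hβ
  have := h α β hβ
  have e : Finsupp.weight (1 : σ → ℕ) β = Finsupp.degree β := by
    rw [Finsupp.degree_eq_weight_one]; rfl
  rw [e]
  omega

theorem Bi.coeff_eq_zero {d : ℕ} {G : MvPolynomial τ (MvPolynomial σ R)} (h : Bi d G)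
    {α : τ →₀ ℕ} (hα : d < Finsupp.degree α) : coeff α G = 0 := by
  ext β
  by_contra hβ
  have := h α β hβ
  omega

end hi

section shift
variable {X : Type} [DecidableEq X]

theorem mem_fib {S : Finset X} {ρ : X → ℕ} {i : ℕ} {s : X} : s ∈ fib S ρ i ↔ s ∈ S ∧ ρ s = i := by
  simp [fib]

theorem fib_subset (S : Finset X) (ρ : X → ℕ) (i : ℕ) : fib S ρ i ⊆ S := filter_subset _ _

theorem fib_const (S : Finset X) : fib S (fun _ => 0) 0 = S := by simp [fib]

theorem SameKer.fib_eq {S : Finset X} {π ρ : X → ℕ} (h : SameKer S π ρ) {s : X} (hs : s ∈ S) :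
    fib S π (π s) = fib S ρ (ρ s) :=
  Finset.filter_congr fun t ht => h t ht s hs

theorem exists_relabel' {S : Finset X} {π ρ : X → ℕ}
    (h : ∀ s ∈ S, ∀ t ∈ S, π s = π t → ρ s = ρ t) : ∃ g : ℕ → ℕ, ∀ s ∈ S, ρ s = g (π s) := by
  classical
  refine ⟨fun i => if hi : ∃ t ∈ S, π t = i then ρ hi.choose else 0, fun s hs => ?_⟩
  have hi : ∃ t ∈ S, π t = π s := ⟨s, hs, rfl⟩
  simp only [dif_pos hi]
  exact h s hs _ hi.choose_spec.1 hi.choose_spec.2.symm

theorem image_relabel {S : Finset X} {π ρ : X → ℕ} {g : ℕ → ℕ} (hg : ∀ s ∈ S, ρ s = g (π s)) :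
    S.image ρ = (S.image π).image g := by
  rw [Finset.image_image]
  exact Finset.image_congr fun s hs => hg s hs

theorem SameKer.card_image {S : Finset X} {π ρ : X → ℕ} (h : SameKer S π ρ) :
    (S.image π).card = (S.image ρ).card := by
  obtain ⟨g, hg⟩ := exists_relabel' fun s hs t ht => (h s hs t ht).1
  obtain ⟨g', hg'⟩ := exists_relabel' fun s hs t ht => (h s hs t ht).2
  refine le_antisymm ?_ ?_
  · rw [image_relabel hg']; exact Finset.card_image_le
  · rw [image_relabel hg]; exact Finset.card_image_le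

/-- if `ρ` is constant on the blocks of `π` and has at least as many blocks, the kernels agree -/
theorem sameKer_of_card {S : Finset X} {π ρ : X → ℕ}
    (h : ∀ s ∈ S, ∀ t ∈ S, π s = π t → ρ s = ρ t)
    (hc : (S.image π).card ≤ (S.image ρ).card) : SameKer S π ρ := by
  obtain ⟨g, hg⟩ := exists_relabel' h
  rw [image_relabel hg] at hc
  have hinj := Finset.injOn_of_card_image_eq (le_antisymm Finset.card_image_le hc)
  refine fun s hs t ht => ⟨h s hs t ht, fun e => ?_⟩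
  rw [hg s hs, hg t ht] at e
  exact hinj (Finset.mem_coe.2 (Finset.mem_image_of_mem π hs))
    (Finset.mem_coe.2 (Finset.mem_image_of_mem π ht)) e

/-- a coarsening factors through a relabelling -/
theorem exists_relabel {S : Finset X} {π ρ : X → ℕ}
    (h : ∀ s ∈ S, ∀ t ∈ S, π s = π t → ρ s = ρ t) : ∃ g : ℕ → ℕ, ∀ s ∈ S, ρ s = g (π s) :=
  exists_relabel' h

theorem sh_X (S : Finset X) (ρ : X → ℕ) (s : X) : sh S ρ (MvPolynomial.X s) =
    if s ∈ S then C (MvPolynomial.X s) + MvPolynomial.X (ρ s) else C (MvPolynomial.X s) :=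
  aeval_X _ _

theorem sh_X_of_mem {S : Finset X} (ρ : X → ℕ) {s : X} (hs : s ∈ S) :
    sh S ρ (MvPolynomial.X s) = C (MvPolynomial.X s) + MvPolynomial.X (ρ s) := by
  rw [sh_X, if_pos hs]

theorem sh_X_of_notMem {S : Finset X} (ρ : X → ℕ) {s : X} (hs : s ∉ S) :
    sh S ρ (MvPolynomial.X s) = C (MvPolynomial.X s) := by
  rw [sh_X, if_neg hs]

theorem sh_C (S : Finset X) (ρ : X → ℕ) (c : ℚ) : sh S ρ (C c) = C (C c) := aeval_C _ _

/-- two ring homomorphisms on polynomials over `ℚ` agreeing on variables agree on the span -/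
theorem ringHom_eq_of_supported {A : Type*} [Semiring A] (f g : P X →+* A) {T : Set X}
    (h : ∀ s ∈ T, f (MvPolynomial.X s) = g (MvPolynomial.X s)) {ξ : P X}
    (hξ : ξ ∈ supported ℚ T) : f ξ = g ξ := by
  rw [supported_eq_adjoin_X] at hξ
  induction hξ using Algebra.adjoin_induction with
  | mem x hx => obtain ⟨s, hs, rfl⟩ := hx; exact h s hs
  | algebraMap r =>
    exact RingHom.congr_fun (Subsingleton.elim (f.comp (algebraMap ℚ (P X)))
      (g.comp (algebraMap ℚ (P X)))) r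
  | add x y _ _ hx hy => rw [map_add, map_add, hx, hy]
  | mul x y _ _ hx hy => rw [map_mul, map_mul, hx, hy]

theorem ringHom_eq_of_X {A : Type*} [Semiring A] (f g : P X →+* A)
    (h : ∀ s, f (MvPolynomial.X s) = g (MvPolynomial.X s)) (ξ : P X) : f ξ = g ξ :=
  ringHom_eq_of_supported f g (T := Set.univ) (fun s _ => h s) (by simp)

theorem coeff_zero_sh (S : Finset X) (ρ : X → ℕ) (ξ : P X) : coeff 0 (sh S ρ ξ) = ξ := by
  refine ringHom_eq_of_X (constantCoeff.comp (sh S ρ).toRingHom) (RingHom.id _) (fun s => ?_) ξ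
  change constantCoeff (sh S ρ (MvPolynomial.X s)) = MvPolynomial.X s
  rw [sh_X]
  split_ifs <;> simp

theorem sh_of_subset {B S : Finset X} (ρ : X → ℕ) {ξ : P X} (hξ : ξ ∈ supported ℚ (B : Set X))
    (h : B ⊆ S) : sh S ρ ξ = sh B ρ ξ := by
  refine ringHom_eq_of_supported (sh S ρ).toRingHom (sh B ρ).toRingHom (fun s hs => ?_) hξ
  exact (sh_X_of_mem ρ (h hs)).trans (sh_X_of_mem ρ hs).symm

theorem sh_of_disjoint {B S : Finset X} (ρ : X → ℕ) {ξ : P X} (hξ : ξ ∈ supported ℚ (B : Set X))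
    (h : Disjoint B S) : sh S ρ ξ = C ξ := by
  refine ringHom_eq_of_supported (sh S ρ).toRingHom C (fun s hs => ?_) hξ
  exact sh_X_of_notMem ρ (Finset.disjoint_left.1 h hs)

theorem sh_relabel {S : Finset X} {ρ ρ' : X → ℕ} {g : ℕ → ℕ} (h : ∀ s ∈ S, ρ' s = g (ρ s))
    (ξ : P X) : sh S ρ' ξ = rename g (sh S ρ ξ) := by
  refine ringHom_eq_of_X (sh S ρ').toRingHom
    ((rename g : MvPolynomial ℕ (P X) →ₐ[P X] _).toRingHom.comp (sh S ρ).toRingHom) (fun s => ?_) ξ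
  change sh S ρ' (MvPolynomial.X s) = rename g (sh S ρ (MvPolynomial.X s))
  rw [sh_X, sh_X]
  split_ifs with hs
  · simp [h s hs]
  · simp

theorem sh_pb {B S : Finset X} {ρ : X → ℕ} {i : ℕ} (hB : B.Nonempty) (h : B ⊆ S)
    (hρ : ∀ s ∈ B, ρ s = i) : sh S ρ (pb B) = C (pb B) + MvPolynomial.X i := by
  have hc : (B.card : ℚ) ≠ 0 := by exact_mod_cast hB.card_pos.ne'
  have h1 : (C (C (B.card : ℚ)⁻¹) : MvPolynomial ℕ (P X)) * (B.card : MvPolynomial ℕ (P X)) = 1 := by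
    rw [← map_natCast (C : P X →+* MvPolynomial ℕ (P X)), ← map_natCast (C : ℚ →+* P X), ← map_mul,
      ← map_mul, inv_mul_cancel₀ hc, map_one, map_one]
  unfold pb
  rw [map_mul, sh_C, map_sum, Finset.sum_congr rfl fun s hs => by rw [sh_X_of_mem ρ (h hs), hρ s hs],
    Finset.sum_add_distrib, Finset.sum_const, nsmul_eq_mul, mul_add, ← mul_assoc, h1, one_mul,
    map_mul, map_sum]

theorem pb_mem_supported (B : Finset X) : pb B ∈ supported ℚ (B : Set X) :=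
  mul_mem (Subalgebra.algebraMap_mem _ _) (sum_mem fun _ hs => X_mem_supported.2 hs)

theorem pb_isHomogeneous (B : Finset X) : (pb B).IsHomogeneous 1 :=
  (IsHomogeneous.sum B _ 1 fun s _ => isHomogeneous_X ℚ s).C_mul _

theorem coeff_sh_mem_supported (S : Finset X) (ρ : X → ℕ) {T : Set X} {ξ : P X}
    (hξ : ξ ∈ supported ℚ T) (α : ℕ →₀ ℕ) : coeff α (sh S ρ ξ) ∈ supported ℚ T := by
  have hC : ∀ p ∈ supported ℚ T, ∀ α : ℕ →₀ ℕ, coeff α (C p : MvPolynomial ℕ (P X)) ∈ supported ℚ T := by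
    intro p hp α
    rw [coeff_C]
    split_ifs
    · exact hp
    · exact zero_mem _
  rw [supported_eq_adjoin_X] at hξ
  induction hξ using Algebra.adjoin_induction generalizing α with
  | mem x hx =>
    obtain ⟨s, hs, rfl⟩ := hx
    rw [sh_X]
    split_ifs
    · rw [coeff_add, coeff_X]
      refine add_mem (hC _ (X_mem_supported.2 hs) α) ?_
      split_ifs
      · exact one_mem _
      · exact zero_mem _
    · exact hC _ (X_mem_supported.2 hs) α
  | algebraMap r =>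
    rw [algebraMap_eq, sh_C]
    exact hC _ (Subalgebra.algebraMap_mem _ r) α
  | add x y _ _ hx hy => rw [map_add, coeff_add]; exact add_mem (hx α) (hy α)
  | mul x y _ _ hx hy =>
    rw [map_mul, coeff_mul]
    exact sum_mem fun p _ => mul_mem (hx _) (hy _)

theorem bi_sh (S : Finset X) (ρ : X → ℕ) {ξ : P X} {d : ℕ} (h : ξ.IsHomogeneous d) :
    Bi d (sh S ρ ξ) := by
  refine bi_aeval (fun s => ?_) h
  split_ifs
  · exact (bi_C (isHomogeneous_X ℚ s)).add (bi_X _)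
  · exact bi_C (isHomogeneous_X ℚ s)

theorem coeff_sh_homogeneousComponent (S : Finset X) (ρ : X → ℕ) (ξ : P X) (d : ℕ) (α : ℕ →₀ ℕ) :
    coeff α (sh S ρ (homogeneousComponent d ξ)) =
      if Finsupp.degree α ≤ d then
        homogeneousComponent (d - Finsupp.degree α) (coeff α (sh S ρ ξ)) else 0 := by
  split_ifs with hd
  · induction ξ using MvPolynomial.induction_on' with
    | monomial γ c =>
      have h1 := isHomogeneous_monomial c (rfl : Finsupp.degree γ = _)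
      have h2 := bi_sh S ρ h1
      rw [homogeneousComponent_of_mem h1, homogeneousComponent_of_mem (h2.isHomogeneous α)]
      by_cases h3 : d = Finsupp.degree γ
      · rw [if_pos h3, if_pos (by rw [h3])]
      · rw [if_neg h3, map_zero, coeff_zero]
        split_ifs with h4
        · exact (h2.coeff_eq_zero (by omega)).symm
        · rfl
    | add p q hp hq => simp only [map_add, coeff_add, hp, hq]
  · exact (bi_sh S ρ (homogeneousComponent_isHomogeneous d ξ)).coeff_eq_zero (by omega)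

theorem coeff_sh_isHomogeneous (S : Finset X) (ρ : X → ℕ) {ξ : P X} {d : ℕ}
    (h : ξ.IsHomogeneous d) (α : ℕ →₀ ℕ) :
    (coeff α (sh S ρ ξ)).IsHomogeneous (d - Finsupp.degree α) :=
  (bi_sh S ρ h).isHomogeneous α

theorem homogeneousComponent_mem_supported {T : Set X} {ξ : P X} (hξ : ξ ∈ supported ℚ T) (d : ℕ) :
    homogeneousComponent d ξ ∈ supported ℚ T := by
  rw [supported_eq_range_rename] at hξ ⊢
  obtain ⟨p, rfl⟩ := hξ
  exact ⟨homogeneousComponent d p, rename_homogeneousComponent d p⟩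

variable {J J' : Ideal (P X)} {S : Finset X} {ρ : X → ℕ} {ξ ζ : P X} {n m : ℤ}

theorem degLE_iff_hi : DegLE J S ρ ξ n ↔ Hi J n (sh S ρ ξ) := Iff.rfl

theorem DegLE.mono (h : DegLE J S ρ ξ n) (hJ : J ≤ J') (hn : n ≤ m) : DegLE J' S ρ ξ m :=
  fun α hα => hJ (h α (hn.trans_lt hα))

theorem DegLE.zero : DegLE J S ρ 0 n := fun α _ => by simp

theorem DegLE.add (h : DegLE J S ρ ξ n) (h' : DegLE J S ρ ζ n) : DegLE J S ρ (ξ + ζ) n :=
  fun α hα => by
    rw [map_add, coeff_add]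
    exact add_mem (h α hα) (h' α hα)

theorem DegLE.neg (h : DegLE J S ρ ξ n) : DegLE J S ρ (-ξ) n := fun α hα => by
  rw [map_neg, coeff_neg]
  exact neg_mem (h α hα)

theorem DegLE.sub (h : DegLE J S ρ ξ n) (h' : DegLE J S ρ ζ n) : DegLE J S ρ (ξ - ζ) n := by
  rw [sub_eq_add_neg]
  exact h.add h'.neg

theorem DegLE.smul (h : DegLE J S ρ ξ n) (c : ℚ) : DegLE J S ρ (c • ξ) n := fun α hα => by
  rw [map_smul, coeff_smul]
  exact Submodule.smul_of_tower_mem _ c (h α hα)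

theorem DegLE.sum {ι : Type*} {s : Finset ι} {f : ι → P X} (h : ∀ i ∈ s, DegLE J S ρ (f i) n) :
    DegLE J S ρ (∑ i ∈ s, f i) n :=
  Finset.sum_induction f (fun x => DegLE J S ρ x n) (fun _ _ => DegLE.add) DegLE.zero h

theorem DegLE.of_span {T : Set (P X)} (K : P X) (h : ∀ η ∈ T, DegLE J S ρ (K * η) n) {η : P X}
    (hη : η ∈ Submodule.span ℚ T) : DegLE J S ρ (K * η) n := by
  induction hη using Submodule.span_induction with
  | mem x hx => exact h x hx
  | zero => rw [mul_zero]; exact DegLE.zero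
  | add x y _ _ hx hy => rw [mul_add]; exact hx.add hy
  | smul c x _ hx => rw [mul_smul_comm]; exact hx.smul c

theorem DegLE.mul (h : DegLE J S ρ ξ n) (h' : DegLE J S ρ ζ m) : DegLE J S ρ (ξ * ζ) (n + m) := by
  rw [degLE_iff_hi, map_mul]
  exact Hi.mul h h'

theorem degLE_one : DegLE J S ρ 1 0 := fun α hα => by
  classical
  rw [map_one, coeff_one, if_neg]
  · exact J.zero_mem
  · rintro rfl
    simp at hα

theorem DegLE.prod {ι : Type*} {s : Finset ι} {f : ι → P X} {d : ι → ℤ}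
    (h : ∀ i ∈ s, DegLE J S ρ (f i) (d i)) : DegLE J S ρ (∏ i ∈ s, f i) (∑ i ∈ s, d i) := by
  classical
  induction s using Finset.induction_on with
  | empty => simpa using degLE_one
  | insert i s hi ih =>
    rw [Finset.sum_insert hi, Finset.prod_insert hi]
    exact (h i (mem_insert_self _ _)).mul (ih fun j hj => h j (mem_insert_of_mem hj))

theorem DegLE.pow (h : DegLE J S ρ ξ n) (k : ℕ) : DegLE J S ρ (ξ ^ k) (k * n) := by
  induction k with
  | zero => simpa using degLE_one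
  | succ k ih =>
    rw [pow_succ, Nat.cast_succ, add_mul, one_mul]
    exact ih.mul h

theorem DegLE.mem_of_neg (h : DegLE J S ρ ξ n) (hn : n < 0) : ξ ∈ J := by
  have := h 0 (by simpa using hn)
  rwa [coeff_zero_sh] at this

theorem degLE_totalDegree (J : Ideal (P X)) (S : Finset X) (ρ : X → ℕ) (ξ : P X) :
    DegLE J S ρ ξ ξ.totalDegree := by
  intro α hα
  rw [← sum_homogeneousComponent ξ, map_sum, coeff_sum]
  refine Ideal.sum_mem _ fun d hd => ?_
  rw [(bi_sh S ρ (homogeneousComponent_isHomogeneous d ξ)).coeff_eq_zero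
    (by have := Finset.mem_range.1 hd; omega)]
  exact J.zero_mem

/-- coarsening (or relabelling) the shift does not increase the degree -/
theorem DegLE.relabel {ρ' : X → ℕ} (h : DegLE J S ρ ξ n)
    (hρ : ∀ s ∈ S, ∀ t ∈ S, ρ s = ρ t → ρ' s = ρ' t) : DegLE J S ρ' ξ n := by
  obtain ⟨g, hg⟩ := exists_relabel hρ
  rw [degLE_iff_hi, sh_relabel hg, rename_eq_aeval]
  exact Hi.aeval h fun i => isHomogeneous_X _ _

theorem sh_restrict {B : Finset X} (hB : B ⊆ S) (hρ : ∀ s ∈ B, ∀ t ∈ S, ρ s = ρ t → t ∈ B)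
    (ξ : P X) : sh B ρ ξ = aeval (fun i => if i ∈ B.image ρ then
      (MvPolynomial.X i : MvPolynomial ℕ (P X)) else 0) (sh S ρ ξ) := by
  refine ringHom_eq_of_X (sh B ρ).toRingHom
    ((aeval (fun i => if i ∈ B.image ρ then (MvPolynomial.X i : MvPolynomial ℕ (P X)) else 0) :
      MvPolynomial ℕ (P X) →ₐ[P X] _).toRingHom.comp (sh S ρ).toRingHom) (fun s => ?_) ξ
  change sh B ρ (MvPolynomial.X s) = aeval _ (sh S ρ (MvPolynomial.X s))
  by_cases hs : s ∈ B
  · rw [sh_X_of_mem ρ hs, sh_X_of_mem ρ (hB hs), map_add, aeval_C, aeval_X,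
      if_pos (Finset.mem_image_of_mem ρ hs), algebraMap_eq]
  · rw [sh_X_of_notMem ρ hs]
    by_cases hs' : s ∈ S
    · rw [sh_X_of_mem ρ hs', map_add, aeval_C, aeval_X, if_neg, add_zero, algebraMap_eq]
      intro h
      obtain ⟨b, hb, e⟩ := Finset.mem_image.1 h
      exact hs (hρ b hb s hs' e)
    · rw [sh_X_of_notMem ρ hs', aeval_C, algebraMap_eq]

/-- shifting only a union of blocks does not increase the degree -/
theorem DegLE.restrict {B : Finset X} (h : DegLE J S ρ ξ n) (hB : B ⊆ S)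
    (hρ : ∀ s ∈ B, ∀ t ∈ S, ρ s = ρ t → t ∈ B) : DegLE J B ρ ξ n := by
  rw [degLE_iff_hi, sh_restrict hB hρ]
  refine Hi.aeval h fun i => ?_
  split_ifs
  · exact isHomogeneous_X _ _
  · exact isHomogeneous_zero _ _ _

/-- multiplication by a shift invariant element which maps `J'` into `J` -/
theorem DegLE.mul_inv {K : P X} (hK : sh S ρ K = C K) (hJ : ∀ f ∈ J', K * f ∈ J)
    (h : DegLE J' S ρ ξ n) : DegLE J S ρ (K * ξ) n := fun α hα => by
  rw [map_mul, hK, coeff_C_mul]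
  exact hJ _ (h α hα)

/-- the substitution `t_i ↦ t'_i + t_(g i)` (inner variables `t'`, outer variables `t`) -/
noncomputable def dsh (X : Type) (g : ℕ → ℕ) :
    MvPolynomial ℕ (P X) →ₐ[P X] MvPolynomial ℕ (MvPolynomial ℕ (P X)) :=
  aeval (fun i => C (MvPolynomial.X i) + MvPolynomial.X (g i))

theorem dsh_C (g : ℕ → ℕ) (a : P X) : dsh X g (C a) = C (C a) := aeval_C _ _

theorem dsh_X (g : ℕ → ℕ) (i : ℕ) :
    dsh X g (MvPolynomial.X i) = C (MvPolynomial.X i) + MvPolynomial.X (g i) := aeval_X _ _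

/-- the raw double shift identity -/
theorem map_sh_sh {ρ' : X → ℕ} {g : ℕ → ℕ} (hg : ∀ s ∈ S, ρ s = g (ρ' s)) (ξ : P X) :
    MvPolynomial.map (sh S ρ').toRingHom (sh S ρ ξ) = dsh X g (sh S ρ' ξ) := by
  refine ringHom_eq_of_X ((MvPolynomial.map (sh S ρ').toRingHom).comp (sh S ρ).toRingHom)
    ((dsh X g).toRingHom.comp (sh S ρ').toRingHom) (fun s => ?_) ξ
  change MvPolynomial.map (sh S ρ').toRingHom (sh S ρ (MvPolynomial.X s)) =
    dsh X g (sh S ρ' (MvPolynomial.X s))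
  by_cases hs : s ∈ S
  · rw [sh_X_of_mem ρ hs, map_add, map_C, map_X]
    change C (sh S ρ' (MvPolynomial.X s)) + _ = _
    rw [sh_X_of_mem ρ' hs, map_add, map_add, dsh_C, dsh_X, hg s hs, add_assoc]
  · rw [sh_X_of_notMem ρ hs, map_C]
    change C (sh S ρ' (MvPolynomial.X s)) = _
    rw [sh_X_of_notMem ρ' hs, dsh_C]

theorem sh_coeff_sh {ρ' : X → ℕ} {g : ℕ → ℕ} (hg : ∀ s ∈ S, ρ s = g (ρ' s)) (ξ : P X)
    (α : ℕ →₀ ℕ) : sh S ρ' (coeff α (sh S ρ ξ)) = coeff α (dsh X g (sh S ρ' ξ)) := by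
  rw [← map_sh_sh hg, coeff_map]
  rfl

/-- double shift: the coefficients of the shift along a coarsening `ρ` of `ρ'` -/
theorem DegLE.coeff_sh {ρ' : X → ℕ} (h : DegLE J S ρ' ξ n)
    (hρ : ∀ s ∈ S, ∀ t ∈ S, ρ' s = ρ' t → ρ s = ρ t) (α : ℕ →₀ ℕ) :
    DegLE J S ρ' (coeff α (sh S ρ ξ)) (n - (Finsupp.degree α : ℕ)) := by
  obtain ⟨g, hg⟩ := exists_relabel hρ
  rw [degLE_iff_hi, sh_coeff_sh hg]
  exact Hi.coeff_aeval h (fun i => (bi_C (isHomogeneous_X _ i)).add (bi_X _)) α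

end shift

section kernels
variable {C X : Type} [DecidableEq X] (Q : Quiv C X)

theorem X_sub_X_pow_mem_supported {T : Set X} {s t : X} (hs : s ∈ T) (ht : t ∈ T) (n : ℕ) :
    ((MvPolynomial.X t - MvPolynomial.X s) ^ n : P X) ∈ supported ℚ T :=
  pow_mem (sub_mem (X_mem_supported.2 ht) (X_mem_supported.2 hs)) n

theorem X_sub_X_pow_isHomogeneous {σ : Type} (s t : σ) (n : ℕ) :
    ((MvPolynomial.X t - MvPolynomial.X s) ^ n : MvPolynomial σ ℚ).IsHomogeneous n := by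
  have h := ((isHomogeneous_X ℚ t).sub (isHomogeneous_X ℚ s)).pow n
  simpa using h

theorem Quiv.Kp_mem_supported (A B : Finset X) {T : Set X} (hA : ↑A ⊆ T) (hB : ↑B ⊆ T) :
    Q.Kp A B ∈ supported ℚ T :=
  prod_mem fun _ hs => prod_mem fun _ ht => X_sub_X_pow_mem_supported (hA hs) (hB ht) _

theorem Quiv.Kl_mem_supported (S : Finset X) (π : X → ℕ) : Q.Kl S π ∈ supported ℚ (S : Set X) :=
  prod_mem fun _ hs => prod_mem fun _ ht =>
    X_sub_X_pow_mem_supported (mem_coe.2 hs) (mem_coe.2 (mem_filter.1 ht).1) _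

theorem Quiv.Kp_isHomogeneous (A B : Finset X) :
    (Q.Kp A B).IsHomogeneous (∑ s ∈ A, ∑ t ∈ B, Q.ar s t) :=
  IsHomogeneous.prod _ _ _ fun _ _ => IsHomogeneous.prod _ _ _ fun _ _ =>
    X_sub_X_pow_isHomogeneous _ _ _

theorem Quiv.Kl_isHomogeneous (S : Finset X) (π : X → ℕ) :
    (Q.Kl S π).IsHomogeneous (Q.al S π) :=
  IsHomogeneous.prod _ _ _ fun _ _ => IsHomogeneous.prod _ _ _ fun _ _ =>
    X_sub_X_pow_isHomogeneous _ _ _

theorem Quiv.Dl_isHomogeneous (S : Finset X) (π ρ : X → ℕ) :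
    (Q.Dl S π ρ).IsHomogeneous (Q.al S π) :=
  IsHomogeneous.prod _ _ _ fun _ _ => IsHomogeneous.prod _ _ _ fun _ _ =>
    X_sub_X_pow_isHomogeneous _ _ _

theorem Quiv.Dl_ne_zero (S : Finset X) {π ρ : X → ℕ}
    (h : ∀ s ∈ S, ∀ t ∈ S, ρ s = ρ t → π s = π t) : Q.Dl S π ρ ≠ 0 := by
  unfold Quiv.Dl
  refine prod_ne_zero_iff.2 fun s hs => prod_ne_zero_iff.2 fun t ht => pow_ne_zero _ ?_
  rw [mem_filter] at ht
  intro h0
  have h1 : ρ t = ρ s := X_injective (sub_eq_zero.1 h0)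
  exact absurd (h s hs t ht.1 h1.symm) (ne_of_lt ht.2)

theorem Quiv.Kl_congr (S : Finset X) {π π' : X → ℕ}
    (h : ∀ s ∈ S, ∀ t ∈ S, π s < π t ↔ π' s < π' t) : Q.Kl S π = Q.Kl S π' :=
  prod_congr rfl fun s hs => prod_congr (filter_congr fun t ht => h s hs t ht) fun _ _ => rfl

theorem Quiv.al_congr' (S : Finset X) {π π' : X → ℕ}
    (h : ∀ s ∈ S, ∀ t ∈ S, π s < π t ↔ π' s < π' t) : Q.al S π = Q.al S π' :=
  sum_congr rfl fun s hs => sum_congr (filter_congr fun t ht => h s hs t ht) fun _ _ => rfl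

theorem Quiv.Kl_const (S : Finset X) : Q.Kl S (fun _ => 0) = 1 := by simp [Quiv.Kl]

theorem Quiv.al_const (S : Finset X) : Q.al S (fun _ => 0) = 0 := by simp [Quiv.al]

theorem Quiv.sh_Kp {S A B : Finset X} {ρ : X → ℕ}
    (h : ∀ s ∈ A, ∀ t ∈ B, s ∈ S ∧ t ∈ S ∧ ρ s = ρ t) : sh S ρ (Q.Kp A B) = MvPolynomial.C (Q.Kp A B) := by
  unfold Quiv.Kp
  rw [map_prod, map_prod]
  refine prod_congr rfl fun s hs => ?_
  rw [map_prod, map_prod]
  refine prod_congr rfl fun t ht => ?_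
  obtain ⟨h1, h2, h3⟩ := h s hs t ht
  rw [map_pow, map_pow, map_sub, map_sub]
  congr 1
  simp only [sh, aeval_X, if_pos h1, if_pos h2, h3]
  ring

theorem Quiv.Kp_dvd_Kp {A B A' B' : Finset X} (hA : A ⊆ A') (hB : B ⊆ B') : Q.Kp A B ∣ Q.Kp A' B' :=
  (prod_dvd_prod_of_dvd _ _ fun _ _ => prod_dvd_prod_of_subset _ _ _ hB).trans
    (prod_dvd_prod_of_subset _ _ _ hA)

theorem Quiv.Kp_dvd_Kl {S A B : Finset X} {π : X → ℕ} (hA : A ⊆ S) (hB : B ⊆ S)
    (h : ∀ s ∈ A, ∀ t ∈ B, π s < π t) : Q.Kp A B ∣ Q.Kl S π :=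
  (prod_dvd_prod_of_dvd _ _ fun s hs => prod_dvd_prod_of_subset _ _ _
    (fun t ht => mem_filter.2 ⟨hB ht, h s hs t ht⟩)).trans (prod_dvd_prod_of_subset _ _ _ hA)

end kernels

section ideals
variable {C X : Type} [Fintype C] [DecidableEq C] [DecidableEq X] {Q : Quiv C X} (Z : Stab Q)

theorem Stab.Kp_mem_I {S A : Finset X} {ρ : X → ℕ} {i : ℕ} (hA : A.Nonempty) (h : A ⊆ fib S ρ i)
    (hs : Z.sl (fib S ρ i) < Z.sl A) : Q.Kp A (fib S ρ i \ A) ∈ Z.I S ρ :=
  Ideal.subset_span ⟨i, A, hA, h, hs, rfl⟩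

/-- if every block of `(B, τ)` is a block of `(S, ρ)` -/
theorem Stab.I_le_of_blocks {B S : Finset X} {τ ρ : X → ℕ}
    (h : ∀ s ∈ B, fib B τ (τ s) = fib S ρ (ρ s)) : Z.I B τ ≤ Z.I S ρ := by
  refine Ideal.span_le.2 ?_
  rintro f ⟨i, A, hA, hAi, hs, rfl⟩
  obtain ⟨s, hsA⟩ := id hA
  obtain ⟨hsB, rfl⟩ := mem_fib.1 (hAi hsA)
  rw [h s hsB] at hAi hs ⊢
  exact Z.Kp_mem_I hA hAi hs

theorem Stab.I_congr {S : Finset X} {π ρ : X → ℕ} (h : SameKer S π ρ) : Z.I S π = Z.I S ρ :=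
  le_antisymm (Z.I_le_of_blocks fun _ hs => h.fib_eq hs)
    (Z.I_le_of_blocks fun _ hs => (h.fib_eq hs).symm)

theorem Stab.I0_fib_le (S : Finset X) (ρ : X → ℕ) (i : ℕ) : Z.I0 (fib S ρ i) ≤ Z.I S ρ := by
  refine Z.I_le_of_blocks fun s hs => ?_
  rw [fib_const, (mem_fib.1 hs).2]

theorem Stab.I_eq_iSup (S : Finset X) (ρ : X → ℕ) :
    Z.I S ρ = ⨆ i ∈ S.image ρ, Z.I0 (fib S ρ i) := by
  refine le_antisymm (Ideal.span_le.2 ?_) (iSup₂_le fun i _ => Z.I0_fib_le S ρ i)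
  rintro f ⟨i, A, hA, hAi, hs, rfl⟩
  obtain ⟨s, hsA⟩ := id hA
  obtain ⟨hsS, hi⟩ := mem_fib.1 (hAi hsA)
  have hmem : i ∈ S.image ρ := mem_image.2 ⟨s, hsS, hi⟩
  have h1 : Q.Kp A (fib S ρ i \ A) ∈ Z.I0 (fib S ρ i) := by
    have h2 := Z.Kp_mem_I (S := fib S ρ i) (ρ := fun _ => 0) (i := 0) hA
      (by rwa [fib_const]) (by rwa [fib_const])
    rwa [fib_const] at h2
  exact (le_iSup₂ (f := fun i (_ : i ∈ S.image ρ) => Z.I0 (fib S ρ i)) i hmem) h1

/-- a refinement whose blocks have the slopes of the coarse blocks has a larger ideal -/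
theorem Stab.I_le_of_refines {S : Finset X} {τ ρ : X → ℕ}
    (h : ∀ s ∈ S, ∀ t ∈ S, ρ s = ρ t → τ s = τ t)
    (hs : ∀ s ∈ S, Z.sl (fib S ρ (ρ s)) = Z.sl (fib S τ (τ s))) : Z.I S τ ≤ Z.I S ρ := by
  refine Ideal.span_le.2 ?_
  rintro f ⟨i, A, hA, hAi, hlt, rfl⟩
  set μ := Z.sl (fib S τ i) with hμ
  rw [Z.lt_sl_iff hA, ← sum_fiberwise_of_maps_to (t := A.image ρ) (g := ρ)
    (fun s hs => mem_image_of_mem ρ hs)] at hlt
  obtain ⟨j, hj, hpos⟩ := exists_lt_of_sum_lt (f := fun _ => (0 : ℚ))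
    (lt_of_eq_of_lt sum_const_zero hlt)
  obtain ⟨s, hsA, rfl⟩ := mem_image.1 hj
  obtain ⟨hsS, hτ⟩ := mem_fib.1 (hAi hsA)
  set A' := A.filter (fun t => ρ t = ρ s) with hA'
  have hne : A'.Nonempty := ⟨s, mem_filter.2 ⟨hsA, rfl⟩⟩
  have hsub : A' ⊆ fib S ρ (ρ s) := fun t ht =>
    mem_fib.2 ⟨(mem_fib.1 (hAi (mem_filter.1 ht).1)).1, (mem_filter.1 ht).2⟩
  have hsl : Z.sl (fib S ρ (ρ s)) < Z.sl A' := by
    rw [hs s hsS, hτ, ← hμ, Z.lt_sl_iff hne]
    exact hpos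
  refine Ideal.mem_of_dvd _ ?_ (Z.Kp_mem_I hne hsub hsl)
  refine Q.Kp_dvd_Kp (filter_subset _ _) fun t ht => ?_
  obtain ⟨ht1, ht2⟩ := mem_sdiff.1 ht
  obtain ⟨htS, hρ⟩ := mem_fib.1 ht1
  refine mem_sdiff.2 ⟨mem_fib.2 ⟨htS, ?_⟩, fun htA => ht2 (mem_filter.2 ⟨htA, hρ⟩)⟩
  rw [h t htS s hsS hρ, hτ]

theorem Stab.I0_le_of_pure {S : Finset X} {ρ : X → ℕ} (h : Z.Pure S ρ) : Z.I0 S ≤ Z.I S ρ :=
  Z.I_le_of_refines (fun _ _ _ _ _ => rfl) fun s hs => by rw [fib_const]; exact h s hs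

/-- shifting along a coarsening preserves the ideal coefficientwise -/
theorem Stab.coeff_sh_mem_I {S : Finset X} {τ ρ : X → ℕ}
    (h : ∀ s ∈ S, ∀ t ∈ S, τ s = τ t → ρ s = ρ t) {ξ : P X} (hξ : ξ ∈ Z.I S τ) (α : ℕ →₀ ℕ) :
    coeff α (sh S ρ ξ) ∈ Z.I S τ := by
  classical
  induction hξ using Submodule.span_induction generalizing α with
  | mem f hf =>
    obtain ⟨i, A, hA, hAi, hlt, rfl⟩ := hf
    rw [Q.sh_Kp, coeff_C]
    · split_ifs
      · exact Z.Kp_mem_I hA hAi hlt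
      · exact zero_mem _
    · intro s hs t ht
      obtain ⟨hsS, hs'⟩ := mem_fib.1 (hAi hs)
      obtain ⟨htS, ht'⟩ := mem_fib.1 (mem_sdiff.1 ht).1
      exact ⟨hsS, htS, h s hsS t htS (hs'.trans ht'.symm)⟩
  | zero => simp
  | add x y _ _ hx hy =>
    rw [map_add, coeff_add]
    exact add_mem (hx α) (hy α)
  | smul a x _ hx =>
    rw [smul_eq_mul, map_mul, coeff_mul]
    exact sum_mem fun p _ => Ideal.mul_mem_left _ _ (hx _)

theorem Stab.degLE_of_mem_I {S : Finset X} {ρ : X → ℕ} {ξ : P X} (hξ : ξ ∈ Z.I S ρ) (n : ℤ) :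
    DegLE (Z.I S ρ) S ρ ξ n := fun α _ => Z.coeff_sh_mem_I (fun _ _ _ _ h => h) hξ α

theorem Stab.homogeneousComponent_mem_I {S : Finset X} {ρ : X → ℕ} {ξ : P X} (hξ : ξ ∈ Z.I S ρ)
    (d : ℕ) : homogeneousComponent d ξ ∈ Z.I S ρ := by
  classical
  let _ : GradedAlgebra (homogeneousSubmodule X ℚ) := MvPolynomial.gradedAlgebra
  have hI : (Z.I S ρ).IsHomogeneous (homogeneousSubmodule X ℚ) := by
    refine Ideal.homogeneous_span _ _ ?_
    rintro f ⟨i, A, -, -, -, rfl⟩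
    exact ⟨_, Q.Kp_isHomogeneous A _⟩
  have h := hI d hξ
  have e : (DirectSum.decompose (homogeneousSubmodule X ℚ) ξ d : P X) =
      homogeneousComponent d ξ := MvPolynomial.decomposition.decompose'_apply ξ d
  rwa [e] at h

theorem sum_sum_ite_fib {X : Type} (S : Finset X) (π : X → ℕ) (p : ℕ → ℕ → Prop)
    [∀ i j, Decidable (p i j)] (f : X → X → ℕ) :
    ∑ s ∈ S, ∑ t ∈ S, (if p (π s) (π t) then f s t else 0) =
      ∑ i ∈ S.image π, ∑ j ∈ S.image π,
        if p i j then ∑ s ∈ fib S π i, ∑ t ∈ fib S π j, f s t else 0 := by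
  rw [← sum_fiberwise_of_maps_to (t := S.image π) (g := π) (fun s hs => mem_image_of_mem π hs)]
  refine sum_congr rfl fun i _ => ?_
  have h1 : ∀ s ∈ S.filter (fun s => π s = i), ∑ t ∈ S, (if p (π s) (π t) then f s t else 0) =
      ∑ j ∈ S.image π, if p i j then ∑ t ∈ fib S π j, f s t else 0 := by
    intro s hs
    rw [← sum_fiberwise_of_maps_to (t := S.image π) (g := π) (fun s hs => mem_image_of_mem π hs)]
    refine sum_congr rfl fun j _ => ?_
    rw [sum_congr rfl (g := fun t => if p i j then f s t else 0)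
      (fun t ht => by rw [(mem_filter.1 hs).2, (mem_filter.1 ht).2])]
    split_ifs
    · rfl
    · exact sum_const_zero
  rw [sum_congr rfl h1, sum_comm]
  refine sum_congr rfl fun j _ => ?_
  split_ifs
  · rfl
  · exact sum_const_zero

/-- the degree of the kernel does not depend on the slope-decreasing order of the blocks -/
theorem Stab.al_congr {S : Finset X} {π ρ : X → ℕ} (hπ : Z.Anti S π) (hρ : Z.Anti S ρ)
    (h : SameKer S π ρ) : Q.al S π = Q.al S ρ := by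
  obtain ⟨g, hg⟩ := exists_relabel (S := S) (π := π) (ρ := ρ) fun s hs t ht => (h s hs t ht).1
  have key : ∑ s ∈ S, ∑ t ∈ S, (if π s < π t ∧ g (π t) < g (π s) then Q.ar s t else 0) =
      ∑ s ∈ S, ∑ t ∈ S, (if π s < π t ∧ g (π t) < g (π s) then Q.ar t s else 0) := by
    rw [sum_sum_ite_fib S π (fun i j => i < j ∧ g j < g i) Q.ar,
      sum_sum_ite_fib S π (fun i j => i < j ∧ g j < g i) (fun s t => Q.ar t s)]
    refine sum_congr rfl fun i hi => sum_congr rfl fun j hj => ?_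
    obtain ⟨s, hs, rfl⟩ := mem_image.1 hi
    obtain ⟨t, ht, rfl⟩ := mem_image.1 hj
    split_ifs with hc
    · have h1 := hπ s hs t ht hc.1.le
      have h2 := hρ t ht s hs (by rw [hg s hs, hg t ht]; exact hc.2.le)
      rw [← h.fib_eq hs, ← h.fib_eq ht] at h2
      rw [Z.ar_symm (le_antisymm h2 h1), sum_comm]
    · rfl
  have e1 : Q.al S π = ∑ s ∈ S, ∑ t ∈ S, (if π s < π t ∧ ρ s < ρ t then Q.ar s t else 0) +
      ∑ s ∈ S, ∑ t ∈ S, (if π s < π t ∧ g (π t) < g (π s) then Q.ar s t else 0) := by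
    unfold Quiv.al
    rw [← sum_add_distrib]
    refine sum_congr rfl fun s hs => ?_
    rw [← sum_add_distrib, sum_filter]
    refine sum_congr rfl fun t ht => ?_
    have h3 := h s hs t ht
    rw [← hg s hs, ← hg t ht]
    split_ifs <;> omega
  have e2 : Q.al S ρ = ∑ s ∈ S, ∑ t ∈ S, (if π s < π t ∧ ρ s < ρ t then Q.ar s t else 0) +
      ∑ s ∈ S, ∑ t ∈ S, (if π s < π t ∧ g (π t) < g (π s) then Q.ar t s else 0) := by
    unfold Quiv.al
    rw [sum_comm (s := S) (t := S)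
      (f := fun s t => if π s < π t ∧ g (π t) < g (π s) then Q.ar t s else 0), ← sum_add_distrib]
    refine sum_congr rfl fun s hs => ?_
    rw [← sum_add_distrib, sum_filter]
    refine sum_congr rfl fun t ht => ?_
    have h3 := h s hs t ht
    rw [← hg s hs, ← hg t ht]
    split_ifs <;> omega
  rw [e1, e2, key]

theorem Stab.degLE_congr {S : Finset X} {π ρ : X → ℕ} (h : SameKer S π ρ) {ξ : P X} {n : ℤ}
    (hξ : DegLE (Z.I S π) S π ξ n) : DegLE (Z.I S ρ) S ρ ξ n := by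
  rw [← Z.I_congr h]
  exact hξ.relabel fun s hs t ht => (h s hs t ht).1

variable {Z} {S : Finset X} {e : ℤ} {k : ℕ} {ξ ζ : P X}

theorem Stab.F.add (h : Z.F S e k ξ) (h' : Z.F S e k ζ) : Z.F S e k (ξ + ζ) := fun ρ hρ =>
  ⟨(h ρ hρ).1.add (h' ρ hρ).1, fun hk => ((h ρ hρ).2 hk).add ((h' ρ hρ).2 hk)⟩

theorem Stab.F.sub (h : Z.F S e k ξ) (h' : Z.F S e k ζ) : Z.F S e k (ξ - ζ) := fun ρ hρ =>
  ⟨(h ρ hρ).1.sub (h' ρ hρ).1, fun hk => ((h ρ hρ).2 hk).sub ((h' ρ hρ).2 hk)⟩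

theorem Stab.F.smul (h : Z.F S e k ξ) (c : ℚ) : Z.F S e k (c • ξ) := fun ρ hρ =>
  ⟨(h ρ hρ).1.smul c, fun hk => ((h ρ hρ).2 hk).smul c⟩

theorem Stab.F.sum {ι : Type*} {s : Finset ι} {f : ι → P X} (h : ∀ i ∈ s, Z.F S e k (f i)) :
    Z.F S e k (∑ i ∈ s, f i) := fun ρ hρ =>
  ⟨DegLE.sum fun i hi => (h i hi ρ hρ).1, fun hk => DegLE.sum fun i hi => (h i hi ρ hρ).2 hk⟩

theorem Stab.F.mono_k {k' : ℕ} (h : Z.F S e k ξ) (hk : k ≤ k') : Z.F S e k' ξ := fun ρ hρ =>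
  ⟨(h ρ hρ).1, fun hk' => (h ρ hρ).2 (lt_of_le_of_lt hk hk')⟩

theorem Stab.F.of_zero (h : Z.F S e 0 ξ) (hS : S.Nonempty) : Z.F S (e - 1) S.card ξ := by
  intro ρ hρ
  refine ⟨?_, fun hk => absurd card_image_le (not_le.2 hk)⟩
  have h1 := (h ρ hρ).2 (card_pos.2 (hS.image ρ))
  rwa [add_sub_assoc] at h1

theorem Stab.F.mem_I0 (h : Z.F S e k ξ) (he : e < 0) : ξ ∈ Z.I0 S :=
  (h _ (Z.pure_const S)).1.mem_of_neg (by rw [Q.al_const]; simpa using he)

theorem Stab.F_of_mem_I0 (h : ξ ∈ Z.I0 S) (e : ℤ) (k : ℕ) : Z.F S e k ξ := fun _ hρ =>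
  ⟨Z.degLE_of_mem_I (Z.I0_le_of_pure hρ h) _, fun _ => Z.degLE_of_mem_I (Z.I0_le_of_pure hρ h) _⟩

theorem Stab.F_totalDegree (Z : Stab Q) (S : Finset X) (ξ : P X) :
    Z.F S ξ.totalDegree S.card ξ := fun ρ _ =>
  ⟨(degLE_totalDegree _ S ρ ξ).mono le_rfl (by omega),
    fun hk => absurd card_image_le (not_le.2 hk)⟩

theorem Stab.mem_V : ξ ∈ Z.V S ↔ ξ ∈ supported ℚ (S : Set X) ∧ Z.F S 0 1 ξ := Iff.rfl

theorem Stab.degLE_homogeneousComponent {ρ : X → ℕ} {n : ℤ} (h : DegLE (Z.I S ρ) S ρ ξ n) (d : ℕ) :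
    DegLE (Z.I S ρ) S ρ (homogeneousComponent d ξ) n := by
  intro α hα
  rw [coeff_sh_homogeneousComponent]
  split_ifs
  · exact Z.homogeneousComponent_mem_I (h α hα) _
  · exact zero_mem _

theorem Stab.homogeneousComponent_mem_V (h : ξ ∈ Z.V S) (d : ℕ) :
    homogeneousComponent d ξ ∈ Z.V S :=
  ⟨homogeneousComponent_mem_supported h.1 d, fun ρ hρ =>
    ⟨Stab.degLE_homogeneousComponent (h.2 ρ hρ).1 d,
      fun hk => Stab.degLE_homogeneousComponent ((h.2 ρ hρ).2 hk) d⟩⟩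

/-- generators are translation invariant modulo `I0` -/
theorem Stab.V_degLE_zero {B : Finset X} {ρ : X → ℕ} (h : ξ ∈ Z.V B) (hB : B ⊆ S)
    (hρ : ∀ s ∈ B, ∀ t ∈ B, ρ s = ρ t) : DegLE (Z.I0 B) S ρ ξ 0 := by
  have h1 : DegLE (Z.I0 B) B (fun _ => 0) ξ 0 := by
    have h2 := (h.2 _ (Z.pure_const B)).1
    rwa [Q.al_const, Nat.cast_zero, add_zero] at h2
  have h2 : DegLE (Z.I0 B) B ρ ξ 0 := h1.relabel fun s hs t ht _ => hρ s hs t ht
  intro α hα
  rw [sh_of_subset ρ h.1 hB]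
  exact h2 α hα

theorem Stab.Terms.mem_supported {π : X → ℕ} {m : ℕ} (h : ξ ∈ Z.Terms S π m) :
    ξ ∈ supported ℚ (S : Set X) := by
  obtain ⟨u, j, hu, -, rfl⟩ := h
  refine prod_mem fun i hi => ?_
  have hle := supported_mono (R := ℚ) (coe_subset.2 (fib_subset S π i))
  exact hle (mul_mem (hu i hi).1 (pow_mem (pb_mem_supported _) _))

theorem Stab.Terms.congr {π ρ : X → ℕ} {m : ℕ} (h : ξ ∈ Z.Terms S π m) (hk : SameKer S π ρ) :
    ξ ∈ Z.Terms S ρ m := by
  obtain ⟨u, j, hu, hm, rfl⟩ := h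
  obtain ⟨g, hg⟩ := exists_relabel (S := S) (π := ρ) (ρ := π) fun s hs t ht => (hk s hs t ht).2
  have himg : S.image π = (S.image ρ).image g := by
    rw [image_image]
    exact image_congr fun s hs => hg s hs
  have hinj : Set.InjOn g (S.image ρ : Set ℕ) := by
    intro a ha b hb hab
    obtain ⟨s, hs, rfl⟩ := mem_image.1 (mem_coe.1 ha)
    obtain ⟨t, ht, rfl⟩ := mem_image.1 (mem_coe.1 hb)
    exact (hk s hs t ht).1 (by rw [hg s hs, hg t ht, hab])
  have hfib : ∀ i ∈ S.image ρ, fib S π (g i) = fib S ρ i := by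
    intro i hi
    obtain ⟨s, hs, rfl⟩ := mem_image.1 hi
    rw [← hg s hs, hk.fib_eq hs]
  refine ⟨fun i => u (g i), fun i => j (g i), fun i hi => ?_, ?_, ?_⟩
  · rw [← hfib i hi]
    exact hu _ (himg ▸ mem_image_of_mem g hi)
  · rw [← hm, himg, sum_image hinj]
  · rw [himg, prod_image hinj]
    exact prod_congr rfl fun i hi => by rw [hfib i hi]

end ideals

end Crest.Agent.R59
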