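import Crest.Agent.R59.CohaBasic

/-! # Polynomial COHA: polygon comparison and the basic degree bound (auxiliary lemmas) -/

set_option autoImplicit false

namespace Crest.Agent.R59
open MvPolynomial Finset

namespace BoundAux

/-- Abel summation -/
theorem abel {X : Type} (S : Finset X) (π : X → ℕ) (f g : X → ℚ)
    (hf : ∀ s ∈ S, ∀ t ∈ S, π s ≤ π t → f t ≤ f s)
    (hg : ∀ i, ∑ s ∈ S with π s < i, g s ≤ 0) (h0 : ∑ s ∈ S, g s = 0) :
    ∑ s ∈ S, f s * g s ≤ 0 := by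
  have key : ∀ (n : ℕ) (c : ℚ), (∀ s ∈ S, π s < n → c ≤ f s) →
      ∑ s ∈ S with π s < n, (f s - c) * g s ≤ 0 := by
    intro n
    induction n with
    | zero => simp
    | succ n ih =>
      intro c hc
      by_cases h : ∃ t ∈ S, π t = n
      · obtain ⟨t, ht, htn⟩ := h
        have h1 : ∑ s ∈ S with π s < n + 1, (f s - f t) * g s =
            ∑ s ∈ S with π s < n, (f s - f t) * g s := by
          refine (sum_subset (fun s hs => ?_) fun s hs hs' => ?_).symm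
          · rw [mem_filter] at hs ⊢
            exact ⟨hs.1, by omega⟩
          · simp only [mem_filter, not_and] at hs hs'
            have := hs' hs.1
            rw [le_antisymm (hf t ht s hs.1 (by omega)) (hf s hs.1 t ht (by omega)), sub_self,
              zero_mul]
        have h2 := ih (f t) fun s hs hsn => hf s hs t ht (by omega)
        have h3 := mul_nonpos_of_nonneg_of_nonpos (sub_nonneg.2 (hc t ht (by omega))) (hg (n + 1))
        have h4 : ∑ s ∈ S with π s < n + 1, (f s - c) * g s =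
            ∑ s ∈ S with π s < n + 1, (f s - f t) * g s +
              (f t - c) * ∑ s ∈ S with π s < n + 1, g s := by
          rw [mul_sum, ← sum_add_distrib]
          exact sum_congr rfl fun s _ => by ring
        linarith
      · rw [filter_congr (q := fun s => π s < n) fun s hs =>
          ⟨fun h' => lt_of_le_of_ne (Nat.le_of_lt_succ h') fun h'' => h ⟨s, hs, h''⟩,
            Nat.lt_succ_of_lt⟩]
        exact ih c fun s hs hsn => hc s hs (by omega)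
  have h1 := key (S.sup π + 1) (-∑ s ∈ S, |f s|) fun s hs _ =>
    (neg_le_neg (single_le_sum (f := fun s => |f s|) (fun _ _ => abs_nonneg _) hs)).trans
      (neg_abs_le _)
  rw [filter_true_of_mem fun s hs => Nat.lt_succ_of_le (le_sup hs)] at h1
  simp only [sub_mul, sum_sub_distrib, ← mul_sum, h0] at h1
  linarith

variable {C X : Type} [Fintype C] [DecidableEq C] [DecidableEq X] {Q : Quiv C X} (Z : Stab Q)
  {S : Finset X} {π ρ : X → ℕ}

/-- the centred charge of a variable -/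
def gg (μ : ℚ) (s : X) : ℚ := (Z.z (Q.col s) : ℚ) - μ * (Z.w (Q.col s) : ℚ)

omit [DecidableEq X] in
theorem sum_gg (A : Finset X) : ∑ s ∈ A, gg Z (Z.sl A) s = 0 := by
  rcases A.eq_empty_or_nonempty with rfl | hA
  · simp
  · exact (Z.sl_eq_iff hA _).1 rfl

omit [DecidableEq X] in
theorem sum_fib {M : Type} [AddCommMonoid M] (S : Finset X) (π : X → ℕ) (F : X → M) :
    ∑ s ∈ S, F s = ∑ i ∈ S.image π, ∑ s ∈ fib S π i, F s :=
  (sum_fiberwise_of_maps_to (fun _ hs => mem_image_of_mem π hs) F).symm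

theorem sum_block (S : Finset X) (π : X → ℕ) (H : ℕ → ℚ) :
    ∑ s ∈ S, H (π s) * gg Z (Z.sl (fib S π (π s))) s = 0 := by
  rw [sum_fib S π]
  refine sum_eq_zero fun i _ => ?_
  rw [sum_congr rfl fun s hs => by rw [(mem_fib.1 hs).2], ← mul_sum, sum_gg, mul_zero]

theorem sum_le_of_not_mem (h : Q.Kl S π ∉ Z.I S ρ) (j i : ℕ) :
    ∑ s ∈ fib S ρ j with π s < i, gg Z (Z.sl (fib S ρ j)) s ≤ 0 := by
  by_contra h1
  rw [not_le] at h1
  have hA : ((fib S ρ j).filter fun s => π s < i).Nonempty := by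
    rw [nonempty_iff_ne_empty]
    intro h2
    rw [h2] at h1
    simp at h1
  refine h (Ideal.mem_of_dvd _ (Q.Kp_dvd_Kl ((filter_subset _ _).trans (fib_subset _ _ _))
    (sdiff_subset.trans (fib_subset _ _ _)) fun s hs t ht => ?_)
    (Z.Kp_mem_I hA (filter_subset _ _) ((Z.lt_sl_iff hA _).2 h1)))
  simp only [mem_sdiff, mem_filter, not_and] at hs ht
  have := ht.2 ht.1
  omega

theorem sum_lt_eq (S : Finset X) (π ρ : X → ℕ) (i : ℕ) :
    ∑ s ∈ S with π s < i, gg Z (Z.sl (fib S ρ (ρ s))) s =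
      ∑ j ∈ S.image ρ, ∑ s ∈ fib S ρ j with π s < i, gg Z (Z.sl (fib S ρ j)) s := by
  rw [sum_filter, sum_fib S ρ]
  refine sum_congr rfl fun j _ => ?_
  rw [sum_filter]
  exact sum_congr rfl fun s hs => by rw [(mem_fib.1 hs).2]

theorem phi_le (hπ : Z.Anti S π) (h : Q.Kl S π ∉ Z.I S ρ) :
    Z.Phi S π ≤ Z.Phi S ρ ∧ (Z.Phi S π = Z.Phi S ρ → ∀ s ∈ S,
      Z.sl (fib S π (π s)) = Z.sl (fib S ρ (ρ s)) ∧
      Z.sl (fib (fib S π (π s)) ρ (ρ s)) = Z.sl (fib S ρ (ρ s))) := by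
  have hw : ∀ s, (0 : ℚ) < Z.w (Q.col s) := fun s => by exact_mod_cast Z.w_pos _
  have h1 := abel S π (fun s => Z.sl (fib S π (π s))) (fun s => gg Z (Z.sl (fib S ρ (ρ s))) s) hπ
    (fun i => (sum_lt_eq Z S π ρ i).trans_le (sum_nonpos fun j _ => sum_le_of_not_mem Z h j i))
    (by simpa using sum_block Z S ρ fun _ => 1)
  have h2 := sum_block Z S π fun i => Z.sl (fib S π i)
  have h3 : ∑ s ∈ S, (Z.sl (fib S π (π s)) - Z.sl (fib S ρ (ρ s))) ^ 2 * (Z.w (Q.col s) : ℚ) =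
      Z.Phi S ρ - Z.Phi S π +
        2 * ∑ s ∈ S, Z.sl (fib S π (π s)) * gg Z (Z.sl (fib S ρ (ρ s))) s -
        2 * ∑ s ∈ S, Z.sl (fib S π (π s)) * gg Z (Z.sl (fib S π (π s))) s := by
    simp only [Stab.Phi, mul_sum, ← sum_add_distrib, ← sum_sub_distrib, gg]
    exact sum_congr rfl fun s _ => by ring
  have h4 : ∀ s ∈ S, 0 ≤ (Z.sl (fib S π (π s)) - Z.sl (fib S ρ (ρ s))) ^ 2 * (Z.w (Q.col s) : ℚ) :=
    fun s _ => mul_nonneg (sq_nonneg _) (hw s).le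
  have h5 := sum_nonneg h4
  refine ⟨by linarith, fun hΦ => ?_⟩
  have h6 : ∀ s ∈ S, Z.sl (fib S π (π s)) = Z.sl (fib S ρ (ρ s)) := fun s hs =>
    sub_eq_zero.1 (pow_eq_zero_iff two_ne_zero |>.1 ((mul_eq_zero.1
      ((sum_eq_zero_iff_of_nonneg h4).1 (le_antisymm (by linarith) h5) s hs)).resolve_right
        (hw s).ne'))
  have h7 : ∀ i, ∀ j ∈ S.image ρ,
      ∑ s ∈ fib S ρ j with π s < i, gg Z (Z.sl (fib S ρ j)) s = 0 := by
    intro i
    refine (sum_eq_zero_iff_of_nonpos fun j _ => sum_le_of_not_mem Z h j i).1 ?_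
    rw [← sum_lt_eq, ← sum_block Z S π fun k => if k < i then 1 else 0, sum_filter]
    exact sum_congr rfl fun s hs => by rw [h6 s hs]; split_ifs <;> simp
  refine fun s hs => ⟨h6 s hs, (Z.sl_eq_iff ⟨s, by simp [mem_fib, hs]⟩ _).2 ?_⟩
  have h8 := h7 (π s + 1) _ (mem_image_of_mem ρ hs)
  have h9 : (fib S ρ (ρ s)).filter (fun t => π t < π s + 1) =
      (fib S ρ (ρ s)).filter (fun t => π t < π s) ∪ fib (fib S π (π s)) ρ (ρ s) := by
    ext t
    simp only [mem_filter, mem_union, mem_fib]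
    by_cases ht : t ∈ S <;> simp only [ht, true_and, false_and, or_self]
    omega
  rw [h9, sum_union (disjoint_left.2 fun t ht ht' => by
    simp only [mem_filter, mem_fib] at ht ht'
    omega), h7 _ _ (mem_image_of_mem ρ hs), zero_add] at h8
  exact h8

/-- the linear factor of a pair of variables -/
noncomputable def fac (Q : Quiv C X) (p : X × X) : P X :=
  (MvPolynomial.X p.2 - MvPolynomial.X p.1) ^ Q.ar p.1 p.2

/-- the factors of `Kl S π` inside the blocks of `ρ` -/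
noncomputable def Kint (Q : Quiv C X) (S : Finset X) (π ρ : X → ℕ) : P X :=
  ∏ p ∈ S ×ˢ S with π p.1 < π p.2 ∧ ρ p.1 = ρ p.2, fac Q p

/-- the factors of `Kl S π` between different blocks of `ρ` -/
noncomputable def Kcr (Q : Quiv C X) (S : Finset X) (π ρ : X → ℕ) : P X :=
  ∏ p ∈ S ×ˢ S with π p.1 < π p.2 ∧ ρ p.1 ≠ ρ p.2, fac Q p

omit [Fintype C] [DecidableEq C] [DecidableEq X] in
theorem Kl_eq (S : Finset X) (π ρ : X → ℕ) : Q.Kl S π = Kint Q S π ρ * Kcr Q S π ρ := by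
  rw [Kint, Kcr, ← filter_filter, ← filter_filter, prod_filter_mul_prod_filter_not, prod_filter,
    prod_product, Quiv.Kl]
  exact prod_congr rfl fun s _ => prod_filter _ _

omit [Fintype C] [DecidableEq C] [DecidableEq X] in
theorem Kp_eq (A B : Finset X) : Q.Kp A B = ∏ p ∈ A ×ˢ B, fac Q p := by
  rw [prod_product]
  rfl

omit [Fintype C] [DecidableEq C] in
theorem sh_Kint (S : Finset X) (π ρ : X → ℕ) :
    sh S ρ (Kint Q S π ρ) = MvPolynomial.C (Kint Q S π ρ) := by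
  simp only [Kint, map_prod]
  refine prod_congr rfl fun p hp => ?_
  simp only [mem_filter, mem_product] at hp
  simp [fac, sh, hp.1.1, hp.1.2, hp.2.2]

/-- the common refinement -/
def kap (π ρ : X → ℕ) (s : X) : ℕ := Nat.pair (π s) (ρ s)

omit [DecidableEq X] in
theorem kap_eq {s t : X} : kap π ρ s = kap π ρ t ↔ π s = π t ∧ ρ s = ρ t := Nat.pair_eq_pair

theorem fib_kap (s : X) : fib S (kap π ρ) (kap π ρ s) = fib (fib S π (π s)) ρ (ρ s) := by
  ext t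
  simp only [mem_fib, kap_eq, and_assoc]

theorem Kint_mul_mem
    (hp : ∀ s ∈ S, Z.sl (fib (fib S π (π s)) ρ (ρ s)) = Z.sl (fib S ρ (ρ s))) {f : P X}
    (hf : f ∈ Z.I S (kap π ρ)) : Kint Q S π ρ * f ∈ Z.I S ρ := by
  refine Submodule.span_induction (p := fun f _ => Kint Q S π ρ * f ∈ Z.I S ρ) ?_ (by simp)
    (fun a b _ _ ha hb => by rw [mul_add]; exact add_mem ha hb)
    (fun a b _ hb => by rw [smul_eq_mul, mul_left_comm]; exact Ideal.mul_mem_left _ _ hb) hf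
  rintro _ ⟨k, A, ⟨s, hs⟩, hA, hsl, rfl⟩
  obtain ⟨hsS, rfl⟩ := mem_fib.1 (hA hs)
  have hA' : ∀ t ∈ A, t ∈ S ∧ π t = π s ∧ ρ t = ρ s := fun t ht => by
    simpa only [mem_fib, kap_eq] using hA ht
  rw [fib_kap, hp s hsS] at hsl
  have h1 : ∑ t ∈ fib S ρ (ρ s) with π t < π s, gg Z (Z.sl (fib S ρ (ρ s))) t = 0 := by
    rw [← sum_block Z S (kap π ρ) fun k =>
      if k.unpair.2 = ρ s ∧ k.unpair.1 < π s then 1 else 0, fib, filter_filter, sum_filter]
    refine sum_congr rfl fun t ht => ?_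
    simp only [kap, Nat.unpair_pair]
    split_ifs with h
    · rw [one_mul]
      exact congrArg (fun μ => gg Z μ t) (h.1 ▸ (hp t ht).symm.trans
        (congrArg Z.sl (fib_kap t).symm))
    · rw [zero_mul]
  have hd : Disjoint ((fib S ρ (ρ s)).filter fun t => π t < π s) A :=
    disjoint_left.2 fun t ht ht' => (mem_filter.1 ht).2.ne (hA' t ht').2.1
  have hne : (((fib S ρ (ρ s)).filter fun t => π t < π s) ∪ A).Nonempty :=
    ⟨s, mem_union_right _ hs⟩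
  refine Ideal.mem_of_dvd _ ?_ (Z.Kp_mem_I (i := ρ s) hne (union_subset (filter_subset _ _)
    fun t ht => mem_fib.2 ⟨(hA' t ht).1, (hA' t ht).2.2⟩) ((Z.lt_sl_iff hne _).2 ?_))
  · rw [Kp_eq, Kp_eq, Kint, ← prod_union_inter]
    refine (prod_dvd_prod_of_subset _ _ _ ?_).mul_right _
    rintro ⟨a, b⟩ hab
    simp only [mem_product, mem_union, mem_filter, mem_fib, mem_sdiff, kap_eq, not_or,
      not_and] at hab ⊢
    obtain ⟨ha, ⟨hb, hb'⟩, hb1, hb2⟩ := hab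
    have hb3 := hb1 ⟨hb, hb'⟩
    rcases ha with ⟨⟨ha, ha'⟩, ha1⟩ | ha
    · exact .inl ⟨⟨ha, hb⟩, by omega, by omega⟩
    · obtain ⟨ha1, ha2, ha3⟩ := hA' a ha
      by_cases hab : π a < π b
      · exact .inl ⟨⟨ha1, hb⟩, hab, by omega⟩
      · exact .inr ⟨ha, ⟨hb, by omega, hb'⟩, hb2⟩
  · rw [sum_union hd]
    exact add_pos_of_nonneg_of_pos h1.ge ((Z.lt_sl_iff ⟨s, hs⟩ _).1 hsl)

theorem cross_symm (hπ : Z.Anti S π) (hρ : Z.Anti S ρ)
    (hp : ∀ s ∈ S, Z.sl (fib S π (π s)) = Z.sl (fib S ρ (ρ s)) ∧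
      Z.sl (fib (fib S π (π s)) ρ (ρ s)) = Z.sl (fib S ρ (ρ s))) :
    ∑ p ∈ S ×ˢ S with π p.1 < π p.2 ∧ ρ p.2 < ρ p.1, Q.ar p.1 p.2 =
      ∑ p ∈ S ×ˢ S with π p.1 < π p.2 ∧ ρ p.2 < ρ p.1, Q.ar p.2 p.1 := by
  rw [← sum_fiberwise_of_maps_to fun _ hs =>
      mem_image_of_mem (fun p : X × X => (kap π ρ p.1, kap π ρ p.2)) hs,
    ← sum_fiberwise_of_maps_to (f := fun p : X × X => Q.ar p.2 p.1) fun _ hs =>
      mem_image_of_mem (fun p : X × X => (kap π ρ p.1, kap π ρ p.2)) hs]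
  refine sum_congr rfl fun k hk => ?_
  obtain ⟨⟨s, t⟩, hst, rfl⟩ := mem_image.1 hk
  simp only [mem_filter, mem_product] at hst
  obtain ⟨⟨hs, ht⟩, h1, h2⟩ := hst
  have h3 : ((S ×ˢ S).filter fun p => π p.1 < π p.2 ∧ ρ p.2 < ρ p.1).filter
      (fun p : X × X => (kap π ρ p.1, kap π ρ p.2) = (kap π ρ s, kap π ρ t)) =
      fib S (kap π ρ) (kap π ρ s) ×ˢ fib S (kap π ρ) (kap π ρ t) := by
    ext ⟨a, b⟩
    simp only [mem_filter, mem_product, mem_fib, Prod.mk.injEq, kap_eq]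
    exact ⟨fun h => ⟨⟨h.1.1.1, h.2.1⟩, h.1.1.2, h.2.2⟩,
      fun h => ⟨⟨⟨h.1.1, h.2.1⟩, by omega, by omega⟩, h.1.2, h.2.2⟩⟩
  rw [h3, sum_product, sum_product_right]
  refine Z.ar_symm ?_
  rw [fib_kap, fib_kap, (hp s hs).2, (hp t ht).2]
  exact le_antisymm (hρ t ht s hs h2.le) ((hp t ht).1 ▸ (hp s hs).1 ▸ hπ s hs t ht h1.le)

theorem al_count (hπ : Z.Anti S π) (hρ : Z.Anti S ρ)
    (hp : ∀ s ∈ S, Z.sl (fib S π (π s)) = Z.sl (fib S ρ (ρ s)) ∧
      Z.sl (fib (fib S π (π s)) ρ (ρ s)) = Z.sl (fib S ρ (ρ s))) :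
    ∑ p ∈ S ×ˢ S with π p.1 < π p.2 ∧ ρ p.1 ≠ ρ p.2, Q.ar p.1 p.2 +
      ∑ i ∈ S.image π, Q.al (fib S π i) ρ = Q.al S ρ := by
  have h1 := cross_symm Z hπ hρ hp
  have h2 : ∑ i ∈ S.image π, Q.al (fib S π i) ρ =
      ∑ s ∈ S, ∑ t ∈ S, if π t = π s ∧ ρ s < ρ t then Q.ar s t else 0 := by
    rw [sum_fib S π]
    refine sum_congr rfl fun i _ => sum_congr rfl fun s hs => ?_
    rw [fib, filter_filter, sum_filter, (mem_fib.1 hs).2]
  rw [sum_filter, sum_filter, sum_product, sum_product_right] at h1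
  refine add_right_cancel (b := ∑ s ∈ S, ∑ t ∈ S, if π s < π t ∧ ρ t < ρ s then Q.ar s t else 0) ?_
  rw [h2]
  conv_lhs => rw [h1]
  simp only [Quiv.al, sum_filter, sum_product, ← sum_add_distrib]
  refine sum_congr rfl fun s _ => sum_congr rfl fun t _ => ?_
  split_ifs <;> omega

theorem core (hπ : Z.Anti S π) (hρ : Z.Anti S ρ)
    (hp : ∀ s ∈ S, Z.sl (fib S π (π s)) = Z.sl (fib S ρ (ρ s)) ∧
      Z.sl (fib (fib S π (π s)) ρ (ρ s)) = Z.sl (fib S ρ (ρ s))) {u : ℕ → P X} (j : ℕ → ℕ)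
    (δ : ℕ → ℤ) (hu : ∀ i ∈ S.image π, u i ∈ supported ℚ (fib S π i : Set X) ∧
      DegLE (Z.I (fib S π i) ρ) (fib S π i) ρ (u i) (Q.al (fib S π i) ρ - δ i)) :
    DegLE (Z.I S ρ) S ρ (Q.Kl S π * ∏ i ∈ S.image π, (u i * pb (fib S π i) ^ j i))
      (Q.al S ρ + (∑ i ∈ S.image π, j i : ℕ) - ∑ i ∈ S.image π, δ i) := by
  have h1 : ∀ {ξ : P X}, ξ.IsHomogeneous 1 → ∀ k : ℕ, DegLE (Z.I S (kap π ρ)) S ρ (ξ ^ k) k :=
    fun h k => (((degLE_totalDegree _ S ρ _).mono le_rfl (m := 1)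
      (by exact_mod_cast h.totalDegree_le)).pow k).mono le_rfl (mul_one _).le
  have h2 : DegLE (Z.I S (kap π ρ)) S ρ (Kcr Q S π ρ) _ :=
    DegLE.prod fun p _ => h1 ((isHomogeneous_X ℚ p.2).sub (isHomogeneous_X ℚ p.1)) _
  have h3 : ∀ i ∈ S.image π, DegLE (Z.I S (kap π ρ)) S ρ (u i) (Q.al (fib S π i) ρ - δ i) := by
    intro i hi α hα
    rw [sh_of_subset ρ (hu i hi).1 (fib_subset _ _ _)]
    refine Z.I_le_of_blocks (fun s hs => ?_) ((hu i hi).2 α hα)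
    rw [fib_kap, (mem_fib.1 hs).2]
  have h4 := DegLE.prod fun i hi => (h3 i hi).mul (h1 (pb_isHomogeneous (fib S π i)) (j i))
  rw [Kl_eq S π ρ, mul_assoc]
  refine DegLE.mul_inv (sh_Kint S π ρ) (fun f => Kint_mul_mem Z fun s hs => (hp s hs).2)
    ((h2.mul h4).mono le_rfl (le_of_eq ?_))
  rw [← al_count Z hπ hρ hp]
  simp only [Nat.cast_add, Nat.cast_sum, sum_add_distrib, sum_sub_distrib]
  ring

theorem bound (hπ : Z.Anti S π) (hρ : Z.Anti S ρ) (hΦ : Z.Phi S ρ ≤ Z.Phi S π) {e : ℕ}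
    {η : P X} (hη : η ∈ Z.Terms S π e) :
    DegLE (Z.I S ρ) S ρ (Q.Kl S π * η) (Q.al S ρ + e) ∧
    ((∃ s ∈ S, ∃ t ∈ S, π s = π t ∧ ρ s ≠ ρ t) →
      DegLE (Z.I S ρ) S ρ (Q.Kl S π * η) (Q.al S ρ + e - 1)) ∧
    (Z.Phi S ρ < Z.Phi S π → Q.Kl S π * η ∈ Z.I S ρ) := by
  by_cases h : Q.Kl S π ∈ Z.I S ρ
  · have h1 := Ideal.mul_mem_right η _ h
    exact ⟨Z.degLE_of_mem_I h1 _, fun _ => Z.degLE_of_mem_I h1 _, fun _ => h1⟩
  obtain ⟨h1, h2⟩ := phi_le Z hπ h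
  have hp := h2 (le_antisymm h1 hΦ)
  obtain ⟨u, j, hu, rfl, rfl⟩ := hη
  have h3 : ∀ i, Z.Pure (fib S π i) ρ := fun i s hs => by
    obtain ⟨hs', rfl⟩ := mem_fib.1 hs
    rw [(hp s hs').2, (hp s hs').1]
  refine ⟨?_, ?_, fun h4 => absurd h1 (not_le.2 h4)⟩
  · simpa using core Z hπ hρ hp j (fun _ => 0) fun i hi =>
      ⟨(hu i hi).1, by simpa using ((hu i hi).2 ρ (h3 i)).1⟩
  · rintro ⟨s, hs, t, ht, hst, hst'⟩
    have h4 := core Z hπ hρ hp j (fun i => if i = π s then 1 else 0) fun i hi =>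
      ⟨(hu i hi).1, by
        split_ifs with h5
        · subst h5
          simpa using ((hu _ hi).2 ρ (h3 _)).2 (one_lt_card.2
            ⟨ρ s, mem_image_of_mem ρ (mem_fib.2 ⟨hs, rfl⟩), ρ t,
              mem_image_of_mem ρ (mem_fib.2 ⟨ht, hst.symm⟩), hst'⟩)
        · simpa using ((hu i hi).2 ρ (h3 i)).1⟩
    rwa [sum_ite_eq', if_pos (mem_image_of_mem π hs)] at h4

end BoundAux

open BoundAux in
/-- the kernel of a pure partition maps the ideal of the blocks into the ideal of `S` -/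
theorem Stab.Kl_mul_mem_I0 {C X : Type} [Fintype C] [DecidableEq C] [DecidableEq X] {Q : Quiv C X}
    {Z : Stab Q} {S : Finset X} {ρ : X → ℕ} {f : P X} (hρ : Z.Pure S ρ) (hf : f ∈ Z.I S ρ) :
    Q.Kl S ρ * f ∈ Z.I0 S := by
  have h1 : Kcr Q S ρ (fun _ => 0) = 1 := by simp [Kcr]
  rw [Kl_eq S ρ fun _ => 0, h1, mul_one]
  refine Kint_mul_mem Z (fun s hs => by rw [fib_const, fib_const, hρ s hs]) ?_
  rwa [Z.I_congr (ρ := ρ) fun s _ t _ => by simp [kap_eq]]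

end Crest.Agent.R59
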