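import Crest.Agent.R59.CohaBasic

/-! # Polynomial COHA: top shift-degree parts and the sign of a reordering -/

set_option autoImplicit false

namespace Crest.Agent.R59
open MvPolynomial Finset

section top
variable {R : Type} [CommRing R] {J : Ideal R} {G G' T T' : MvPolynomial ℕ R} {n m : ℕ}

/-- the coefficients of degree `≥ n` lie in `J` -/
def Low (J : Ideal R) (n : ℕ) (G : MvPolynomial ℕ R) : Prop :=
  ∀ α : ℕ →₀ ℕ, n ≤ Finsupp.degree α → coeff α G ∈ J

theorem Low.add (h : Low J n G) (h' : Low J n G') : Low J n (G + G') := fun α hα => by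
  rw [coeff_add]
  exact add_mem (h α hα) (h' α hα)

theorem Low.mono (h : Low J n G) (hn : n ≤ m) : Low J m G := fun α hα => h α (hn.trans hα)

theorem Low.mul (h : Low J n G) (h' : Low J (m + 1) G') : Low J (n + m) (G * G') := by
  classical
  intro α hα
  rw [coeff_mul]
  refine Ideal.sum_mem _ fun p hp => ?_
  have e : Finsupp.degree p.1 + Finsupp.degree p.2 = Finsupp.degree α := by
    rw [← map_add, mem_antidiagonal.1 hp]
  by_cases h1 : n ≤ Finsupp.degree p.1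
  · exact Ideal.mul_mem_right _ _ (h _ h1)
  · exact Ideal.mul_mem_left _ _ (h' _ (by omega))

theorem Low.of_homog (h : T.IsHomogeneous n) : Low J (n + 1) T := fun α hα => by
  rw [h.coeff_eq_zero (by omega)]
  exact zero_mem _

/-- modulo `J`, `G` has degree at most `n` and top part `T` -/
def Top (J : Ideal R) (G : MvPolynomial ℕ R) (n : ℕ) (T : MvPolynomial ℕ R) : Prop :=
  T.IsHomogeneous n ∧ Low J n (G - T)

theorem Top.one : Top J 1 0 1 := ⟨isHomogeneous_one _ _, fun α _ => by simp⟩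

theorem Top.mul (h : Top J G n T) (h' : Top J G' m T') : Top J (G * G') (n + m) (T * T') := by
  refine ⟨h.1.mul h'.1, ?_⟩
  have e : G * G' - T * T' = (G - T) * (G' - T' + T') + (G' - T') * T := by ring
  rw [e]
  refine (h.2.mul ((h'.2.mono (Nat.le_succ _)).add (Low.of_homog h'.1))).add ?_
  rw [add_comm n m]
  exact h'.2.mul (Low.of_homog h.1)

theorem Top.pow (h : Top J G n T) (k : ℕ) : Top J (G ^ k) (n * k) (T ^ k) := by
  induction k with
  | zero => simpa using Top.one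
  | succ k ih =>
    rw [pow_succ, pow_succ, Nat.mul_succ]
    exact ih.mul h

theorem Top.prod {ι : Type} {s : Finset ι} {g t : ι → MvPolynomial ℕ R} {d : ι → ℕ}
    (h : ∀ i ∈ s, Top J (g i) (d i) (t i)) :
    Top J (∏ i ∈ s, g i) (∑ i ∈ s, d i) (∏ i ∈ s, t i) := by
  classical
  induction s using Finset.induction_on with
  | empty => simpa using Top.one
  | insert a s ha ih =>
    rw [prod_insert ha, sum_insert ha, prod_insert ha]
    exact (h a (mem_insert_self _ _)).mul (ih fun i hi => h i (mem_insert_of_mem hi))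

theorem Top.C_add (c : R) (h : T.IsHomogeneous 1) : Top J (C c + T) 1 T := by
  refine ⟨h, fun α hα => ?_⟩
  rw [add_sub_cancel_right, (isHomogeneous_C ℕ c).coeff_eq_zero (by omega)]
  exact zero_mem _

end top

section sign
variable {R : Type} [CommRing R]

/-- changing the order of the labels in a product of powers of differences -/
theorem prod_reorder (L : Finset ℕ) (δ : ℕ → ℕ) (hδ : Set.InjOn δ L) (Y : ℕ → R) (N : ℕ → ℕ → ℕ)
    (hN : ∀ a ∈ L, ∀ b ∈ L, a < b → δ b < δ a → N b a = N a b) :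
    ∏ a ∈ L, ∏ b ∈ L, (if δ a < δ b then (Y b - Y a) ^ N a b else 1) =
      (-1) ^ (∑ a ∈ L, ∑ b ∈ L, if a < b ∧ δ b < δ a then N a b else 0) *
        ∏ a ∈ L, ∏ b ∈ L, (if a < b then (Y b - Y a) ^ N a b else 1) := by
  have e1 : ∏ a ∈ L, ∏ b ∈ L, (if δ a < δ b then (Y b - Y a) ^ N a b else 1) =
      (∏ a ∈ L, ∏ b ∈ L, if a < b ∧ δ a < δ b then (Y b - Y a) ^ N a b else 1) *
        ∏ a ∈ L, ∏ b ∈ L, if b < a ∧ δ a < δ b then (Y b - Y a) ^ N a b else 1 := by
    rw [← prod_mul_distrib]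
    refine prod_congr rfl fun a _ => ?_
    rw [← prod_mul_distrib]
    refine prod_congr rfl fun b _ => ?_
    rcases lt_trichotomy a b with h | rfl | h
    · simp [h, h.not_gt]
    · simp
    · simp [h, h.not_gt]
  rw [e1, prod_comm (f := fun a b => if b < a ∧ δ a < δ b then (Y b - Y a) ^ N a b else 1),
    ← prod_pow_eq_pow_sum, ← prod_mul_distrib, ← prod_mul_distrib]
  refine prod_congr rfl fun a ha => ?_
  rw [← prod_pow_eq_pow_sum, ← prod_mul_distrib, ← prod_mul_distrib]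
  refine prod_congr rfl fun b hb => ?_
  by_cases h : a < b
  · rcases lt_trichotomy (δ a) (δ b) with h' | h' | h'
    · simp [h, h', h'.not_gt]
    · exact absurd (hδ ha hb h') h.ne
    · simp only [h, h', h'.not_gt, and_self, and_false, if_true, if_false, one_mul]
      rw [hN a ha b hb h h', ← mul_pow]
      congr 1
      ring
  · simp [h]

end sign

variable {C X : Type} [Fintype C] [DecidableEq C] [DecidableEq X] {Q : Quiv C X} {Z : Stab Q}
  {S : Finset X} {π π' ρ : X → ℕ}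

omit [Fintype C] [DecidableEq C] in
theorem top_Kl (J : Ideal (P X)) (S : Finset X) (π ρ : X → ℕ) :
    Top J (sh S ρ (Q.Kl S π)) (Q.al S π) (map (algebraMap ℚ (P X)) (Q.Dl S π ρ)) := by
  have h : ∀ s ∈ S, ∀ t ∈ S.filter (fun t => π s < π t),
      Top J (sh S ρ ((MvPolynomial.X t - MvPolynomial.X s) ^ Q.ar s t)) (Q.ar s t)
        (map (algebraMap ℚ (P X)) ((MvPolynomial.X (ρ t) - MvPolynomial.X (ρ s)) ^ Q.ar s t)) := by
    intro s hs t ht
    have ht' : t ∈ S := (mem_filter.1 ht).1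
    have e : sh S ρ (MvPolynomial.X t - MvPolynomial.X s) =
        MvPolynomial.C (MvPolynomial.X t - MvPolynomial.X s) +
          (MvPolynomial.X (ρ t) - MvPolynomial.X (ρ s)) := by
      simp only [sh, aeval_X, hs, ht', if_true, map_sub]
      ring
    have h1 := (Top.C_add (J := J) (MvPolynomial.X t - MvPolynomial.X s : P X)
      ((isHomogeneous_X _ (ρ t)).sub (isHomogeneous_X _ (ρ s)))).pow (Q.ar s t)
    rw [one_mul] at h1
    rw [map_pow, map_pow, e, map_sub (map (algebraMap ℚ (P X))), map_X, map_X]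
    exact h1
  have h2 := Top.prod fun s hs => Top.prod (h s hs)
  rw [Quiv.Kl, Quiv.al, Quiv.Dl, map_prod, map_prod]
  simp only [← map_prod] at h2 ⊢
  exact h2

/-- `top` with the kernel taken for an arbitrary labelling `π'` -/
theorem Stab.top' (π' : X → ℕ) (hk : SameKer S π ρ) {γ : ℕ → ℕ} (hγ : ∀ s ∈ S, ρ s = γ (π s))
    {u : ℕ → P X} {j : ℕ → ℕ} (hu : ∀ i ∈ S.image π, u i ∈ Z.V (fib S π i)) (α : ℕ →₀ ℕ)
    (hα : Finsupp.degree α = Q.al S π' + ∑ i ∈ S.image π, j i) :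
    coeff α (sh S ρ (Q.Kl S π' * ∏ i ∈ S.image π, (u i * pb (fib S π i) ^ j i))) -
      coeff α (Q.Dl S π' ρ * ∏ i ∈ S.image π, MvPolynomial.X (γ i) ^ j i) •
        ∏ i ∈ S.image π, u i ∈ Z.I S ρ := by
  have hρ : ∀ i, ∀ s ∈ fib S π i, ρ s = γ i := fun i s hs => by
    rw [hγ s (mem_fib.1 hs).1, (mem_fib.1 hs).2]
  have h1 : ∀ i ∈ S.image π, Top (Z.I S ρ) (sh S ρ (u i * pb (fib S π i) ^ j i)) (j i)
      (MvPolynomial.C (u i) * MvPolynomial.X (γ i) ^ j i) := by
    intro i hi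
    obtain ⟨s, hs, rfl⟩ := mem_image.1 hi
    have h2 : Top (Z.I S ρ) (sh S ρ (u (π s))) 0 (MvPolynomial.C (u (π s))) := by
      refine ⟨isHomogeneous_C _ _, fun β _ => ?_⟩
      rw [coeff_sub]
      by_cases hβ : β = 0
      · rw [hβ, coeff_zero_sh, coeff_zero_C, sub_self]
        exact zero_mem _
      · have hd : Finsupp.degree β ≠ 0 := fun h => hβ ((Finsupp.degree_eq_zero_iff β).1 h)
        rw [(isHomogeneous_C ℕ (u (π s))).coeff_eq_zero hd, sub_zero, ← Z.I_congr hk]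
        refine Z.I0_fib_le S π (π s) (Stab.V_degLE_zero (hu _ hi) (fib_subset _ _ _)
          (fun a ha b hb => (hρ _ a ha).trans (hρ _ b hb).symm) β ?_)
        exact_mod_cast Nat.pos_of_ne_zero hd
    rw [map_mul, map_pow, sh_pb ⟨s, mem_fib.2 ⟨hs, rfl⟩⟩ (fib_subset _ _ _) (hρ _)]
    simpa using h2.mul ((Top.C_add _ (isHomogeneous_X _ (γ (π s)))).pow (j (π s)))
  have h3 := ((top_Kl (Q := Q) (Z.I S ρ) S π' ρ).mul (Top.prod h1)).2 α hα.ge
  rw [← map_prod, ← map_mul, coeff_sub] at h3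
  convert h3 using 2
  rw [prod_mul_distrib, ← map_prod, mul_left_comm, coeff_C_mul, mul_comm (∏ i ∈ _, u i),
    Algebra.smul_def, ← coeff_map]
  simp only [map_mul, map_prod, map_pow, map_X]

omit [Fintype C] [DecidableEq C] in
/-- the top part of the kernel, block by block -/
theorem Dl_blocks {δ γ : ℕ → ℕ} (hδ : ∀ s ∈ S, π' s = δ (π s)) (hγ : ∀ s ∈ S, ρ s = γ (π s)) :
    Q.Dl S π' ρ = ∏ a ∈ S.image π, ∏ b ∈ S.image π, if δ a < δ b then
      (MvPolynomial.X (γ b) - MvPolynomial.X (γ a)) ^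
        (∑ s ∈ fib S π a, ∑ t ∈ fib S π b, Q.ar s t) else 1 := by
  have hm : ∀ s ∈ S, π s ∈ S.image π := fun s hs => mem_image_of_mem _ hs
  unfold Quiv.Dl
  rw [← prod_fiberwise_of_maps_to hm]
  refine prod_congr rfl fun a _ => ?_
  simp only [prod_filter (fun t => π' _ < π' t)]
  simp only [← prod_fiberwise_of_maps_to hm
    (fun t => if π' _ < π' t then (MvPolynomial.X (ρ t) - MvPolynomial.X (ρ _)) ^ Q.ar _ t
      else (1 : MvPolynomial ℕ ℚ))]
  rw [prod_comm]
  refine prod_congr rfl fun b _ => ?_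
  have e : ∀ s ∈ fib S π a, ∀ t ∈ fib S π b,
      (if π' s < π' t then (MvPolynomial.X (ρ t) - MvPolynomial.X (ρ s)) ^ Q.ar s t
        else (1 : MvPolynomial ℕ ℚ)) = if δ a < δ b then
          (MvPolynomial.X (γ b) - MvPolynomial.X (γ a)) ^ Q.ar s t else 1 := by
    intro s hs t ht
    obtain ⟨hs', rfl⟩ := mem_fib.1 hs
    obtain ⟨ht', rfl⟩ := mem_fib.1 ht
    rw [hδ s hs', hδ t ht', hγ s hs', hγ t ht']
  refine (prod_congr rfl fun s hs => prod_congr rfl fun t ht => e s hs t ht).trans ?_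
  split_ifs
  · simp only [prod_pow_eq_pow_sum]
  · simp

omit [Fintype C] [DecidableEq C] in
theorem Dl_reorder {δ : ℕ → ℕ} (hδ : ∀ s ∈ S, π' s = δ (π s)) (hinj : Set.InjOn δ (S.image π))
    (hρ : SameKer S π ρ)
    (hN : ∀ a ∈ S.image π, ∀ b ∈ S.image π, a < b → δ b < δ a →
      ∑ s ∈ fib S π b, ∑ t ∈ fib S π a, Q.ar s t = ∑ s ∈ fib S π a, ∑ t ∈ fib S π b, Q.ar s t) :
    Q.Dl S π' ρ = (-1) ^ (∑ a ∈ S.image π, ∑ b ∈ S.image π, if a < b ∧ δ b < δ a then
      ∑ s ∈ fib S π a, ∑ t ∈ fib S π b, Q.ar s t else 0) * Q.Dl S π ρ := by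
  obtain ⟨γ, hγ⟩ := exists_relabel fun s hs t ht h => (hρ s hs t ht).1 h
  rw [Dl_blocks hδ hγ, Dl_blocks (π' := π) (δ := id) (fun _ _ => rfl) hγ]
  exact prod_reorder _ δ hinj (fun a => MvPolynomial.X (γ a)) _ hN

theorem Stab.Dl_eq_or_neg' (hπ : Z.Anti S π) (hπ' : Z.Anti S π') (hk : SameKer S π π')
    (hρ : SameKer S π ρ) : Q.Dl S π' ρ = Q.Dl S π ρ ∨ Q.Dl S π' ρ = -Q.Dl S π ρ := by
  obtain ⟨δ, hδ⟩ := exists_relabel fun s hs t ht h => (hk s hs t ht).1 h
  have h := Dl_reorder (Q := Q) hδ (by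
    intro a ha b hb hab
    obtain ⟨s, hs, rfl⟩ := mem_image.1 ha
    obtain ⟨t, ht, rfl⟩ := mem_image.1 hb
    exact (hk s hs t ht).2 (by rw [hδ s hs, hδ t ht, hab])) hρ (by
    intro a ha b hb hab hba
    obtain ⟨s, hs, rfl⟩ := mem_image.1 ha
    obtain ⟨t, ht, rfl⟩ := mem_image.1 hb
    refine Z.ar_symm (le_antisymm (hπ s hs t ht hab.le) ?_)
    rw [hk.fib_eq hs, hk.fib_eq ht]
    exact hπ' t ht s hs (by rw [hδ s hs, hδ t ht]; exact hba.le))
  rw [h]
  rcases neg_one_pow_eq_or (MvPolynomial ℕ ℚ) (∑ a ∈ S.image π, ∑ b ∈ S.image π,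
    if a < b ∧ δ b < δ a then ∑ s ∈ fib S π a, ∑ t ∈ fib S π b, Q.ar s t else 0) with e | e
  · left; rw [e, one_mul]
  · right; rw [e, neg_one_mul]

theorem swap_inversion (i a b : ℕ) :
    a < b ∧ Equiv.swap i (i + 1) b < Equiv.swap i (i + 1) a ↔ a = i ∧ b = i + 1 := by
  simp only [Equiv.swap_apply_def]
  split_ifs <;> omega

theorem Stab.Dl_swap' (i : ℕ) (hs : Z.sl (fib S π i) = Z.sl (fib S π (i + 1)))
    (hρ : SameKer S π ρ) :
    Q.Dl S (Equiv.swap i (i + 1) ∘ π) ρ =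
      (-1) ^ av Q.a (Q.cnt (fib S π i)) (Q.cnt (fib S π (i + 1))) * Q.Dl S π ρ := by
  rw [Dl_reorder (π' := Equiv.swap i (i + 1) ∘ π) (δ := Equiv.swap i (i + 1)) (fun _ _ => rfl)
    (Equiv.injective _).injOn hρ (by
    intro a _ b _ hab hba
    obtain ⟨rfl, rfl⟩ := (swap_inversion i a b).1 ⟨hab, hba⟩
    exact Z.ar_symm hs.symm), av_cnt]
  congr 2
  have hemp : ∀ a, a ∉ S.image π → fib S π a = ∅ := fun a ha =>
    eq_empty_of_forall_notMem fun s h => ha (mem_image.2 ⟨s, mem_fib.1 h⟩)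
  simp only [swap_inversion]
  rw [sum_eq_single i, sum_eq_single (i + 1)]
  · simp
  · intro b _ hb
    simp [hb]
  · intro h
    simp [hemp _ h]
  · intro a _ ha
    simp [ha]
  · intro h
    simp [hemp _ h]

end Crest.Agent.R59
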