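import Crest.Agent.R59.CohaBasic
import Crest.Agent.R59.CohaBoundAux1
import Crest.Agent.R59.CohaBoundAux2

/-! # Polynomial COHA: shift degree of products -/

set_option autoImplicit false

namespace Crest.Agent.R59
open MvPolynomial Finset

variable {C X : Type} [Fintype C] [DecidableEq C] [DecidableEq X] {Q : Quiv C X} {Z : Stab Q}
  {S : Finset X} {π π' ρ : X → ℕ}

/-- polygon comparison -/
theorem Stab.Phi_le (hπ : Z.Anti S π) (h : Q.Kl S π ∉ Z.I S ρ) :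
    Z.Phi S π ≤ Z.Phi S ρ ∧ (Z.Phi S π = Z.Phi S ρ → ∀ s ∈ S,
      Z.sl (fib S π (π s)) = Z.sl (fib S ρ (ρ s)) ∧
      Z.sl (fib (fib S π (π s)) ρ (ρ s)) = Z.sl (fib S ρ (ρ s))) := BoundAux.phi_le Z hπ h

theorem Stab.Phi_eq_of_pure (hπ : Z.Pure S π) (hρ : Z.Pure S ρ) : Z.Phi S π = Z.Phi S ρ :=
  sum_congr rfl fun s hs => by rw [hπ s hs, hρ s hs]

/-- the basic degree bound -/
theorem Stab.bound (hπ : Z.Anti S π) (hρ : Z.Anti S ρ) (hΦ : Z.Phi S ρ ≤ Z.Phi S π) {e : ℕ}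
    {η : P X} (hη : η ∈ Z.Terms S π e) :
    DegLE (Z.I S ρ) S ρ (Q.Kl S π * η) (Q.al S ρ + e) ∧
    ((∃ s ∈ S, ∃ t ∈ S, π s = π t ∧ ρ s ≠ ρ t) →
      DegLE (Z.I S ρ) S ρ (Q.Kl S π * η) (Q.al S ρ + e - 1)) ∧
    (Z.Phi S ρ < Z.Phi S π → Q.Kl S π * η ∈ Z.I S ρ) := BoundAux.bound Z hπ hρ hΦ hη

theorem Stab.bound_of_not_sameKer (hπ : Z.Anti S π) (hρ : Z.Anti S ρ)
    (hΦ : Z.Phi S ρ ≤ Z.Phi S π) {e : ℕ} {η : P X} (hη : η ∈ Z.Terms S π e)
    (hc : (S.image π).card ≤ (S.image ρ).card) (hk : ¬ SameKer S π ρ) :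
    DegLE (Z.I S ρ) S ρ (Q.Kl S π * η) (Q.al S ρ + e - 1) :=
  (Stab.bound hπ hρ hΦ hη).2.1 (by_contra fun h => hk (sameKer_of_card
    (fun s hs t ht hst => by_contra fun h' => h ⟨s, hs, t, ht, hst, h'⟩) hc))

theorem Stab.F_term (hπ : Z.Pure S π) {e : ℕ} {η : P X} (hη : η ∈ Z.Terms S π e) :
    Z.F S e (S.image π).card (Q.Kl S π * η) := fun _ hρ =>
  ⟨(Stab.bound hπ.anti hρ.anti (Stab.Phi_eq_of_pure hρ hπ).le hη).1, fun hk =>
    Stab.bound_of_not_sameKer hπ.anti hρ.anti (Stab.Phi_eq_of_pure hρ hπ).le hη hk.le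
      fun h => hk.ne h.card_image⟩

/-- the top shift-degree part of a product along its own partition -/
theorem Stab.top (hk : SameKer S π ρ) {γ : ℕ → ℕ} (hγ : ∀ s ∈ S, ρ s = γ (π s))
    {u : ℕ → P X} {j : ℕ → ℕ} (hu : ∀ i ∈ S.image π, u i ∈ Z.V (fib S π i)) (α : ℕ →₀ ℕ)
    (hα : Finsupp.degree α = Q.al S π + ∑ i ∈ S.image π, j i) :
    coeff α (sh S ρ (Q.Kl S π * ∏ i ∈ S.image π, (u i * pb (fib S π i) ^ j i))) -
      coeff α (Q.Dl S π ρ * ∏ i ∈ S.image π, MvPolynomial.X (γ i) ^ j i) •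
        ∏ i ∈ S.image π, u i ∈ Z.I S ρ := Z.top' π hk hγ hu α hα

/-- changing the slope-decreasing order of the blocks changes the top part by a sign -/
theorem Stab.Dl_eq_or_neg (hπ : Z.Anti S π) (hπ' : Z.Anti S π') (hk : SameKer S π π')
    (hρ : SameKer S π ρ) : Q.Dl S π' ρ = Q.Dl S π ρ ∨ Q.Dl S π' ρ = -Q.Dl S π ρ :=
  Z.Dl_eq_or_neg' hπ hπ' hk hρ

/-- exchanging two consecutive labels of equal slope -/
theorem Stab.Dl_swap (i : ℕ) (hs : Z.sl (fib S π i) = Z.sl (fib S π (i + 1)))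
    (hρ : SameKer S π ρ) :
    Q.Dl S (Equiv.swap i (i + 1) ∘ π) ρ =
      (-1) ^ av Q.a (Q.cnt (fib S π i)) (Q.cnt (fib S π (i + 1))) * Q.Dl S π ρ :=
  Z.Dl_swap' i hs hρ

/-- reordering the blocks of a pure partition changes a product by a sign, up to lower filtration -/
theorem Stab.F_reorder (hπ : Z.Pure S π) (hk : SameKer S π π') {c : ℚ}
    (hc : Q.Dl S π' π = c • Q.Dl S π π) {e : ℕ} {η : P X} (hη : η ∈ Z.Terms S π e)
    (hS : S.Nonempty) :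
    Z.F S e ((S.image π).card - 1) (Q.Kl S π' * η - c • (Q.Kl S π * η)) := by
  have hπ' : Z.Pure S π' := hπ.congr hk
  have hη' : η ∈ Z.Terms S π' e := Stab.Terms.congr hη hk
  have h1 : ∀ ρ, Z.Pure S ρ →
      DegLE (Z.I S ρ) S ρ (Q.Kl S π' * η - c • (Q.Kl S π * η)) (Q.al S ρ + e) := fun ρ hρ =>
    (Stab.bound hπ'.anti hρ.anti (Stab.Phi_eq_of_pure hρ hπ').le hη').1.sub
      ((Stab.bound hπ.anti hρ.anti (Stab.Phi_eq_of_pure hρ hπ).le hη).1.smul c)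
  refine fun ρ hρ => ⟨h1 ρ hρ, fun hlt => ?_⟩
  have hcard : (S.image π).card ≤ (S.image ρ).card := by
    have := hS.card_pos
    omega
  by_cases hker : SameKer S π ρ
  · rw [← Z.al_congr hπ.anti hρ.anti hker]
    refine Z.degLE_congr hker fun α hα => ?_
    by_cases hα' : (Q.al S π : ℤ) + e < (Finsupp.degree α : ℕ)
    · exact h1 π hπ α hα'
    obtain ⟨u, j, hu, hj, rfl⟩ := hη
    have hd : Finsupp.degree α = Q.al S π + ∑ i ∈ S.image π, j i := by omega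
    have t1 := Z.top' π (ρ := π) (γ := id) (fun _ _ _ _ => Iff.rfl) (fun _ _ => rfl) hu α hd
    have t2 := Z.top' π' (ρ := π) (γ := id) (fun _ _ _ _ => Iff.rfl) (fun _ _ => rfl) hu α
      (by rw [hd, Z.al_congr hπ.anti hπ'.anti hk])
    rw [hc, smul_mul_assoc, coeff_smul, smul_assoc] at t2
    have t3 := sub_mem t2 (Submodule.smul_of_tower_mem _ c t1)
    rw [smul_sub, sub_sub_sub_cancel_right] at t3
    rw [map_sub, map_smul, coeff_sub, coeff_smul]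
    exact t3
  · exact (Stab.bound_of_not_sameKer hπ'.anti hρ.anti (Stab.Phi_eq_of_pure hρ hπ').le hη'
      (hk.card_image ▸ hcard) fun h => hker fun s hs t ht => (hk s hs t ht).trans
        (h s hs t ht)).sub ((Stab.bound_of_not_sameKer hπ.anti hρ.anti
          (Stab.Phi_eq_of_pure hρ hπ).le hη hcard hker).smul c)

end Crest.Agent.R59
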