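import Crest.Agent.R59.CohaDefs

/-! # Counting good words -/

set_option autoImplicit false

namespace Crest.Agent.R59
open Finset

namespace Count

section gf
variable {α β ι : Type}

/-- the generating series of a set with weights -/
noncomputable def gf (S : Set α) (w : α → ℕ) : PowerSeries ℚ :=
  PowerSeries.mk fun i => ({x | x ∈ S ∧ w x = i}.ncard : ℚ)

/-- finitely many elements of each weight -/
def FF (S : Set α) (w : α → ℕ) : Prop := ∀ i, {x | x ∈ S ∧ w x = i}.Finite

theorem FF.subset {S T : Set α} {w : α → ℕ} (h : FF T w) (hS : S ⊆ T) : FF S w :=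
  fun i => (h i).subset fun _ hx => ⟨hS hx.1, hx.2⟩

theorem coeff_gf (S : Set α) (w : α → ℕ) (i : ℕ) :
    PowerSeries.coeff i (gf S w) = ({x | x ∈ S ∧ w x = i}.ncard : ℚ) := PowerSeries.coeff_mk _ _

theorem gf_congr {S : Set α} {w w' : α → ℕ} (h : ∀ x ∈ S, w x = w' x) : gf S w = gf S w' := by
  ext i
  rw [coeff_gf, coeff_gf]
  congr 2
  exact Set.ext fun x => and_congr_right fun hx => by rw [h x hx]

theorem gf_empty (w : α → ℕ) : gf ∅ w = 0 := by
  ext i
  simp [coeff_gf]

theorem gf_singleton (x : α) (w : α → ℕ) (h : w x = 0) : gf {x} w = 1 := by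
  ext i
  rw [coeff_gf, PowerSeries.coeff_one]
  split_ifs with hi
  · rw [show {y | y ∈ ({x} : Set α) ∧ w y = i} = {x} from
      Set.ext fun y => ⟨fun hy => hy.1, fun hy => ⟨hy, by rw [hy, h, hi]⟩⟩]
    simp
  · rw [show {y | y ∈ ({x} : Set α) ∧ w y = i} = ∅ from
      Set.eq_empty_of_forall_notMem fun y hy => hi (by rw [← hy.2, hy.1, h])]
    simp

theorem gf_image {S : Set α} {f : α → β} (hf : Function.Injective f) (w : β → ℕ) :
    gf (f '' S) w = gf S fun x => w (f x) := by
  ext i
  rw [coeff_gf, coeff_gf, ← Set.ncard_image_of_injective _ hf]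
  congr 2
  ext y
  constructor
  · rintro ⟨⟨x, hx, rfl⟩, h⟩
    exact ⟨x, ⟨hx, h⟩, rfl⟩
  · rintro ⟨x, ⟨hx, h⟩, rfl⟩
    exact ⟨⟨x, hx, rfl⟩, h⟩

theorem ncard_biUnion (s : Finset ι) (S : ι → Set α) (h : ∀ i ∈ s, (S i).Finite)
    (hd : ∀ i ∈ s, ∀ j ∈ s, ∀ x ∈ S i, x ∈ S j → i = j) :
    (⋃ i ∈ s, S i).ncard = ∑ i ∈ s, (S i).ncard := by
  rw [← finsum_mem_coe_finset]
  exact s.finite_toSet.ncard_biUnion h fun i hi j hj hij =>
    Set.disjoint_left.2 fun x hx hx' => hij (hd i hi j hj x hx hx')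

theorem gf_biUnion (s : Finset ι) (S : ι → Set α) (w : α → ℕ) (h : ∀ i ∈ s, FF (S i) w)
    (hd : ∀ i ∈ s, ∀ j ∈ s, ∀ x ∈ S i, x ∈ S j → i = j) :
    gf (⋃ i ∈ s, S i) w = ∑ i ∈ s, gf (S i) w := by
  ext n
  simp only [map_sum, coeff_gf]
  rw [← Nat.cast_sum, ← ncard_biUnion s (fun i => {x | x ∈ S i ∧ w x = n}) (fun i hi => h i hi n)
    fun i hi j hj x hx hx' => hd i hi j hj x hx.1 hx'.1]
  congr 2
  ext x
  simp only [Set.mem_iUnion, Set.mem_ofPred_eq]
  exact ⟨fun ⟨⟨i, hi, hx⟩, h⟩ => ⟨i, hi, hx, h⟩, fun ⟨i, hi, hx, h⟩ => ⟨⟨i, hi, hx⟩, h⟩⟩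

theorem gf_union {S T : Set α} {w : α → ℕ} (hS : FF S w) (hT : FF T w) (hd : Disjoint S T) :
    gf (S ∪ T) w = gf S w + gf T w := by
  ext n
  rw [map_add, coeff_gf, coeff_gf, coeff_gf, ← Nat.cast_add, ← Set.ncard_union_eq
    (hd.mono (fun _ hx => hx.1) fun _ hx => hx.1) (hS n) (hT n)]
  congr 2
  exact Set.ext fun x => or_and_right

theorem gf_shift (S : Set α) (w : α → ℕ) (c : ℕ) :
    gf S (fun x => w x + c) = PowerSeries.X ^ c * gf S w := by
  ext n
  rw [PowerSeries.coeff_X_pow_mul', coeff_gf]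
  split_ifs with h
  · rw [coeff_gf]
    congr 2
    exact Set.ext fun x => and_congr_right' (by omega)
  · rw [show {x | x ∈ S ∧ w x + c = n} = ∅ from
      Set.eq_empty_of_forall_notMem fun x hx => h (by have := hx.2; omega)]
    simp

theorem gf_prod {S : Set α} {T : Set β} {w : α → ℕ} {w' : β → ℕ} (hS : FF S w) (hT : FF T w') :
    gf (S ×ˢ T) (fun x => w x.1 + w' x.2) = gf S w * gf T w' := by
  ext n
  simp only [PowerSeries.coeff_mul, coeff_gf, ← Nat.cast_mul, ← Set.ncard_prod]
  rw [← Nat.cast_sum, ← ncard_biUnion _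
    (fun p : ℕ × ℕ => {x | x ∈ S ∧ w x = p.1} ×ˢ {x | x ∈ T ∧ w' x = p.2})
    (fun p _ => (hS _).prod (hT _))
    fun p _ q _ x hx hx' => Prod.ext (hx.1.2.symm.trans hx'.1.2) (hx.2.2.symm.trans hx'.2.2)]
  congr 2
  ext x
  simp only [Set.mem_iUnion, Set.mem_ofPred_eq, Set.mem_prod, HasAntidiagonal.mem_antidiagonal]
  exact ⟨fun ⟨⟨h1, h2⟩, h⟩ => ⟨(w x.1, w' x.2), h, ⟨h1, rfl⟩, h2, rfl⟩,
    fun ⟨p, h, ⟨h1, h2⟩, h3, h4⟩ => ⟨⟨h1, h3⟩, by rw [h2, h4, h]⟩⟩

theorem finite_lists {A : Set α} (hA : A.Finite) (n : ℕ) :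
    {l : List α | l.length ≤ n ∧ ∀ x ∈ l, x ∈ A}.Finite := by
  have := hA.to_subtype
  refine ((List.finite_length_le A n).image (List.map Subtype.val)).subset ?_
  rintro l ⟨h1, h2⟩
  lift l to List A using h2
  exact ⟨l, by simpa using h1, rfl⟩

end gf

/-- increasing lists of length `k` -/
def L (b : Bool) (k : ℕ) : Set (List ℕ) :=
  {l | l.Pairwise (fun x y => x < y ∨ (x = y ∧ b = false)) ∧ l.length = k}

theorem FF_L (b : Bool) (k : ℕ) : FF (L b k) List.sum := fun i =>
  (finite_lists (Set.finite_Iic i) k).subset fun _ hl =>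
    ⟨hl.1.2.le, fun _ hx => (List.le_sum_of_mem hx).trans hl.2.le⟩

theorem sum_map_add (s : ℕ) (l : List ℕ) : (l.map (· + s)).sum = l.sum + l.length * s := by
  induction l with
  | nil => simp
  | cons x l ih => simp only [List.map_cons, List.sum_cons, ih, List.length_cons]; ring

theorem map_add_mem {b : Bool} {k : ℕ} (s : ℕ) {l : List ℕ} :
    l.map (· + s) ∈ L b k ↔ l ∈ L b k := by
  simp [L, List.pairwise_map]

theorem exists_sub {s : ℕ} {l : List ℕ} (h : ∀ y ∈ l, s ≤ y) : ∃ l' : List ℕ, l'.map (· + s) = l :=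
  ⟨l.map (· - s), by
    rw [List.map_map]
    exact (List.map_congr_left fun y hy => Nat.sub_add_cancel (h y hy)).trans (List.map_id l)⟩

theorem L_succ (b : Bool) (k : ℕ) : L b (k + 1) =
    (fun l => 0 :: l.map (· + if b then 1 else 0)) '' L b k ∪ List.map (· + 1) '' L b (k + 1) := by
  apply Set.Subset.antisymm
  · rintro (_ | ⟨x, t⟩) hl
    · exact absurd hl.2 (by simp)
    have h1 := List.pairwise_cons.1 hl.1
    rcases Nat.eq_zero_or_pos x with rfl | hx
    · obtain ⟨l', rfl⟩ := exists_sub (s := if b then 1 else 0) (l := t) fun y hy => by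
        rcases h1.1 y hy with h | ⟨_, h⟩
        · split_ifs <;> omega
        · simp [h]
      exact Or.inl ⟨l', (map_add_mem _).1 ⟨h1.2, by simpa using hl.2⟩, rfl⟩
    · obtain ⟨l', h⟩ := exists_sub (s := 1) (l := x :: t) fun y hy => by
        rcases List.mem_cons.1 hy with rfl | hy
        · exact hx
        · have := h1.1 y hy
          omega
      exact Or.inr ⟨l', (map_add_mem 1).1 (h ▸ hl), h⟩
  · rintro _ (⟨l, hl, rfl⟩ | ⟨l, hl, rfl⟩)
    · refine ⟨List.pairwise_cons.2 ⟨fun y hy => ?_, ((map_add_mem _).2 hl).1⟩, by simpa using hl.2⟩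
      obtain ⟨z, -, rfl⟩ := List.mem_map.1 hy
      cases b
      · simpa using (Nat.eq_zero_or_pos z).symm.imp_right Eq.symm
      · simp
    · exact (map_add_mem 1).2 hl

theorem gf_L (b : Bool) (k : ℕ) : gf (L b k) List.sum = cser b k := by
  induction k with
  | zero =>
    rw [show L b 0 = {[]} from Set.ext fun l =>
      ⟨fun h => List.length_eq_zero_iff.1 h.2, fun h => by rw [h]; exact ⟨List.Pairwise.nil, rfl⟩⟩,
      gf_singleton [] List.sum rfl]
    simp [cser]
  | succ k ih =>
    have hi : ∀ s : ℕ, Function.Injective (List.map (· + s)) := fun s =>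
      List.map_injective_iff.2 (add_left_injective s)
    have h1 : gf (L b (k + 1)) List.sum = PowerSeries.X ^ (k * if b then 1 else 0) * cser b k +
        PowerSeries.X ^ (k + 1) * gf (L b (k + 1)) List.sum := by
      conv_lhs => rw [L_succ]
      rw [gf_union ((FF_L b (k + 1)).subset (by
          conv_rhs => rw [L_succ]
          exact Set.subset_union_left)) ((FF_L b (k + 1)).subset (by
          conv_rhs => rw [L_succ]
          exact Set.subset_union_right)),
        gf_image (fun l l' h => hi _ (List.cons_injective h)), gf_image (hi 1), ← ih, ← gf_shift,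
        ← gf_shift]
      · congr 1
        · exact gf_congr fun l hl => by rw [List.sum_cons, zero_add, sum_map_add, hl.2]
        · exact gf_congr fun l hl => by rw [sum_map_add, hl.2, mul_one]
      · rw [Set.disjoint_left]
        rintro _ ⟨l, -, rfl⟩ ⟨_ | ⟨x, t⟩, -, h⟩ <;> simp at h
    have h2 : cser b (k + 1) = PowerSeries.X ^ (k * if b then 1 else 0) * cser b k *
        (1 - PowerSeries.X ^ (k + 1) : PowerSeries ℚ)⁻¹ := by
      rw [cser, cser, prod_range_succ, Nat.choose_succ_succ' k 1, Nat.choose_one_right]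
      cases b
      · simp
      · simp only [if_true, mul_one, pow_add]
        ring
    rw [h2, PowerSeries.eq_mul_inv_iff_mul_eq (by simp)]
    linear_combination h1

end Count

/-- `cser b k` counts increasing lists of length `k` by their sum -/
theorem coeff_cser (b : Bool) (k i : ℕ) :
    PowerSeries.coeff i (cser b k) =
      (Nat.card {l : List ℕ // l.Pairwise (fun x y => x < y ∨ (x = y ∧ b = false)) ∧
        l.length = k ∧ l.sum = i} : ℚ) := by
  rw [← Count.gf_L, Count.coeff_gf, ← Nat.card_coe_set_eq]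
  exact congrArg _ (Nat.card_congr (Equiv.subtypeEquivRight fun _ => and_assoc))

variable {C : Type} [Fintype C] [DecidableEq C] (a : C → C → ℕ) (odd : C → Bool)

namespace Count

omit [DecidableEq C] in
theorem av_add (d e e' : C → ℕ) : av a d (e + e') = av a d e + av a d e' := by
  simp only [av, Pi.add_apply, mul_add, add_mul, sum_add_distrib]

omit [DecidableEq C] in
theorem av_smul (d e : C → ℕ) (k : ℕ) : av a d (k • e) = k * av a d e := by
  simp only [av, Pi.smul_apply, smul_eq_mul, mul_sum]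
  exact sum_congr rfl fun _ _ => sum_congr rfl fun _ _ => by ring

variable {n : ℕ}

/-- good words of dimension `d` -/
def G (dim : Fin n → C → ℕ) (d : C → ℕ) : Set (List (Fin n × ℕ)) :=
  {l | Good (fun y => par a odd (dim y)) l ∧ dimW dim l = d}

omit [DecidableEq C] in
theorem length_le {dim : Fin n → C → ℕ} (hdim : ∀ y, dim y ≠ 0) (l : List (Fin n × ℕ)) :
    l.length ≤ ∑ c, dimW dim l c := by
  induction l with
  | nil => simp
  | cons x l ih =>
    have h1 : ∑ c, dim x.1 c ≠ 0 := fun h =>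
      hdim x.1 (funext fun c => sum_eq_zero_iff.1 h c (mem_univ c))
    simp only [dimW, List.map_cons, List.sum_cons, Pi.add_apply, sum_add_distrib,
      List.length_cons] at ih ⊢
    omega

omit [DecidableEq C] in
theorem le_degW (dim : Fin n → C → ℕ) (deg : Fin n → ℕ) (l : List (Fin n × ℕ)) :
    ∀ x ∈ l, x.2 ≤ degW a dim deg l := by
  induction l with
  | nil => simp
  | cons y l ih =>
    intro x hx
    rw [degW]
    rcases List.mem_cons.1 hx with rfl | hx
    · omega
    · have := ih x hx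
      omega

omit [DecidableEq C] in
theorem FF_G {dim : Fin n → C → ℕ} (deg : Fin n → ℕ) (hdim : ∀ y, dim y ≠ 0) (d : C → ℕ) :
    FF (G a odd dim d) (degW a dim deg) := fun i =>
  (finite_lists (Set.finite_univ.prod (Set.finite_Iic i)) (∑ c, d c)).subset fun l hl =>
    ⟨hl.1.2 ▸ length_le hdim l, fun x hx => ⟨trivial, (le_degW a dim deg l x hx).trans hl.2.le⟩⟩

/-- a block of letters `0` followed by a word in the other letters -/
def cat (q : List ℕ × List (Fin n × ℕ)) : List (Fin (n + 1) × ℕ) :=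
  q.1.map (fun j => (0, j)) ++ q.2.map fun x => (x.1.succ, x.2)

theorem cat_injective : Function.Injective (cat (n := n)) := by
  have h1 : ∀ q : List ℕ × List (Fin n × ℕ), (cat q).countP (·.1 = 0) = q.1.length := fun q => by
    simp [cat, List.countP_map, Function.comp_def]
  intro q q' h
  obtain ⟨h2, h3⟩ := List.append_inj h (by simp [← h1, h])
  exact Prod.ext (List.map_injective_iff.2 (fun _ _ h => (Prod.ext_iff.1 h).2) h2)
    (List.map_injective_iff.2 ((Fin.succ_injective n).prodMap Function.injective_id) h3)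

theorem good_cat (o : Fin (n + 1) → Bool) (q : List ℕ × List (Fin n × ℕ)) :
    Good o (cat q) ↔ q.1.Pairwise (fun x y => x < y ∨ (x = y ∧ o 0 = false)) ∧
      Good (fun y => o y.succ) q.2 := by
  simp only [Good, cat, List.pairwise_append, List.pairwise_map, lt_self_iff_false, true_and,
    false_or, Fin.succ_lt_succ_iff, Fin.succ_inj]
  refine and_congr_right' (and_iff_left fun x hx y hy => ?_)
  obtain ⟨_, -, rfl⟩ := List.mem_map.1 hx
  obtain ⟨_, -, rfl⟩ := List.mem_map.1 hy
  exact Or.inl (Fin.succ_pos _)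

theorem exists_cat {o : Fin (n + 1) → Bool} {l : List (Fin (n + 1) × ℕ)} (h : Good o l) :
    ∃ q, cat q = l := by
  induction l with
  | nil => exact ⟨([], []), rfl⟩
  | cons x l ih =>
    obtain ⟨h1, h2⟩ := List.pairwise_cons.1 h
    obtain ⟨⟨p, l'⟩, rfl⟩ := ih h2
    obtain ⟨y, j⟩ := x
    rcases Fin.eq_zero_or_eq_succ y with rfl | ⟨y, rfl⟩
    · exact ⟨(j :: p, l'), rfl⟩
    · rcases p with _ | ⟨i, p⟩
      · exact ⟨([], (y, j) :: l'), rfl⟩
      · have := h1 (0, i) (by simp [cat])
        simp at this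

omit [Fintype C] [DecidableEq C] in
theorem dimW_cat (dim : Fin (n + 1) → C → ℕ) (q : List ℕ × List (Fin n × ℕ)) :
    dimW dim (cat q) = q.1.length • dim 0 + dimW (fun y => dim y.succ) q.2 := by
  simp [dimW, cat, Function.comp_def]

omit [DecidableEq C] in
theorem degW_cat (dim : Fin (n + 1) → C → ℕ) (deg : Fin (n + 1) → ℕ) (p : List ℕ)
    (l : List (Fin n × ℕ)) : degW a dim deg (cat (p, l)) =
      p.sum + degW a (fun y => dim y.succ) (fun y => deg y.succ) l +
        (p.length * deg 0 + p.length.choose 2 * av a (dim 0) (dim 0) +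
          p.length * av a (dim 0) (dimW (fun y => dim y.succ) l)) := by
  induction p with
  | nil =>
    induction l with
    | nil => simp [cat, degW]
    | cons x l ih =>
      rw [show cat ([], x :: l) = (x.1.succ, x.2) :: cat ([], l) from rfl, degW, ih, dimW_cat, degW]
      simp
  | cons j p ih =>
    rw [show cat (j :: p, l) = (0, j) :: cat (p, l) from rfl, degW, ih, dimW_cat, av_add, av_smul,
      List.length_cons, Nat.choose_succ_succ' _ 1, Nat.choose_one_right, List.sum_cons]
    ring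

theorem gf_G (dim : Fin n → C → ℕ) (deg : Fin n → ℕ) (hdim : ∀ y, dim y ≠ 0) (d : C → ℕ) :
    gf (G a odd dim d) (degW a dim deg) = Wser a odd (List.ofFn fun y => (dim y, deg y)) d := by
  induction n generalizing d with
  | zero =>
    have h0 : ∀ l : List (Fin 0 × ℕ), l = [] := fun l => List.eq_nil_iff_forall_not_mem.2
      fun x _ => x.1.elim0
    rw [List.ofFn_zero, Wser]
    split_ifs with hd
    · rw [show G a odd dim d = {[]} from Set.ext fun l =>
        ⟨fun _ => h0 l, fun h => by rw [h, hd]; exact ⟨List.Pairwise.nil, rfl⟩⟩,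
        gf_singleton [] (degW a dim deg) rfl]
    · rw [show G a odd dim d = ∅ from Set.eq_empty_of_forall_notMem fun l hl =>
        hd (by rw [← hl.2, h0 l]; rfl), gf_empty]
  | succ n ih =>
    let U : ℕ → Set (List (Fin (n + 1) × ℕ)) := fun k =>
      if ∀ c, k * dim 0 c ≤ d c then cat '' (L (par a odd (dim 0)) k ×ˢ
        G a odd (fun y => dim y.succ) (d - k • dim 0)) else ∅
    have hU : ∀ k, U k ⊆ G a odd dim d := fun k => by
      simp only [U]
      split_ifs with h
      · rintro _ ⟨q, ⟨h1, h2⟩, rfl⟩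
        refine ⟨(good_cat _ q).2 ⟨h1.1, h2.1⟩, ?_⟩
        rw [dimW_cat, h1.2, h2.2]
        exact add_tsub_cancel_of_le h
      · exact Set.empty_subset _
    have h1 : G a odd dim d = ⋃ k ∈ range (∑ c, d c + 1), U k := by
      refine Set.Subset.antisymm (fun l hl => ?_) (Set.iUnion₂_subset fun k _ => hU k)
      obtain ⟨q, rfl⟩ := exists_cat hl.1
      have h2 := (good_cat _ q).1 hl.1
      have h3 := (dimW_cat dim q).symm.trans hl.2
      refine Set.mem_iUnion₂.2 ⟨q.1.length, ?_, ?_⟩
      · have h4 := length_le hdim (cat q)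
        rw [hl.2, cat, List.length_append, List.length_map] at h4
        exact mem_range.2 (by omega)
      · simp only [U]
        rw [if_pos fun c => by rw [← h3]; exact Nat.le_add_right _ _]
        exact ⟨q, ⟨⟨h2.1, rfl⟩, h2.2, by rw [← h3, add_tsub_cancel_left]⟩, rfl⟩
    have h2 : ∀ k, ∀ l ∈ U k, ∃ q, cat q = l ∧ q.1.length = k := fun k l hl => by
      simp only [U] at hl
      split_ifs at hl
      · obtain ⟨q, hq, rfl⟩ := hl
        exact ⟨q, rfl, hq.1.2⟩
      · exact hl.elim
    rw [List.ofFn_succ, Wser, h1, gf_biUnion _ _ _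
      (fun k _ => (FF_G a odd deg hdim d).subset (hU k)) fun k _ k' _ l hl hl' => by
        obtain ⟨q, rfl, rfl⟩ := h2 k l hl
        obtain ⟨q', h, rfl⟩ := h2 k' _ hl'
        rw [cat_injective h]]
    refine sum_congr rfl fun k _ => ?_
    simp only [U]
    split_ifs with h
    · rw [gf_image cat_injective, ← ih _ _ fun y => hdim y.succ, ← gf_L, mul_right_comm,
        ← gf_prod (FF_L _ _) (FF_G a odd _ (fun y => hdim y.succ) _), mul_comm, ← gf_shift]
      refine gf_congr fun q hq => ?_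
      rw [degW_cat, hq.1.2, hq.2.2]
    · exact gf_empty _

end Count

theorem finite_good {n : ℕ} (dim : Fin n → C → ℕ) (deg : Fin n → ℕ) (hdim : ∀ y, dim y ≠ 0)
    (d : C → ℕ) (i : ℕ) :
    Finite {l : List (Fin n × ℕ) // Good (fun y => par a odd (dim y)) l ∧ dimW dim l = d ∧
      degW a dim deg l = i} :=
  have := (Count.FF_G a odd deg hdim d i).to_subtype
  Finite.of_equiv _ (Equiv.subtypeEquivRight (p := fun l =>
    l ∈ {l | l ∈ Count.G a odd dim d ∧ degW a dim deg l = i}) fun _ => and_assoc)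

theorem coeff_Wser {n : ℕ} (dim : Fin n → C → ℕ) (deg : Fin n → ℕ) (hdim : ∀ y, dim y ≠ 0)
    (d : C → ℕ) (i : ℕ) :
    PowerSeries.coeff i (Wser a odd (List.ofFn fun y => (dim y, deg y)) d) =
      (Nat.card {l : List (Fin n × ℕ) // Good (fun y => par a odd (dim y)) l ∧ dimW dim l = d ∧
        degW a dim deg l = i} : ℚ) := by
  rw [← Count.gf_G a odd dim deg hdim, Count.coeff_gf, ← Nat.card_coe_set_eq]
  exact congrArg _ (Nat.card_congr (Equiv.subtypeEquivRight fun _ => and_assoc))

end Crest.Agent.R59
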