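import Mathlib

/-!
# Polynomial COHA: definitions (row 59)

`X` is a finite set of variables coloured by `C`; `Q.a c c'` arrows go from colour `c` to colour `c'`.
Ordered set partitions of a finite set `S ⊆ X` are labellings `ρ : X → ℕ` (blocks `fib S ρ i`).
-/

set_option autoImplicit false

namespace Crest.Agent.R59
open MvPolynomial Finset

/-- coloured variables, arrows, parity of colours -/
structure Quiv (C X : Type) where
  col : X → C
  a : C → C → ℕ
  odd : C → Bool

/-- number of arrows from dimension vector `d` to dimension vector `e` -/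
def av {C : Type} [Fintype C] (a : C → C → ℕ) (d e : C → ℕ) : ℕ :=
  ∑ c, ∑ c', d c * e c' * a c c'

/-- linear form -/
def lin {C : Type} [Fintype C] (z : C → ℤ) (d : C → ℕ) : ℤ := ∑ c, (d c : ℤ) * z c

/-- parity of a generator of dimension vector `e` (`true` = odd = fermionic) -/
def par {C : Type} [Fintype C] (a : C → C → ℕ) (odd : C → Bool) (e : C → ℕ) : Bool :=
  decide (Odd ((∑ c, if odd c then e c else 0) + av a e e))

/-- a slope stability `z / w` for which the arrow count is symmetric on equal slopes -/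
structure Stab {C X : Type} [Fintype C] (Q : Quiv C X) where
  z : C → ℤ
  w : C → ℤ
  w_pos : ∀ c, 0 < w c
  symm : ∀ d e : C → ℕ, lin z d * lin w e = lin z e * lin w d → av Q.a d e = av Q.a e d

/-- polynomial ring -/
abbrev P (X : Type) : Type := MvPolynomial X ℚ

/-- block `i` of the labelling `ρ` of `S` -/
def fib {X : Type} (S : Finset X) (ρ : X → ℕ) (i : ℕ) : Finset X := S.filter (fun s => ρ s = i)

/-- two labellings define the same unordered partition of `S` -/
def SameKer {X : Type} (S : Finset X) (π ρ : X → ℕ) : Prop :=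
  ∀ s ∈ S, ∀ t ∈ S, π s = π t ↔ ρ s = ρ t

/-- barycentre of a block -/
noncomputable def pb {X : Type} (B : Finset X) : P X := C ((B.card : ℚ)⁻¹) * ∑ s ∈ B, MvPolynomial.X s

/-- shift the variables of `S` blockwise: `x_s ↦ x_s + t_(ρ s)` -/
noncomputable def sh {X : Type} [DecidableEq X] (S : Finset X) (ρ : X → ℕ) :
    P X →ₐ[ℚ] MvPolynomial ℕ (P X) :=
  aeval (fun s => if s ∈ S then C (MvPolynomial.X s) + MvPolynomial.X (ρ s) else C (MvPolynomial.X s))

/-- the shift degree of `ξ` along `ρ` is `≤ n` modulo `J` -/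
def DegLE {X : Type} [DecidableEq X] (J : Ideal (P X)) (S : Finset X) (ρ : X → ℕ) (ξ : P X)
    (n : ℤ) : Prop :=
  ∀ α : ℕ →₀ ℕ, n < (Finsupp.degree α : ℕ) → coeff α (sh S ρ ξ) ∈ J

namespace Quiv
variable {C X : Type} (Q : Quiv C X)

/-- arrows between variables -/
def ar (s t : X) : ℕ := Q.a (Q.col s) (Q.col t)

/-- colour count of a set -/
def cnt [DecidableEq C] (A : Finset X) : C → ℕ := fun c => (A.filter (fun s => Q.col s = c)).card

/-- kernel between two sets -/
noncomputable def Kp (A B : Finset X) : P X :=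
  ∏ s ∈ A, ∏ t ∈ B, (MvPolynomial.X t - MvPolynomial.X s) ^ Q.ar s t

/-- kernel of an ordered partition -/
noncomputable def Kl (S : Finset X) (π : X → ℕ) : P X :=
  ∏ s ∈ S, ∏ t ∈ S.filter (fun t => π s < π t), (MvPolynomial.X t - MvPolynomial.X s) ^ Q.ar s t

/-- top shift-degree part of `Kl S π` along `ρ` -/
noncomputable def Dl (S : Finset X) (π ρ : X → ℕ) : MvPolynomial ℕ ℚ :=
  ∏ s ∈ S, ∏ t ∈ S.filter (fun t => π s < π t),
    (MvPolynomial.X (ρ t) - MvPolynomial.X (ρ s)) ^ Q.ar s t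

/-- degree of `Kl` -/
def al (S : Finset X) (π : X → ℕ) : ℕ := ∑ s ∈ S, ∑ t ∈ S.filter (fun t => π s < π t), Q.ar s t

/-- colour preserving permutations -/
def IsG (σ : Equiv.Perm X) : Prop := ∀ s, Q.col (σ s) = Q.col s

variable [Fintype X] [DecidableEq X]

open Classical in
/-- colour preserving permutations supported in `S` -/
noncomputable def Aut (S : Finset X) : Finset (Equiv.Perm X) :=
  univ.filter (fun σ => Q.IsG σ ∧ ∀ s, s ∉ S → σ s = s)

open Classical in
/-- sign of a colour preserving permutation on the odd variables -/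
noncomputable def eps (σ : Equiv.Perm X) : ℚ :=
  if h : Q.IsG σ then
    (((Equiv.Perm.sign (σ.subtypePerm (p := fun s => Q.odd (Q.col s) = true)
      (fun s => by rw [h s])) : ℤˣ) : ℤ) : ℚ)
  else 1

/-- signed symmetrisation over `Aut S` -/
noncomputable def Av (S : Finset X) : P X →ₗ[ℚ] P X :=
  ∑ σ ∈ Q.Aut S, Q.eps σ • (rename σ : P X →ₐ[ℚ] P X).toLinearMap

/-- polynomials in the variables of `S`, symmetric in even and antisymmetric in odd colours -/
def Inv (S : Finset X) : Submodule ℚ (P X) where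
  carrier := {ξ | ξ ∈ supported ℚ (S : Set X) ∧ ∀ σ ∈ Q.Aut S, rename σ ξ = Q.eps σ • ξ}
  add_mem' := by
    rintro x y ⟨hx, hx'⟩ ⟨hy, hy'⟩
    exact ⟨add_mem hx hy, fun σ hσ => by rw [map_add, hx' σ hσ, hy' σ hσ, smul_add]⟩
  zero_mem' := ⟨zero_mem _, fun σ _ => by simp⟩
  smul_mem' := by
    rintro c x ⟨hx, hx'⟩
    exact ⟨Subalgebra.smul_mem _ hx c, fun σ hσ => by rw [map_smul, hx' σ hσ, smul_comm]⟩

end Quiv

namespace Stab
variable {C X : Type} [Fintype C] [DecidableEq C] {Q : Quiv C X} (Z : Stab Q)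

/-- slope of a set (`0` for the empty set) -/
def sl (A : Finset X) : ℚ := (lin Z.z (Q.cnt A) : ℚ) / (lin Z.w (Q.cnt A) : ℚ)

variable [DecidableEq X]

/-- the ideal of the unstable locus of the blocks of `ρ` -/
noncomputable def I (S : Finset X) (ρ : X → ℕ) : Ideal (P X) :=
  Ideal.span {f | ∃ (i : ℕ) (A : Finset X), A.Nonempty ∧ A ⊆ fib S ρ i ∧ Z.sl (fib S ρ i) < Z.sl A ∧
    f = Q.Kp A (fib S ρ i \ A)}

/-- the ideal of the unstable locus of `S` -/
noncomputable def I0 (S : Finset X) : Ideal (P X) := Z.I S (fun _ => 0)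

/-- all blocks have the slope of `S` -/
def Pure (S : Finset X) (ρ : X → ℕ) : Prop := ∀ s ∈ S, Z.sl (fib S ρ (ρ s)) = Z.sl S

/-- slopes of the blocks decrease weakly with the label -/
def Anti (S : Finset X) (π : X → ℕ) : Prop :=
  ∀ s ∈ S, ∀ t ∈ S, π s ≤ π t → Z.sl (fib S π (π t)) ≤ Z.sl (fib S π (π s))

/-- convex potential of a partition -/
def Phi (S : Finset X) (π : X → ℕ) : ℚ :=
  ∑ s ∈ S, Z.sl (fib S π (π s)) ^ 2 * (Z.w (Q.col s) : ℚ)

/-- the two-index filtration -/
def F (S : Finset X) (e : ℤ) (k : ℕ) (ξ : P X) : Prop :=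
  ∀ ρ : X → ℕ, Z.Pure S ρ → DegLE (Z.I S ρ) S ρ ξ (Q.al S ρ + e) ∧
    (k < (S.image ρ).card → DegLE (Z.I S ρ) S ρ ξ (Q.al S ρ + e - 1))

/-- the space of generators on `S` (contains `I0 S ∩ P(S)`) -/
def V (S : Finset X) : Submodule ℚ (P X) where
  carrier := {ξ | ξ ∈ supported ℚ (S : Set X) ∧ Z.F S 0 1 ξ}
  add_mem' := by
    rintro x y ⟨hx, hx'⟩ ⟨hy, hy'⟩
    refine ⟨add_mem hx hy, fun ρ hρ => ⟨fun α hα => ?_, fun hk α hα => ?_⟩⟩
    · rw [map_add, coeff_add]
      exact add_mem ((hx' ρ hρ).1 α hα) ((hy' ρ hρ).1 α hα)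
    · rw [map_add, coeff_add]
      exact add_mem ((hx' ρ hρ).2 hk α hα) ((hy' ρ hρ).2 hk α hα)
  zero_mem' := ⟨zero_mem _, fun ρ _ => ⟨fun α _ => by simp, fun _ α _ => by simp⟩⟩
  smul_mem' := by
    rintro c x ⟨hx, hx'⟩
    refine ⟨Subalgebra.smul_mem _ hx c, fun ρ hρ => ⟨fun α hα => ?_, fun hk α hα => ?_⟩⟩
    · rw [map_smul, coeff_smul]
      exact Submodule.smul_of_tower_mem _ c ((hx' ρ hρ).1 α hα)
    · rw [map_smul, coeff_smul]
      exact Submodule.smul_of_tower_mem _ c ((hx' ρ hρ).2 hk α hα)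

/-- products of generators and barycentre powers over the blocks of `π`, total power `e` -/
def Terms (S : Finset X) (π : X → ℕ) (e : ℕ) : Set (P X) :=
  {η | ∃ (u : ℕ → P X) (j : ℕ → ℕ), (∀ i ∈ S.image π, u i ∈ Z.V (fib S π i)) ∧
    ∑ i ∈ S.image π, j i = e ∧ η = ∏ i ∈ S.image π, (u i * pb (fib S π i) ^ j i)}

/-- a homogeneous basis of the invariant generators modulo the unstable ideals, sorted by slope -/
structure Alph [Fintype X] where
  n : ℕ
  blk : Fin n → Finset X
  poly : Fin n → P X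
  deg : Fin n → ℕ
  blk_ne : ∀ y, (blk y).Nonempty
  blk_eq : ∀ y y', Q.cnt (blk y) = Q.cnt (blk y') → blk y = blk y'
  mem_V : ∀ y, poly y ∈ Z.V (blk y)
  mem_Inv : ∀ y, poly y ∈ Q.Inv (blk y)
  homog : ∀ y, (poly y).IsHomogeneous (deg y)
  indep : ∀ (B : Finset X) (c : Fin n → ℚ), (∀ y, blk y ≠ B → c y = 0) →
    ∑ y, c y • poly y ∈ Z.I0 B → ∀ y, c y = 0
  span : ∀ B : Finset X, B.Nonempty → ∀ v ∈ Z.V B, v ∈ Q.Inv B →
    v ∈ Submodule.span ℚ {f | ∃ (y : Fin n) (σ : Equiv.Perm X), Q.IsG σ ∧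
      (blk y).map σ.toEmbedding = B ∧ f = rename σ (poly y)} ⊔ (Z.I0 B).restrictScalars ℚ
  sorted : ∀ y y', y ≤ y' → Z.sl (blk y') ≤ Z.sl (blk y)

end Stab

/-- sorted words in letters `(y, j)`; odd letters are not repeated -/
def Good {n : ℕ} (odd : Fin n → Bool) (l : List (Fin n × ℕ)) : Prop :=
  l.Pairwise (fun x y => x.1 < y.1 ∨ (x.1 = y.1 ∧ (x.2 < y.2 ∨ (x.2 = y.2 ∧ odd x.1 = false))))

/-- dimension vector of a word -/
def dimW {C : Type} {n : ℕ} (dim : Fin n → C → ℕ) (l : List (Fin n × ℕ)) : C → ℕ :=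
  (l.map (fun x => dim x.1)).sum

/-- degree of a word -/
def degW {C : Type} [Fintype C] (a : C → C → ℕ) {n : ℕ} (dim : Fin n → C → ℕ) (deg : Fin n → ℕ) :
    List (Fin n × ℕ) → ℕ
  | [] => 0
  | x :: l => deg x.1 + x.2 + av a (dim x.1) (dimW dim l) + degW a dim deg l

/-- generating series (by the sum) of weakly (`b = false`) resp. strictly (`b = true`) increasing
lists of `k` natural numbers -/
noncomputable def cser (b : Bool) (k : ℕ) : PowerSeries ℚ :=
  (if b then PowerSeries.X ^ k.choose 2 else 1) *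
    ∏ j ∈ range k, (1 - PowerSeries.X ^ (j + 1) : PowerSeries ℚ)⁻¹

/-- generating series of good words, for letters given as pairs (dimension vector, degree) -/
noncomputable def Wser {C : Type} [Fintype C] [DecidableEq C] (a : C → C → ℕ) (odd : C → Bool) :
    List ((C → ℕ) × ℕ) → (C → ℕ) → PowerSeries ℚ
  | [], d => if d = 0 then 1 else 0
  | y :: Y, d => ∑ k ∈ range (∑ c, d c + 1), if ∀ c, k * y.1 c ≤ d c then
      cser (par a odd y.1) k *
        PowerSeries.X ^ (k * y.2 + k.choose 2 * av a y.1 y.1 + k * av a y.1 (d - k • y.1)) *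
        Wser a odd Y (d - k • y.1) else 0

namespace Stab.Alph
variable {C X : Type} [Fintype C] [DecidableEq C] [Fintype X] [DecidableEq X] {Q : Quiv C X}
  {Z : Stab Q} (A : Z.Alph)

/-- dimension vector of a letter -/
def dim (y : Fin A.n) : C → ℕ := Q.cnt (A.blk y)

/-- parity of a letter -/
def odd (y : Fin A.n) : Bool := par Q.a Q.odd (A.dim y)

/-- `T` is an (unsymmetrised) product of the letters of `l` placed on blocks of `S` -/
def IsT (S : Finset X) (l : List (Fin A.n × ℕ)) (T : P X) : Prop :=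
  ∃ (π : X → ℕ) (σ : Fin l.length → Equiv.Perm X), (∀ s ∈ S, π s < l.length) ∧
    (∀ i, Q.IsG (σ i) ∧ (A.blk (l.get i).1).map (σ i).toEmbedding = fib S π i) ∧
    T = Q.Kl S π * ∏ i, (rename (σ i) (A.poly (l.get i).1) * pb (fib S π i) ^ (l.get i).2)

end Stab.Alph

end Crest.Agent.R59
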