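import Crest.Agent.R59.CohaBasic

/-! # Polynomial COHA: colour preserving permutations, signs, symmetrisation, words -/

set_option autoImplicit false
set_option linter.unusedSectionVars false

namespace Crest.Agent.R59
open MvPolynomial Finset

section group
variable {C X : Type} {Q : Quiv C X}

theorem Quiv.isG_one : Q.IsG 1 := fun _ => rfl

theorem Quiv.IsG.mul {σ τ : Equiv.Perm X} (h : Q.IsG σ) (h' : Q.IsG τ) : Q.IsG (σ * τ) :=
  fun s => by rw [Equiv.Perm.mul_apply, h, h']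

theorem Quiv.IsG.inv {σ : Equiv.Perm X} (h : Q.IsG σ) : Q.IsG σ⁻¹ :=
  fun s => by rw [← h (σ⁻¹ s)]; simp

variable [Fintype X] [DecidableEq X]

theorem Quiv.mem_Aut {S : Finset X} {σ : Equiv.Perm X} :
    σ ∈ Q.Aut S ↔ Q.IsG σ ∧ ∀ s, s ∉ S → σ s = s := by simp [Quiv.Aut]

theorem Quiv.one_mem_Aut (S : Finset X) : (1 : Equiv.Perm X) ∈ Q.Aut S := by
  exact Quiv.mem_Aut.2 ⟨Quiv.isG_one, fun _ _ => rfl⟩

theorem Quiv.mul_mem_Aut {S : Finset X} {σ τ : Equiv.Perm X} (h : σ ∈ Q.Aut S) (h' : τ ∈ Q.Aut S) :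
    σ * τ ∈ Q.Aut S := by
  rw [Quiv.mem_Aut] at *
  exact ⟨h.1.mul h'.1, fun s hs => by rw [Equiv.Perm.mul_apply, h'.2 s hs, h.2 s hs]⟩

theorem Quiv.inv_mem_Aut {S : Finset X} {σ : Equiv.Perm X} (h : σ ∈ Q.Aut S) : σ⁻¹ ∈ Q.Aut S := by
  rw [Quiv.mem_Aut] at *
  exact ⟨h.1.inv, fun s hs => by rw [Equiv.Perm.inv_eq_iff_eq, h.2 s hs]⟩

theorem Quiv.Aut_mono {B S : Finset X} (h : B ⊆ S) : Q.Aut B ⊆ Q.Aut S := by
  intro σ hσ
  rw [Quiv.mem_Aut] at *
  exact ⟨hσ.1, fun s hs => hσ.2 s fun hB => hs (h hB)⟩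

theorem Quiv.apply_mem_iff_of_mem_Aut {S : Finset X} {σ : Equiv.Perm X} (h : σ ∈ Q.Aut S)
    (s : X) : σ s ∈ S ↔ s ∈ S := by
  rw [Quiv.mem_Aut] at h
  refine ⟨fun h1 => ?_, fun h1 => ?_⟩
  · by_contra h2
    rw [h.2 s h2] at h1
    exact h2 h1
  · by_contra h2
    have := σ.injective (h.2 _ h2)
    rw [this] at h2
    exact h2 h1

theorem Quiv.map_of_mem_Aut {S : Finset X} {σ : Equiv.Perm X} (h : σ ∈ Q.Aut S) :
    S.map σ.toEmbedding = S := by
  ext s
  rw [Finset.mem_map_equiv, ← Quiv.apply_mem_iff_of_mem_Aut h, Equiv.apply_symm_apply]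

theorem Quiv.card_Aut_pos (S : Finset X) : 0 < (Q.Aut S).card := by
  exact Finset.card_pos.2 ⟨1, Q.one_mem_Aut S⟩

theorem Quiv.eps_one : Q.eps 1 = 1 := by
  unfold Quiv.eps
  rw [dif_pos Quiv.isG_one, Equiv.Perm.subtypePerm_one]
  simp

theorem Quiv.eps_mul {σ τ : Equiv.Perm X} (h : Q.IsG σ) (h' : Q.IsG τ) :
    Q.eps (σ * τ) = Q.eps σ * Q.eps τ := by
  unfold Quiv.eps
  rw [dif_pos h, dif_pos h', dif_pos (h.mul h'), ← Int.cast_mul, ← Units.val_mul, ← map_mul,
    Equiv.Perm.subtypePerm_mul]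

theorem Quiv.eps_eq (σ : Equiv.Perm X) : Q.eps σ = 1 ∨ Q.eps σ = -1 := by
  unfold Quiv.eps
  split_ifs with h
  · rcases Int.units_eq_one_or (Equiv.Perm.sign (σ.subtypePerm
      (p := fun s => Q.odd (Q.col s) = true) (fun s => by rw [h s]))) with h1 | h1
    · left; rw [h1]; simp
    · right; rw [h1]; simp
  · exact Or.inl rfl

theorem Quiv.eps_mul_self (σ : Equiv.Perm X) : Q.eps σ * Q.eps σ = 1 := by
  rcases Q.eps_eq σ with h | h <;> rw [h] <;> norm_num

theorem Quiv.eps_inv {σ : Equiv.Perm X} (h : Q.IsG σ) : Q.eps σ⁻¹ = Q.eps σ := by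
  have h1 := Quiv.eps_mul h.inv h
  rw [inv_mul_cancel, Quiv.eps_one] at h1
  calc Q.eps σ⁻¹ = Q.eps σ⁻¹ * (Q.eps σ * Q.eps σ) := by rw [Quiv.eps_mul_self, mul_one]
    _ = Q.eps σ := by rw [← mul_assoc, ← h1, one_mul]

theorem Quiv.isG_swap {a b : X} (h : Q.col a = Q.col b) : Q.IsG (Equiv.swap a b) := by
  intro s
  rw [Equiv.swap_apply_def]
  split_ifs with h1 h2
  · rw [h1, h]
  · rw [h2, h]
  · rfl

theorem Quiv.eps_swap {a b : X} (h : Q.col a = Q.col b) (hab : a ≠ b) :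
    Q.eps (Equiv.swap a b) = (-1) ^ (if Q.odd (Q.col a) then 1 else 0) := by
  unfold Quiv.eps
  rw [dif_pos (Quiv.isG_swap h)]
  split_ifs with ha
  · have hb : Q.odd (Q.col b) = true := h ▸ ha
    have : (Equiv.swap a b).subtypePerm (p := fun s => Q.odd (Q.col s) = true)
        (fun s => by rw [Quiv.isG_swap h s]) = Equiv.swap ⟨a, ha⟩ ⟨b, hb⟩ := by
      ext s
      simp only [Equiv.Perm.subtypePerm_apply, Equiv.swap_apply_def, Subtype.ext_iff]
      split_ifs <;> rfl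
    rw [this, Equiv.Perm.sign_swap (by simpa using hab)]
    simp
  · have : (Equiv.swap a b).subtypePerm (p := fun s => Q.odd (Q.col s) = true)
        (fun s => by rw [Quiv.isG_swap h s]) = 1 := by
      ext s
      have h1 : s.1 ≠ a := fun h' => ha (h' ▸ s.2)
      have h2 : s.1 ≠ b := fun h' => ha (h ▸ h' ▸ s.2)
      simp [Equiv.swap_apply_of_ne_of_ne h1 h2]
    rw [this]
    simp

variable [Fintype C] [DecidableEq C]

theorem Quiv.cnt_map {σ : Equiv.Perm X} (h : Q.IsG σ) (A : Finset X) :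
    Q.cnt (A.map σ.toEmbedding) = Q.cnt A := by
  funext c
  unfold Quiv.cnt
  rw [Finset.filter_map, Finset.card_map]
  congr 1
  exact Finset.filter_congr fun s _ => by simp [h s]

theorem Quiv.exists_isG_map {A B : Finset X} (h : Q.cnt A = Q.cnt B) :
    ∃ σ : Equiv.Perm X, Q.IsG σ ∧ A.map σ.toEmbedding = B := by
  have key : ∀ y : C × Bool, Fintype.card {s // (Q.col s, decide (s ∈ A)) = y} =
      Fintype.card {s // (Q.col s, decide (s ∈ B)) = y} := by
    rintro ⟨c, b⟩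
    have h1 : ∀ A : Finset X, (univ.filter fun s => (Q.col s, decide (s ∈ A)) = (c, true)).card =
        Q.cnt A c := fun A => by
      unfold Quiv.cnt
      congr 1
      ext s
      simp [and_comm]
    have h2 : ∀ A : Finset X, Q.cnt A c +
        (univ.filter fun s => (Q.col s, decide (s ∈ A)) = (c, false)).card =
        (univ.filter fun s => Q.col s = c).card := fun A => by
      rw [← Finset.card_filter_add_card_filter_not (s := univ.filter fun s => Q.col s = c)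
        (fun s => s ∈ A)]
      unfold Quiv.cnt
      congr 2
      · ext s; simp [and_comm]
      · ext s; simp
    rw [Fintype.card_subtype, Fintype.card_subtype]
    cases b
    · have h3 := h2 A
      have h4 := h2 B
      rw [h] at h3
      omega
    · rw [h1, h1, h]
  let σ : X ≃ X := Equiv.ofFiberEquiv fun y => Fintype.equivOfCardEq (key y)
  have hσ : ∀ s, (Q.col (σ s), decide (σ s ∈ B)) = (Q.col s, decide (s ∈ A)) := fun s =>
    Equiv.ofFiberEquiv_map (f := fun s => (Q.col s, decide (s ∈ A)))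
      (g := fun s => (Q.col s, decide (s ∈ B))) _ s
  refine ⟨σ, fun s => congrArg Prod.fst (hσ s), ?_⟩
  ext s
  have := congrArg Prod.snd (hσ (σ.symm s))
  rw [Finset.mem_map_equiv]
  simpa using this.symm

/-- two placements of the same family of sets on two partitions of `S` differ by an element of
`Aut S` -/
theorem Quiv.exists_mem_Aut_of_blocks {S : Finset X} {π π' : X → ℕ} {k : ℕ}
    (hπ : ∀ s ∈ S, π s < k) (hπ' : ∀ s ∈ S, π' s < k) (D : Fin k → Finset X)
    (σ σ' : Fin k → Equiv.Perm X)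
    (h : ∀ i, Q.IsG (σ i) ∧ (D i).map (σ i).toEmbedding = fib S π i)
    (h' : ∀ i, Q.IsG (σ' i) ∧ (D i).map (σ' i).toEmbedding = fib S π' i) :
    ∃ τ ∈ Q.Aut S, (∀ i, ∀ s ∈ D i, τ (σ i s) = σ' i s) ∧ ∀ s ∈ S, π' (τ s) = π s := by
  let t : X → X := fun s =>
    if hs : s ∈ S then σ' ⟨π s, hπ s hs⟩ ((σ ⟨π s, hπ s hs⟩).symm s) else s
  have ht : ∀ s ∈ S, ∀ i : Fin k, π s = i → t s = σ' i ((σ i).symm s) := by
    intro s hs i hi
    obtain rfl : i = ⟨π s, hπ s hs⟩ := Fin.ext hi.symm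
    simp only [t, dif_pos hs]
  have ht' : ∀ s, s ∉ S → t s = s := fun s hs => by simp only [t, dif_neg hs]
  have key : ∀ s ∈ S, t s ∈ S ∧ π' (t s) = π s := by
    intro s hs
    have h1 : s ∈ (D ⟨π s, hπ s hs⟩).map (σ ⟨π s, hπ s hs⟩).toEmbedding := by
      rw [(h _).2]; exact mem_fib.2 ⟨hs, rfl⟩
    rw [Finset.mem_map_equiv] at h1
    have h2 := Finset.mem_map_of_mem (σ' ⟨π s, hπ s hs⟩).toEmbedding h1
    rw [(h' _).2] at h2
    rw [ht s hs ⟨π s, hπ s hs⟩ rfl]
    exact mem_fib.1 h2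
  have hinj : Function.Injective t := by
    intro s s' e
    by_cases hs : s ∈ S <;> by_cases hs' : s' ∈ S
    · have h1 : π s' = π s := by rw [← (key s hs).2, ← (key s' hs').2, e]
      rw [ht s hs ⟨π s, hπ s hs⟩ rfl, ht s' hs' ⟨π s, hπ s hs⟩ h1] at e
      exact (Equiv.injective _) ((Equiv.injective _) e)
    · rw [ht' s' hs'] at e
      exact absurd (e ▸ (key s hs).1) hs'
    · rw [ht' s hs] at e
      exact absurd (e ▸ (key s' hs').1) hs
    · rwa [ht' s hs, ht' s' hs'] at e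
  refine ⟨Equiv.ofBijective t (Finite.injective_iff_bijective.1 hinj),
    Quiv.mem_Aut.2 ⟨fun s => ?_, ht'⟩, fun i s hs => ?_, fun s hs => (key s hs).2⟩
  · show Q.col (t s) = Q.col s
    by_cases hs : s ∈ S
    · rw [ht s hs ⟨π s, hπ s hs⟩ rfl, (h' _).1]
      exact (h _).1.inv s
    · rw [ht' s hs]
  · have h1 := Finset.mem_map_of_mem (σ i).toEmbedding hs
    rw [(h i).2, mem_fib] at h1
    show t (σ i s) = _
    rw [ht (σ i s) h1.1 i h1.2, Equiv.symm_apply_apply]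

/-- the involution exchanging two disjoint copies of `D`, and its sign -/
theorem Quiv.exists_swap {D : Finset X} {σ σ' : Equiv.Perm X} (h : Q.IsG σ) (h' : Q.IsG σ')
    (hd : Disjoint (D.map σ.toEmbedding) (D.map σ'.toEmbedding)) :
    ∃ τ ∈ Q.Aut (D.map σ.toEmbedding ∪ D.map σ'.toEmbedding),
      (∀ s ∈ D, τ (σ s) = σ' s ∧ τ (σ' s) = σ s) ∧
      Q.eps τ = (-1) ^ (∑ c, if Q.odd c then Q.cnt D c else 0) := by
  induction D using Finset.induction_on with
  | empty => exact ⟨1, Q.one_mem_Aut _, by simp, by simp [Quiv.eps_one, Quiv.cnt]⟩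
  | insert a D ha ih =>
    have hdis : ∀ s ∈ insert a D, ∀ s' ∈ insert a D, σ s ≠ σ' s' := fun s hs s' hs' =>
      Finset.disjoint_iff_ne.1 hd _ (Finset.mem_map_of_mem σ.toEmbedding hs) _
        (Finset.mem_map_of_mem σ'.toEmbedding hs')
    have hsub : D ⊆ insert a D := Finset.subset_insert a D
    have haD : a ∈ insert a D := Finset.mem_insert_self a D
    obtain ⟨τ, hτ, h1, h2⟩ := ih (hd.mono (Finset.map_subset_map.2 hsub)
      (Finset.map_subset_map.2 hsub))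
    have hcol : Q.col (σ a) = Q.col (σ' a) := by rw [h, h']
    have hτ' := Quiv.mem_Aut.1 hτ
    have hfix1 : τ (σ a) = σ a := hτ'.2 _ (by
      simp only [Finset.mem_union, Finset.mem_map, Equiv.coe_toEmbedding, not_or, not_exists,
        not_and]
      exact ⟨fun s hs e => ha (σ.injective e ▸ hs), fun s hs e => hdis a haD s (hsub hs) e.symm⟩)
    have hfix2 : τ (σ' a) = σ' a := hτ'.2 _ (by
      simp only [Finset.mem_union, Finset.mem_map, Equiv.coe_toEmbedding, not_or, not_exists,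
        not_and]
      exact ⟨fun s hs e => hdis s (hsub hs) a haD e, fun s hs e => ha (σ'.injective e ▸ hs)⟩)
    refine ⟨Equiv.swap (σ a) (σ' a) * τ, Quiv.mul_mem_Aut ?_ (Quiv.Aut_mono
      (Finset.union_subset_union (Finset.map_subset_map.2 hsub) (Finset.map_subset_map.2 hsub)) hτ),
      fun s hs => ?_, ?_⟩
    · refine Quiv.mem_Aut.2 ⟨Quiv.isG_swap hcol, fun s hs => Equiv.swap_apply_of_ne_of_ne ?_ ?_⟩
      · rintro rfl
        exact hs (Finset.mem_union_left _ (Finset.mem_map_of_mem σ.toEmbedding haD))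
      · rintro rfl
        exact hs (Finset.mem_union_right _ (Finset.mem_map_of_mem σ'.toEmbedding haD))
    · rcases Finset.mem_insert.1 hs with rfl | hs
      · simp [hfix1, hfix2]
      · have hsa : s ≠ a := fun e => ha (e ▸ hs)
        rw [Equiv.Perm.mul_apply, Equiv.Perm.mul_apply, (h1 s hs).1, (h1 s hs).2]
        exact ⟨Equiv.swap_apply_of_ne_of_ne (hdis a haD s (hsub hs)).symm (σ'.injective.ne hsa),
          Equiv.swap_apply_of_ne_of_ne (σ.injective.ne hsa) (hdis s (hsub hs) a haD)⟩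
    · rw [Quiv.eps_mul (Quiv.isG_swap hcol) hτ'.1, Quiv.eps_swap hcol (hdis a haD a haD), h2,
        ← pow_add, h a]
      congr 1
      have h3 : ∀ c, (if Q.odd c then Q.cnt (insert a D) c else 0) =
          (if Q.col a = c then (if Q.odd c then 1 else 0) else 0) +
            (if Q.odd c then Q.cnt D c else 0) := by
        intro c
        unfold Quiv.cnt
        rw [Finset.filter_insert]
        split_ifs with h4 h5 h5
        · rw [Finset.card_insert_of_notMem (fun h6 => ha (Finset.mem_filter.1 h6).1), add_comm]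
        · simp
        · rfl
        · rfl
      simp only [h3, Finset.sum_add_distrib, Finset.sum_ite_eq, Finset.mem_univ, if_true]

omit [Fintype X] [Fintype C] in
theorem Quiv.exists_subset_cnt {S : Finset X} {d : C → ℕ} (h : ∀ c, d c ≤ Q.cnt S c) :
    ∃ A ⊆ S, Q.cnt A = d := by
  choose B hB hB' using fun c => Finset.exists_subset_card_eq (h c)
  refine ⟨S.filter fun s => s ∈ B (Q.col s), Finset.filter_subset _ _, funext fun c => ?_⟩
  rw [← hB' c]
  unfold Quiv.cnt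
  congr 1
  ext s
  simp only [Finset.mem_filter]
  constructor
  · rintro ⟨⟨-, h1⟩, rfl⟩
    exact h1
  · intro hs
    obtain ⟨h1, rfl⟩ := Finset.mem_filter.1 (hB c hs)
    exact ⟨⟨h1, hs⟩, rfl⟩

/-- a set can be cut into blocks with prescribed colour counts -/
theorem Quiv.exists_labelling {S : Finset X} {k : ℕ} (d : Fin k → C → ℕ) (h : ∑ i, d i = Q.cnt S) :
    ∃ π : X → ℕ, (∀ s ∈ S, π s < k) ∧ ∀ i : Fin k, Q.cnt (fib S π i) = d i := by
  induction k generalizing S with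
  | zero =>
    have : S = ∅ := (cnt_eq_zero_iff (Q := Q) S).1 (by rw [← h]; simp)
    exact ⟨fun _ => 0, by simp [this], fun i => i.elim0⟩
  | succ k ih =>
    rw [Fin.sum_univ_castSucc] at h
    obtain ⟨A, hA, hA'⟩ := Quiv.exists_subset_cnt (Q := Q) (S := S) (d := d (Fin.last k))
      fun c => by rw [← h]; exact Nat.le_add_left _ _
    have h1 : Q.cnt S = Q.cnt (S \ A) + Q.cnt A := by
      rw [← cnt_union Finset.sdiff_disjoint, Finset.sdiff_union_of_subset hA]
    obtain ⟨π, hπ, hπ'⟩ := ih (S := S \ A) (fun i => d i.castSucc)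
      (add_right_cancel (h.trans (h1.trans (by rw [hA']))))
    refine ⟨fun s => if s ∈ A then k else π s, fun s hs => ?_, fun i => ?_⟩
    · by_cases hsA : s ∈ A
      · simp [hsA]
      · simp only [hsA, if_false]
        exact (hπ s (Finset.mem_sdiff.2 ⟨hs, hsA⟩)).trans (Nat.lt_succ_self k)
    · induction i using Fin.lastCases with
      | last =>
        rw [← hA']
        congr 1
        ext s
        rw [mem_fib]
        by_cases hsA : s ∈ A
        · simp [hsA, hA hsA]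
        · simp only [hsA, if_false, Fin.val_last, iff_false, not_and]
          exact fun hs => (hπ s (Finset.mem_sdiff.2 ⟨hs, hsA⟩)).ne
      | cast i =>
        rw [← hπ' i]
        congr 1
        ext s
        rw [mem_fib, mem_fib, Finset.mem_sdiff]
        by_cases hsA : s ∈ A
        · have := i.2
          simp only [hsA, if_true, Fin.val_castSucc, not_true, and_false, false_and, iff_false,
            not_and]
          omega
        · simp [hsA]

end group

section rename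
variable {C X : Type} [DecidableEq X] {Q : Quiv C X}

theorem fib_map (S : Finset X) (π : X → ℕ) (σ : Equiv.Perm X) (i : ℕ) :
    fib (S.map σ.toEmbedding) (π ∘ σ.symm) i = (fib S π i).map σ.toEmbedding := by
  ext s
  simp [fib, Finset.mem_map_equiv]

theorem rename_congr_of_supported {B : Finset X} {ξ : P X} (hξ : ξ ∈ supported ℚ (B : Set X))
    {σ τ : X → X} (h : ∀ s ∈ B, σ s = τ s) : rename σ ξ = rename τ ξ := by
  rw [supported_eq_adjoin_X] at hξ
  induction hξ using Algebra.adjoin_induction with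
  | mem x hx =>
    obtain ⟨s, hs, rfl⟩ := hx
    rw [rename_X, rename_X, h s hs]
  | algebraMap r => rw [AlgHom.commutes, AlgHom.commutes]
  | add x y _ _ hx hy => rw [map_add, map_add, hx, hy]
  | mul x y _ _ hx hy => rw [map_mul, map_mul, hx, hy]

theorem rename_mem_supported {B : Finset X} {ξ : P X} (hξ : ξ ∈ supported ℚ (B : Set X))
    (σ : Equiv.Perm X) : rename σ ξ ∈ supported ℚ ((B.map σ.toEmbedding : Finset X) : Set X) := by
  rw [supported_eq_adjoin_X] at hξ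
  induction hξ using Algebra.adjoin_induction with
  | mem x hx =>
    obtain ⟨s, hs, rfl⟩ := hx
    rw [rename_X]
    exact X_mem_supported.2 (Finset.mem_coe.2 (Finset.mem_map_of_mem σ.toEmbedding hs))
  | algebraMap r => rw [AlgHom.commutes]; exact Subalgebra.algebraMap_mem _ r
  | add x y _ _ hx hy => rw [map_add]; exact add_mem hx hy
  | mul x y _ _ hx hy => rw [map_mul]; exact mul_mem hx hy

theorem rename_pb (B : Finset X) (σ : Equiv.Perm X) : rename σ (pb B) = pb (B.map σ.toEmbedding) := by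
  simp [pb, map_sum]

theorem Quiv.IsG.ar {σ : Equiv.Perm X} (h : Q.IsG σ) (s t : X) : Q.ar (σ s) (σ t) = Q.ar s t := by
  rw [Quiv.ar, Quiv.ar, h s, h t]

theorem filter_map_lt (S : Finset X) (π : X → ℕ) (σ : Equiv.Perm X) (s : X) :
    (S.map σ.toEmbedding).filter (fun t => (π ∘ σ.symm) (σ s) < (π ∘ σ.symm) t) =
      (S.filter (fun t => π s < π t)).map σ.toEmbedding := by
  ext t
  simp [Finset.mem_map_equiv]

theorem Quiv.rename_Kp {σ : Equiv.Perm X} (h : Q.IsG σ) (A B : Finset X) :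
    rename σ (Q.Kp A B) = Q.Kp (A.map σ.toEmbedding) (B.map σ.toEmbedding) := by
  simp [Quiv.Kp, map_prod, h.ar]

theorem Quiv.rename_Kl {σ : Equiv.Perm X} (h : Q.IsG σ) (S : Finset X) (π : X → ℕ) :
    rename σ (Q.Kl S π) = Q.Kl (S.map σ.toEmbedding) (π ∘ σ.symm) := by
  unfold Quiv.Kl
  rw [Finset.prod_map, map_prod]
  refine Finset.prod_congr rfl fun s _ => ?_
  rw [Equiv.coe_toEmbedding, filter_map_lt, Finset.prod_map, map_prod]
  refine Finset.prod_congr rfl fun t _ => ?_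
  simp [h.ar]

theorem Quiv.al_map {σ : Equiv.Perm X} (h : Q.IsG σ) (S : Finset X) (π : X → ℕ) :
    Q.al (S.map σ.toEmbedding) (π ∘ σ.symm) = Q.al S π := by
  unfold Quiv.al
  rw [Finset.sum_map]
  refine Finset.sum_congr rfl fun s _ => ?_
  rw [Equiv.coe_toEmbedding, filter_map_lt, Finset.sum_map]
  refine Finset.sum_congr rfl fun t _ => ?_
  simp [h.ar]

theorem Quiv.Dl_map {σ : Equiv.Perm X} (h : Q.IsG σ) (S : Finset X) (π ρ : X → ℕ) :
    Q.Dl (S.map σ.toEmbedding) (π ∘ σ.symm) (ρ ∘ σ.symm) = Q.Dl S π ρ := by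
  unfold Quiv.Dl
  rw [Finset.prod_map]
  refine Finset.prod_congr rfl fun s _ => ?_
  rw [Equiv.coe_toEmbedding, filter_map_lt, Finset.prod_map]
  refine Finset.prod_congr rfl fun t _ => ?_
  simp [h.ar]

theorem sh_rename (S : Finset X) (ρ : X → ℕ) (σ : Equiv.Perm X) (ξ : P X) :
    sh (S.map σ.toEmbedding) (ρ ∘ σ.symm) (rename σ ξ) =
      MvPolynomial.map (rename σ : P X →ₐ[ℚ] P X).toRingHom (sh S ρ ξ) := by
  induction ξ using MvPolynomial.induction_on with
  | C a =>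
    rw [rename_C, sh, sh, aeval_C, aeval_C]
    simp [MvPolynomial.algebraMap_apply]
  | add p q hp hq => rw [map_add, map_add, hp, hq, map_add, map_add]
  | mul_X p s hp =>
    rw [map_mul, map_mul, hp, map_mul, map_mul]
    congr 1
    rw [rename_X, sh, sh, aeval_X, aeval_X]
    by_cases hs : s ∈ S
    · simp [hs]
    · simp [hs]

theorem coeff_sh_rename (S : Finset X) (ρ : X → ℕ) (σ : Equiv.Perm X) (ξ : P X) (α : ℕ →₀ ℕ) :
    coeff α (sh (S.map σ.toEmbedding) (ρ ∘ σ.symm) (rename σ ξ)) =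
      rename σ (coeff α (sh S ρ ξ)) := by
  rw [sh_rename, coeff_map]
  rfl

theorem image_map_symm (S : Finset X) (π : X → ℕ) (σ : Equiv.Perm X) :
    (S.map σ.toEmbedding).image (π ∘ σ.symm) = S.image π := by
  rw [Finset.map_eq_image, Finset.image_image]
  congr 1
  ext s
  simp

variable [Fintype C] [DecidableEq C] [Fintype X] {Z : Stab Q} {σ : Equiv.Perm X}

theorem Stab.sl_map (h : Q.IsG σ) (A : Finset X) : Z.sl (A.map σ.toEmbedding) = Z.sl A := by
  rw [Stab.sl, Stab.sl, Quiv.cnt_map h]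

theorem Stab.rename_mem_I (h : Q.IsG σ) {S : Finset X} {ρ : X → ℕ} {ξ : P X} (hξ : ξ ∈ Z.I S ρ) :
    rename σ ξ ∈ Z.I (S.map σ.toEmbedding) (ρ ∘ σ.symm) := by
  have : Z.I S ρ ≤ (Z.I (S.map σ.toEmbedding) (ρ ∘ σ.symm)).comap
      (rename σ : P X →ₐ[ℚ] P X).toRingHom := by
    refine Ideal.span_le.2 ?_
    rintro f ⟨i, A, hA, hsub, hsl, rfl⟩
    change rename σ _ ∈ Z.I _ _
    rw [Quiv.rename_Kp h, Finset.map_sdiff, ← fib_map]
    refine Z.Kp_mem_I (by simpa using hA) ?_ ?_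
    · rw [fib_map]; exact Finset.map_subset_map.2 hsub
    · rw [fib_map, Stab.sl_map h, Stab.sl_map h]; exact hsl
  exact this hξ

theorem Stab.rename_mem_I0 (h : Q.IsG σ) {S : Finset X} {ξ : P X} (hξ : ξ ∈ Z.I0 S) :
    rename σ ξ ∈ Z.I0 (S.map σ.toEmbedding) := by
  have e : (fun _ : X => (0 : ℕ)) ∘ σ.symm = fun _ => 0 := rfl
  unfold Stab.I0 at hξ ⊢
  rw [← e]
  exact Stab.rename_mem_I h hξ

theorem Stab.Pure.map (h : Q.IsG σ) {S : Finset X} {ρ : X → ℕ} (hρ : Z.Pure S ρ) :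
    Z.Pure (S.map σ.toEmbedding) (ρ ∘ σ.symm) := by
  intro s hs
  rw [fib_map, Stab.sl_map h, Stab.sl_map h]
  exact hρ (σ.symm s) (Finset.mem_map_equiv.1 hs)

theorem Stab.Anti.map (h : Q.IsG σ) {S : Finset X} {ρ : X → ℕ} (hρ : Z.Anti S ρ) :
    Z.Anti (S.map σ.toEmbedding) (ρ ∘ σ.symm) := by
  intro s hs t ht hst
  rw [fib_map, fib_map, Stab.sl_map h, Stab.sl_map h]
  exact hρ (σ.symm s) (Finset.mem_map_equiv.1 hs) (σ.symm t) (Finset.mem_map_equiv.1 ht) hst

theorem Stab.Phi_map (h : Q.IsG σ) (S : Finset X) (ρ : X → ℕ) :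
    Z.Phi (S.map σ.toEmbedding) (ρ ∘ σ.symm) = Z.Phi S ρ := by
  unfold Stab.Phi
  rw [Finset.sum_map]
  refine Finset.sum_congr rfl fun s _ => ?_
  rw [fib_map, Stab.sl_map h, Equiv.coe_toEmbedding, h s]
  simp

theorem Stab.degLE_rename (h : Q.IsG σ) {S : Finset X} {ρ : X → ℕ} {ξ : P X} {n : ℤ}
    (hξ : DegLE (Z.I S ρ) S ρ ξ n) :
    DegLE (Z.I (S.map σ.toEmbedding) (ρ ∘ σ.symm)) (S.map σ.toEmbedding) (ρ ∘ σ.symm)
      (rename σ ξ) n := by
  intro α hα
  rw [coeff_sh_rename]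
  exact Stab.rename_mem_I h (hξ α hα)

theorem Stab.F.rename (h : Q.IsG σ) {S : Finset X} {e : ℤ} {k : ℕ} {ξ : P X} (hξ : Z.F S e k ξ) :
    Z.F (S.map σ.toEmbedding) e k (rename σ ξ) := by
  intro ρ hρ
  obtain ⟨ρ', rfl⟩ : ∃ ρ' : X → ℕ, ρ = ρ' ∘ σ.symm := ⟨ρ ∘ σ, by ext s; simp⟩
  have hρ' : Z.Pure S ρ' := by
    intro s hs
    have := hρ (σ s) (Finset.mem_map_of_mem σ.toEmbedding hs)
    rw [fib_map, Stab.sl_map h, Stab.sl_map h] at this
    simpa using this
  rw [Quiv.al_map h, image_map_symm]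
  exact ⟨Stab.degLE_rename h (hξ ρ' hρ').1, fun hk => Stab.degLE_rename h ((hξ ρ' hρ').2 hk)⟩

theorem Stab.rename_mem_V (h : Q.IsG σ) {S : Finset X} {ξ : P X} (hξ : ξ ∈ Z.V S) :
    rename σ ξ ∈ Z.V (S.map σ.toEmbedding) :=
  ⟨rename_mem_supported hξ.1 σ, Stab.F.rename h hξ.2⟩

theorem Stab.Terms.rename (h : Q.IsG σ) {S : Finset X} {π : X → ℕ} {m : ℕ} {ξ : P X}
    (hξ : ξ ∈ Z.Terms S π m) :
    rename σ ξ ∈ Z.Terms (S.map σ.toEmbedding) (π ∘ σ.symm) m := by
  obtain ⟨u, j, hu, hj, rfl⟩ := hξ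
  refine ⟨fun i => MvPolynomial.rename σ (u i), j, ?_, ?_, ?_⟩
  · intro i hi
    rw [image_map_symm] at hi
    rw [fib_map]
    exact Stab.rename_mem_V h (hu i hi)
  · rw [image_map_symm]; exact hj
  · rw [image_map_symm, map_prod]
    refine Finset.prod_congr rfl fun i _ => ?_
    rw [map_mul, map_pow, rename_pb, fib_map]

theorem Quiv.rename_mem_Inv (h : Q.IsG σ) {S : Finset X} {ξ : P X} (hξ : ξ ∈ Q.Inv S) :
    rename σ ξ ∈ Q.Inv (S.map σ.toEmbedding) := by
  refine ⟨rename_mem_supported hξ.1 σ, fun τ hτ => ?_⟩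
  rw [Quiv.mem_Aut] at hτ
  have hτ' : σ⁻¹ * τ * σ ∈ Q.Aut S := by
    rw [Quiv.mem_Aut]
    refine ⟨(h.inv.mul hτ.1).mul h, fun s hs => ?_⟩
    have : τ (σ s) = σ s := hτ.2 _ (by simpa using hs)
    simp [this]
  have h1 := hξ.2 _ hτ'
  have h2 : Q.eps (σ⁻¹ * τ * σ) = Q.eps τ := by
    rw [Quiv.eps_mul (h.inv.mul hτ.1) h, Quiv.eps_mul h.inv hτ.1, Quiv.eps_inv h, mul_right_comm,
      Quiv.eps_mul_self, one_mul]
  have h3 : rename τ (rename σ ξ) = rename σ (rename (σ⁻¹ * τ * σ : Equiv.Perm X) ξ) := by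
    rw [rename_rename, rename_rename]
    congr 2
    ext s
    simp
  rw [h3, h1, h2, map_smul]

/-- two transports of an invariant polynomial to the same set agree up to sign -/
theorem Quiv.rename_eq_or_neg {τ : Equiv.Perm X} (h : Q.IsG σ) (h' : Q.IsG τ) {B : Finset X}
    {ξ : P X} (hξ : ξ ∈ Q.Inv B) (hB : B.map σ.toEmbedding = B.map τ.toEmbedding) :
    rename τ ξ = rename σ ξ ∨ rename τ ξ = -rename σ ξ := by
  have hp : ∀ s, (σ⁻¹ * τ) s ∈ B ↔ s ∈ B := by
    intro s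
    have : τ s ∈ B.map σ.toEmbedding ↔ τ s ∈ B.map τ.toEmbedding := by rw [hB]
    rw [Finset.mem_map_equiv, Finset.mem_map_equiv, Equiv.symm_apply_apply] at this
    exact this
  set φ : Equiv.Perm X := Equiv.Perm.ofSubtype ((σ⁻¹ * τ).subtypePerm (p := fun s => s ∈ B) hp)
    with hφ
  have h1 : ∀ s ∈ B, φ s = (σ⁻¹ * τ) s := fun s hs =>
    Equiv.Perm.ofSubtype_subtypePerm_of_mem hp hs
  have h2 : ∀ s, s ∉ B → φ s = s := fun s hs => Equiv.Perm.ofSubtype_apply_of_not_mem _ hs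
  have hφA : φ ∈ Q.Aut B := by
    rw [Quiv.mem_Aut]
    refine ⟨fun s => ?_, h2⟩
    by_cases hs : s ∈ B
    · rw [h1 s hs]; exact (h.inv.mul h') s
    · rw [h2 s hs]
  have h3 : rename τ ξ = rename σ (rename φ ξ) := by
    rw [rename_rename]
    refine rename_congr_of_supported hξ.1 fun s hs => ?_
    rw [Function.comp_apply, h1 s hs]
    simp
  rw [h3, hξ.2 φ hφA, map_smul]
  rcases Q.eps_eq φ with he | he
  · left; rw [he, one_smul]
  · right; rw [he, neg_smul, one_smul]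

theorem Quiv.homogeneousComponent_mem_Inv {S : Finset X} {ξ : P X} (hξ : ξ ∈ Q.Inv S) (d : ℕ) :
    homogeneousComponent d ξ ∈ Q.Inv S := by
  refine ⟨homogeneousComponent_mem_supported hξ.1 d, fun σ hσ => ?_⟩
  rw [rename_homogeneousComponent, hξ.2 σ hσ, map_smul]

end rename

section Av
variable {C X : Type} [Fintype X] [DecidableEq X] {Q : Quiv C X} {S : Finset X}

theorem Quiv.mem_Inv {ξ : P X} :
    ξ ∈ Q.Inv S ↔ ξ ∈ supported ℚ (S : Set X) ∧ ∀ σ ∈ Q.Aut S, rename σ ξ = Q.eps σ • ξ := Iff.rfl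

theorem Quiv.Av_apply (ξ : P X) : Q.Av S ξ = ∑ σ ∈ Q.Aut S, Q.eps σ • rename σ ξ := by
  simp [Quiv.Av, LinearMap.sum_apply]

omit [Fintype X] [DecidableEq X] in
theorem rename_perm_mul (σ τ : Equiv.Perm X) (ξ : P X) :
    rename (σ * τ : Equiv.Perm X) ξ = rename σ (rename τ ξ) := by
  rw [rename_rename, Equiv.Perm.coe_mul]

theorem Quiv.Av_rename {τ : Equiv.Perm X} (h : τ ∈ Q.Aut S) (ξ : P X) :
    Q.Av S (rename τ ξ) = Q.eps τ • Q.Av S ξ := by
  rw [Quiv.Av_apply, Quiv.Av_apply, Finset.smul_sum]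
  refine Finset.sum_equiv (Equiv.mulRight τ) (fun σ => ⟨fun hσ => Quiv.mul_mem_Aut hσ h,
    fun hσ => by simpa using Quiv.mul_mem_Aut hσ (Quiv.inv_mem_Aut h)⟩) fun σ hσ => ?_
  rw [Equiv.coe_mulRight, rename_perm_mul, smul_smul,
    Quiv.eps_mul (Quiv.mem_Aut.1 hσ).1 (Quiv.mem_Aut.1 h).1, mul_left_comm, Quiv.eps_mul_self,
    mul_one]

theorem Quiv.rename_Av {τ : Equiv.Perm X} (h : τ ∈ Q.Aut S) (ξ : P X) :
    rename τ (Q.Av S ξ) = Q.eps τ • Q.Av S ξ := by
  rw [Quiv.Av_apply, Finset.smul_sum, map_sum]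
  refine Finset.sum_equiv (Equiv.mulLeft τ) (fun σ => ⟨fun hσ => Quiv.mul_mem_Aut h hσ,
    fun hσ => by simpa using Quiv.mul_mem_Aut (Quiv.inv_mem_Aut h) hσ⟩) fun σ hσ => ?_
  rw [Equiv.coe_mulLeft, rename_perm_mul, smul_smul, map_smul,
    Quiv.eps_mul (Quiv.mem_Aut.1 h).1 (Quiv.mem_Aut.1 hσ).1, ← mul_assoc, Quiv.eps_mul_self,
    one_mul]

theorem Quiv.Av_mem_Inv {ξ : P X} (h : ξ ∈ supported ℚ (S : Set X)) : Q.Av S ξ ∈ Q.Inv S := by
  refine Quiv.mem_Inv.2 ⟨?_, fun σ hσ => Quiv.rename_Av hσ ξ⟩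
  rw [Quiv.Av_apply]
  refine Subalgebra.sum_mem _ fun σ hσ => Subalgebra.smul_mem _ ?_ _
  have := rename_mem_supported h σ
  rwa [Quiv.map_of_mem_Aut hσ] at this

theorem Quiv.Av_of_mem_Inv {ξ : P X} (h : ξ ∈ Q.Inv S) :
    Q.Av S ξ = ((Q.Aut S).card : ℚ) • ξ := by
  rw [Quiv.Av_apply, Finset.sum_congr rfl (g := fun _ => ξ) fun σ hσ => by
    rw [(Quiv.mem_Inv.1 h).2 σ hσ, smul_smul, Quiv.eps_mul_self, one_smul]]
  rw [Finset.sum_const, Nat.cast_smul_eq_nsmul]

theorem Quiv.Av_mul_Av {B : Finset X} (hB : B ⊆ S) {ζ : P X}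
    (hζ : ∀ σ ∈ Q.Aut B, rename σ ζ = ζ) (T : P X) :
    Q.Av S (ζ * Q.Av B T) = ((Q.Aut B).card : ℚ) • Q.Av S (ζ * T) := by
  rw [Quiv.Av_apply (S := B), Finset.mul_sum, map_sum,
    Finset.sum_congr rfl (g := fun _ => Q.Av S (ζ * T)) fun σ hσ => ?_, Finset.sum_const,
    Nat.cast_smul_eq_nsmul]
  have h1 : ζ * rename σ T = rename σ (ζ * T) := by rw [map_mul, hζ σ hσ]
  rw [mul_smul_comm, map_smul, h1, Quiv.Av_rename (Quiv.Aut_mono hB hσ), smul_smul,
    Quiv.eps_mul_self, one_smul]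

theorem Quiv.Av_isHomogeneous {ξ : P X} {d : ℕ} (h : ξ.IsHomogeneous d) :
    (Q.Av S ξ).IsHomogeneous d := by
  rw [Quiv.Av_apply]
  refine IsHomogeneous.sum _ _ _ fun σ _ => ?_
  exact (homogeneousSubmodule X ℚ d).smul_mem _ h.rename_isHomogeneous

/-- the kernel of a partition is invariant under the automorphisms of a block -/
theorem Quiv.rename_Kl_of_mem_Aut_fib {π : X → ℕ} {i : ℕ} {σ : Equiv.Perm X}
    (h : σ ∈ Q.Aut (fib S π i)) : rename σ (Q.Kl S π) = Q.Kl S π := by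
  have key : ∀ s, π (σ.symm s) = π s := by
    intro s
    by_cases hs : s ∈ fib S π i
    · have h1 : σ.symm s ∈ fib S π i := by
        rw [← Quiv.apply_mem_iff_of_mem_Aut h, Equiv.apply_symm_apply]; exact hs
      rw [(mem_fib.1 hs).2, (mem_fib.1 h1).2]
    · rw [(Equiv.symm_apply_eq σ).2 ((Quiv.mem_Aut.1 h).2 s hs).symm]
  rw [Quiv.rename_Kl (Quiv.mem_Aut.1 h).1, Quiv.map_of_mem_Aut (Quiv.Aut_mono (fib_subset S π i) h)]
  congr 1
  exact funext key

theorem Quiv.rename_of_disjoint {B D : Finset X} {σ : Equiv.Perm X} (h : σ ∈ Q.Aut B)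
    (hd : Disjoint D B) {ξ : P X} (hξ : ξ ∈ supported ℚ (D : Set X)) : rename σ ξ = ξ := by
  rw [rename_congr_of_supported hξ (σ := σ) (τ := id) fun s hs =>
    (Quiv.mem_Aut.1 h).2 s (Finset.disjoint_left.1 hd hs), rename_id]
  rfl

variable [Fintype C] [DecidableEq C] {Z : Stab Q}

theorem Stab.Av_mem_I0 {ξ : P X} (h : ξ ∈ Z.I0 S) : Q.Av S ξ ∈ Z.I0 S := by
  rw [Quiv.Av_apply]
  refine Submodule.sum_mem _ fun σ hσ => Submodule.smul_of_tower_mem _ _ ?_
  have := Stab.rename_mem_I0 (Quiv.mem_Aut.1 hσ).1 h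
  rwa [Quiv.map_of_mem_Aut hσ] at this

theorem Stab.F.Av {e : ℤ} {k : ℕ} {ξ : P X} (h : Z.F S e k ξ) : Z.F S e k (Q.Av S ξ) := by
  rw [Quiv.Av_apply]
  refine Stab.F.sum fun σ hσ => Stab.F.smul ?_ _
  have := Stab.F.rename (Quiv.mem_Aut.1 hσ).1 h
  rwa [Quiv.map_of_mem_Aut hσ] at this

theorem Stab.Av_mem_V {ξ : P X} (h : ξ ∈ Z.V S) : Q.Av S ξ ∈ Z.V S := by
  rw [Quiv.Av_apply]
  refine Submodule.sum_mem _ fun σ hσ => Submodule.smul_mem _ _ ?_
  have := Stab.rename_mem_V (Quiv.mem_Aut.1 hσ).1 h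
  rwa [Quiv.map_of_mem_Aut hσ] at this

end Av

section words
variable {C X : Type} [Fintype C] [DecidableEq C] [Fintype X] [DecidableEq X] {Q : Quiv C X}
  {Z : Stab Q} {A : Z.Alph} {S : Finset X} {l : List (Fin A.n × ℕ)} {T : P X}

theorem sum_map_eq_sum_get {α M : Type*} [AddCommMonoid M] (f : α → M) (l : List α) :
    (l.map f).sum = ∑ i : Fin l.length, f (l.get i) := by
  induction l with
  | nil => simp
  | cons x l ih =>
    rw [List.map_cons, List.sum_cons, ih]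
    exact (Fin.sum_univ_succ (fun i : Fin (l.length + 1) => f ((x :: l).get i))).symm

theorem dimW_eq_sum {n : ℕ} (dim : Fin n → C → ℕ) (l : List (Fin n × ℕ)) :
    dimW dim l = ∑ i : Fin l.length, dim (l.get i).1 :=
  sum_map_eq_sum_get (fun x : Fin n × ℕ => dim x.1) l

theorem av_sum_right {ι : Type*} (a : C → C → ℕ) (d : C → ℕ) (s : Finset ι) (e : ι → C → ℕ) :
    av a d (∑ i ∈ s, e i) = ∑ i ∈ s, av a d (e i) := by
  classical
  induction s using Finset.induction_on with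
  | empty => simp [av]
  | insert i s hi ih => rw [Finset.sum_insert hi, Finset.sum_insert hi, av_add_right, ih]

theorem degW_eq_sum (a : C → C → ℕ) {n : ℕ} (dim : Fin n → C → ℕ) (deg : Fin n → ℕ)
    (l : List (Fin n × ℕ)) :
    degW a dim deg l = (∑ i : Fin l.length, ∑ i' : Fin l.length,
      if i < i' then av a (dim (l.get i).1) (dim (l.get i').1) else 0) +
      ∑ i : Fin l.length, (deg (l.get i).1 + (l.get i).2) := by
  induction l with
  | nil => simp [degW]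
  | cons x l ih =>
    rw [degW, ih, dimW_eq_sum, av_sum_right]
    have h1 : (∑ i : Fin (x :: l).length, (deg ((x :: l).get i).1 + ((x :: l).get i).2)) =
        deg x.1 + x.2 + ∑ i : Fin l.length, (deg (l.get i).1 + (l.get i).2) :=
      Fin.sum_univ_succ (fun i : Fin (l.length + 1) =>
        deg ((x :: l).get i).1 + ((x :: l).get i).2)
    have h2 : (∑ i : Fin (x :: l).length, ∑ i' : Fin (x :: l).length,
        if i < i' then av a (dim ((x :: l).get i).1) (dim ((x :: l).get i').1) else 0) =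
        (∑ i' : Fin l.length, av a (dim x.1) (dim (l.get i').1)) +
        ∑ i : Fin l.length, ∑ i' : Fin l.length,
          if i < i' then av a (dim (l.get i).1) (dim (l.get i').1) else 0 := by
      change (∑ i : Fin (l.length + 1), ∑ i' : Fin (l.length + 1),
        if i < i' then av a (dim ((x :: l).get i).1) (dim ((x :: l).get i').1) else 0) = _
      simp only [Fin.sum_univ_succ, if_false, zero_add, Fin.succ_pos, if_true,
        Fin.not_lt_zero, Fin.succ_lt_succ_iff]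
      rfl
    rw [h1, h2]
    ring

theorem Quiv.al_eq_sum (S : Finset X) (π : X → ℕ) {k : ℕ} (h : ∀ s ∈ S, π s < k) :
    Q.al S π = ∑ i ∈ range k, ∑ i' ∈ range k,
      if i < i' then av Q.a (Q.cnt (fib S π i)) (Q.cnt (fib S π i')) else 0 := by
  have hm : ∀ s ∈ S, π s ∈ range k := fun s hs => mem_range.2 (h s hs)
  unfold Quiv.al
  rw [← Finset.sum_fiberwise_of_maps_to hm]
  refine Finset.sum_congr rfl fun i _ => ?_
  have : ∀ s ∈ S.filter (fun s => π s = i), ∑ t ∈ S.filter (fun t => π s < π t), Q.ar s t =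
      ∑ i' ∈ range k, if i < i' then ∑ t ∈ fib S π i', Q.ar s t else 0 := by
    intro s hs
    rw [Finset.sum_filter, ← Finset.sum_fiberwise_of_maps_to hm, (Finset.mem_filter.1 hs).2]
    refine Finset.sum_congr rfl fun i' _ => ?_
    split_ifs with hi
    · refine Finset.sum_congr rfl fun t ht => ?_
      rw [(Finset.mem_filter.1 ht).2, if_pos hi]
    · refine Finset.sum_eq_zero fun t ht => ?_
      rw [(Finset.mem_filter.1 ht).2, if_neg hi]
  rw [Finset.sum_congr rfl this, Finset.sum_comm]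
  refine Finset.sum_congr rfl fun i' _ => ?_
  split_ifs with hi
  · rw [av_cnt]; rfl
  · simp

theorem Stab.Alph.dim_ne_zero (y : Fin A.n) : A.dim y ≠ 0 := fun h =>
  (A.blk_ne y).ne_empty ((cnt_eq_zero_iff _).1 h)

theorem Stab.Alph.cnt_fib_eq {π : X → ℕ} {σ : Fin l.length → Equiv.Perm X}
    (h : ∀ i, Q.IsG (σ i) ∧ (A.blk (l.get i).1).map (σ i).toEmbedding = fib S π i)
    (i : Fin l.length) : Q.cnt (fib S π i) = A.dim (l.get i).1 := by
  rw [← (h i).2, Quiv.cnt_map (h i).1]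
  rfl

theorem Stab.Alph.IsT.dimW_eq (h : A.IsT S l T) : dimW A.dim l = Q.cnt S := by
  obtain ⟨π, σ, hπ, h, -⟩ := h
  rw [dimW_eq_sum, cnt_eq_sum_fib S π hπ, ← Fin.sum_univ_eq_sum_range (fun i => Q.cnt (fib S π i))]
  exact Finset.sum_congr rfl fun i _ => (Stab.Alph.cnt_fib_eq h i).symm

theorem Stab.Alph.exists_isT (h : dimW A.dim l = Q.cnt S) : ∃ T, A.IsT S l T := by
  rw [dimW_eq_sum] at h
  obtain ⟨π, hπ, hc⟩ := Quiv.exists_labelling (fun i : Fin l.length => A.dim (l.get i).1) h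
  have : ∀ i : Fin l.length, ∃ σ : Equiv.Perm X,
      Q.IsG σ ∧ (A.blk (l.get i).1).map σ.toEmbedding = fib S π i :=
    fun i => Quiv.exists_isG_map (hc i).symm
  choose σ hσ using this
  exact ⟨_, π, σ, hπ, hσ, rfl⟩

theorem Stab.Alph.IsT.mem_supported (h : A.IsT S l T) : T ∈ supported ℚ (S : Set X) := by
  obtain ⟨π, σ, hπ, h, rfl⟩ := h
  refine mul_mem (Q.Kl_mem_supported S π) (prod_mem fun i _ => ?_)
  refine supported_mono (Finset.coe_subset.2 (fib_subset S π i)) (mul_mem ?_ ?_)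
  · rw [← (h i).2]
    exact rename_mem_supported (A.mem_V _).1 _
  · exact pow_mem (pb_mem_supported _) _

theorem Stab.Alph.IsT.isHomogeneous (h : A.IsT S l T) :
    T.IsHomogeneous (degW Q.a A.dim A.deg l) := by
  obtain ⟨π, σ, hπ, h, rfl⟩ := h
  have e : Q.al S π = ∑ i : Fin l.length, ∑ i' : Fin l.length,
      if i < i' then av Q.a (A.dim (l.get i).1) (A.dim (l.get i').1) else 0 := by
    rw [Quiv.al_eq_sum S π hπ, ← Fin.sum_univ_eq_sum_range (fun i => ∑ i' ∈ range l.length,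
      if i < i' then av Q.a (Q.cnt (fib S π i)) (Q.cnt (fib S π i')) else 0)]
    refine Finset.sum_congr rfl fun i _ => ?_
    rw [← Fin.sum_univ_eq_sum_range (fun i' =>
      if (i : ℕ) < i' then av Q.a (Q.cnt (fib S π i)) (Q.cnt (fib S π i')) else 0)]
    refine Finset.sum_congr rfl fun i' _ => ?_
    rw [Stab.Alph.cnt_fib_eq h, Stab.Alph.cnt_fib_eq h]
    rfl
  rw [degW_eq_sum, ← e]
  refine (Q.Kl_isHomogeneous S π).mul (IsHomogeneous.prod _ _ _ fun i _ => ?_)
  refine (A.homog _).rename_isHomogeneous.mul ?_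
  simpa using (pb_isHomogeneous (fib S π i)).pow (l.get i).2

theorem Stab.Alph.IsT.Av_eq_or_neg {T' : P X} (h : A.IsT S l T) (h' : A.IsT S l T') :
    Q.Av S T' = Q.Av S T ∨ Q.Av S T' = -Q.Av S T := by
  obtain ⟨π, σ, hπ, h, rfl⟩ := h
  obtain ⟨π', σ', hπ', h', rfl⟩ := h'
  obtain ⟨τ, hτ, h1, h2⟩ := Quiv.exists_mem_Aut_of_blocks hπ hπ' (fun i => A.blk (l.get i).1) σ σ' h h'
  have hS := Quiv.map_of_mem_Aut hτ
  have h3 : ∀ s ∈ S, π (τ.symm s) = π' s := by
    intro s hs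
    have hs' : τ.symm s ∈ S := by rw [← hS] at hs; exact Finset.mem_map_equiv.1 hs
    rw [← h2 _ hs', Equiv.apply_symm_apply]
  have hK : rename τ (Q.Kl S π) = Q.Kl S π' := by
    rw [Quiv.rename_Kl (Quiv.mem_Aut.1 hτ).1, hS]
    refine Q.Kl_congr S fun s hs t ht => ?_
    rw [Function.comp_apply, Function.comp_apply, h3 s hs, h3 t ht]
  have hF : ∀ i, (fib S π i).map τ.toEmbedding = fib S π' i := by
    intro i
    rw [← fib_map, hS]
    exact Finset.filter_congr fun s hs => by rw [Function.comp_apply, h3 s hs]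
  have hT : rename τ (Q.Kl S π *
      ∏ i, (rename (σ i) (A.poly (l.get i).1) * pb (fib S π i) ^ (l.get i).2)) =
      Q.Kl S π' * ∏ i, (rename (σ' i) (A.poly (l.get i).1) * pb (fib S π' i) ^ (l.get i).2) := by
    rw [map_mul, hK, map_prod]
    congr 1
    refine Finset.prod_congr rfl fun i _ => ?_
    rw [map_mul, map_pow, rename_pb, hF, rename_rename]
    congr 1
    exact rename_congr_of_supported (A.mem_V _).1 fun s hs => h1 i s hs
  rw [← hT, Quiv.Av_rename hτ]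
  rcases Q.eps_eq τ with he | he
  · left; rw [he, one_smul]
  · right; rw [he, neg_smul, one_smul]

/-- the labels of a placement are exactly `0, …, l.length - 1` -/
theorem Stab.Alph.image_eq_range {π : X → ℕ} {σ : Fin l.length → Equiv.Perm X}
    (hπ : ∀ s ∈ S, π s < l.length)
    (h : ∀ i, (A.blk (l.get i).1).map (σ i).toEmbedding = fib S π i) :
    S.image π = range l.length := by
  ext i
  rw [Finset.mem_image, mem_range]
  constructor
  · rintro ⟨s, hs, rfl⟩
    exact hπ s hs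
  · intro hi
    obtain ⟨s, hs⟩ := A.blk_ne (l.get ⟨i, hi⟩).1
    have := Finset.mem_map_of_mem (σ ⟨i, hi⟩).toEmbedding hs
    rw [h, mem_fib] at this
    exact ⟨_, this⟩

/-- the product in `IsT` is a term -/
theorem Stab.Alph.prod_mem_Terms {π : X → ℕ} {σ : Fin l.length → Equiv.Perm X}
    (hπ : ∀ s ∈ S, π s < l.length)
    (h : ∀ i, Q.IsG (σ i) ∧ (A.blk (l.get i).1).map (σ i).toEmbedding = fib S π i) :
    ∏ i, (rename (σ i) (A.poly (l.get i).1) * pb (fib S π i) ^ (l.get i).2) ∈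
      Z.Terms S π (l.map Prod.snd).sum := by
  have hr := Stab.Alph.image_eq_range hπ fun i => (h i).2
  refine ⟨fun i => if hi : i < l.length then rename (σ ⟨i, hi⟩) (A.poly (l.get ⟨i, hi⟩).1) else 0,
    fun i => if hi : i < l.length then (l.get ⟨i, hi⟩).2 else 0, ?_, ?_, ?_⟩
  · intro i hi
    rw [hr, mem_range] at hi
    have := Stab.rename_mem_V (h ⟨i, hi⟩).1 (A.mem_V (l.get ⟨i, hi⟩).1)
    rw [(h ⟨i, hi⟩).2] at this
    simp only [dif_pos hi]
    exact this
  · rw [hr, sum_map_eq_sum_get, ← Fin.sum_univ_eq_sum_range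
      (fun i => if hi : i < l.length then (l.get ⟨i, hi⟩).2 else 0)]
    exact Finset.sum_congr rfl fun i _ => dif_pos i.2
  · rw [hr, ← Fin.prod_univ_eq_prod_range (fun i =>
      (if hi : i < l.length then rename (σ ⟨i, hi⟩) (A.poly (l.get ⟨i, hi⟩).1) else 0) *
        pb (fib S π i) ^ (if hi : i < l.length then (l.get ⟨i, hi⟩).2 else 0))]
    refine Finset.prod_congr rfl fun i _ => ?_
    rw [dif_pos i.2, dif_pos i.2]

/-- placements of good words are slope-decreasing -/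
theorem Stab.Alph.anti_of_good {π : X → ℕ} {σ : Fin l.length → Equiv.Perm X}
    (hl : Good A.odd l) (hπ : ∀ s ∈ S, π s < l.length)
    (h : ∀ i, Q.IsG (σ i) ∧ (A.blk (l.get i).1).map (σ i).toEmbedding = fib S π i) :
    Z.Anti S π := by
  intro s hs t ht hst
  have e1 := (h ⟨π s, hπ s hs⟩).2
  have e2 := (h ⟨π t, hπ t ht⟩).2
  simp only at e1 e2
  rw [← e1, ← e2, Stab.sl_map (h _).1, Stab.sl_map (h _).1]
  refine A.sorted _ _ ?_
  rcases hst.eq_or_lt with he | hlt
  · have : (⟨π s, hπ s hs⟩ : Fin l.length) = ⟨π t, hπ t ht⟩ := Fin.ext he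
    rw [this]
  · rcases List.pairwise_iff_get.1 hl ⟨π s, hπ s hs⟩ ⟨π t, hπ t ht⟩ hlt with h1 | h1
    · exact h1.le
    · exact h1.1.le

end words

end Crest.Agent.R59
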