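import Crest.Agent.R59.CohaFinAux
import Crest.Agent.R59.CohaPerm

/-! # Polynomial COHA: finiteness of the generators, existence of alphabets -/

set_option autoImplicit false

namespace Crest.Agent.R59
open MvPolynomial Finset

variable {C X : Type} [Fintype C] [DecidableEq C] [Fintype X] [DecidableEq X] {Q : Quiv C X}

open CFin in
/-- generators of high degree vanish modulo the unstable ideal -/
theorem Stab.V_high (Z : Stab Q) (S : Finset X) (hS : S.Nonempty) :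
    ∃ N : ℕ, ∀ d : ℕ, N < d → ∀ v ∈ Z.V S, v.IsHomogeneous d → v ∈ Z.I0 S := by
  induction S using Finset.strongInduction with
  | H S ih =>
  choose! n hn using ih
  obtain ⟨M, hM⟩ : ∃ M : Ideal (P X), ∀ f, f ∈ M ↔
      ∀ ρ, Z.Pure S ρ → 1 < (S.image ρ).card → f ∈ Z.I S ρ :=
    ⟨⨅ (ρ) (_ : Z.Pure S ρ) (_ : 1 < (S.image ρ).card), Z.I S ρ, fun f => by
      simp only [Ideal.mem_iInf]⟩
  obtain ⟨N, hN⟩ := exists_low (psi S) (Z.I0 S) M fun s => by
    have h1 : ∀ f, psi S f ∈ Z.I0 S → f ∈ ((Z.I0 S).comap (psi S)).colon (M : Set (P X)) :=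
      fun f hf => Submodule.mem_colon.2 fun g _ => Ideal.mul_mem_right g _ (Ideal.mem_comap.2 hf)
    by_cases hs : s ∈ S
    · rw [Ideal.radical_eq_sInf]
      refine Ideal.mem_sInf.2 fun {p} ⟨h2, hp⟩ => X_mem_of_prime (Z := Z) hS hp
        (fun f hf => h2 (h1 f (psi_mem_I0 hf))) (h2 (h1 _ (by rw [psi_pb hS]; exact zero_mem _)))
        (fun ρ hρ h3 => h2 (Submodule.mem_colon.2 fun g hg => ?_)) hs
      exact Ideal.mem_comap.2 (psi_mem_I0 (Kl_mul hρ ((hM g).1 hg ρ hρ h3)))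
    · exact Ideal.le_radical (h1 _ (by rw [psi, aeval_X, if_neg hs]; exact zero_mem _))
  refine ⟨N + (∑ s ∈ S, ∑ t ∈ S, Q.ar s t + S.card * univ.sup n), fun d hd v hv hh => ?_⟩
  have h1 := (Low.of_mem (sub_psi_mem hv.1 (Stab.V_degLE_zero hv subset_rfl fun _ _ _ _ => rfl))).add
    (hN v ((hM v).2 (mem_I_of_high (N := univ.sup n) (fun B hB hB' e he => hn B hB hB' e
      ((le_sup (mem_univ B)).trans_lt he)) (by omega) hv hh)))
  rw [sub_add_cancel] at h1
  exact h1.mem (fun g hg => Z.homogeneousComponent_mem_I hg _) hh (by omega)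

omit [DecidableEq X] in
theorem CFin.exists_basis (W J : Submodule ℚ (P X))
    (hW : ∀ f ∈ W, ∀ d, homogeneousComponent d f ∈ W) {N : ℕ}
    (hN : ∀ d, N < d → ∀ v ∈ W, v.IsHomogeneous d → v ∈ J) :
    ∃ (κ : Type) (_ : Fintype κ) (p : κ → P X) (deg : κ → ℕ),
      (∀ k, p k ∈ W ∧ (p k).IsHomogeneous (deg k)) ∧
      (∀ c : κ → ℚ, ∑ k, c k • p k ∈ J → ∀ k, c k = 0) ∧
      W ≤ Submodule.span ℚ (Set.range p) ⊔ J := by
  obtain ⟨κ, a, -, h1, h2⟩ := exists_linearIndependent' ℚ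
    fun q : {q : P X × ℕ // q.1 ∈ W ∧ q.1.IsHomogeneous q.2} => J.mkQ q.1.1
  obtain ⟨T, hT⟩ := (Submodule.FG.of_finite (N := restrictTotalDegree X ℚ N)).map J.mkQ
  have : Finite κ := h2.finite_of_le_span_finite _ (T : Set (P X ⧸ J)) (by
    rintro _ ⟨k, rfl⟩
    rw [hT]
    rcases le_or_gt (a k).1.2 N with h | h
    · exact ⟨_, (mem_restrictTotalDegree _ _ _).2 ((a k).2.2.totalDegree_le.trans h), rfl⟩
    · exact ⟨0, zero_mem _, (map_zero _).trans
        ((Submodule.Quotient.mk_eq_zero J).2 (hN _ h _ (a k).2.1 (a k).2.2)).symm⟩)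
  let _ := Fintype.ofFinite κ
  refine ⟨κ, inferInstance, fun k => (a k).1.1, fun k => (a k).1.2, fun k => (a k).2,
    fun c hc => Fintype.linearIndependent_iff.1 h2 c ?_, fun f hf => ?_⟩
  · simpa [map_sum] using (show J.mkQ _ = 0 from (Submodule.Quotient.mk_eq_zero J).2 hc)
  · rw [sup_comm, ← Submodule.comap_map_mkQ, Submodule.mem_comap, Submodule.map_span,
      ← Set.range_comp, ← sum_homogeneousComponent f, map_sum]
    exact h1.ge (sum_mem fun d _ => Submodule.subset_span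
      ⟨⟨(_, d), hW f hf d, homogeneousComponent_isHomogeneous d f⟩, rfl⟩)

theorem Stab.exists_alph (Z : Stab Q) : Nonempty Z.Alph := by
  classical
  obtain ⟨rep, hr1, hr2⟩ : ∃ rep : Finset X → Finset X, (∀ B, Q.cnt (rep B) = Q.cnt B) ∧
      ∀ B B', Q.cnt B = Q.cnt B' → rep B = rep B' :=
    ⟨fun B => Function.invFun Q.cnt (Q.cnt B), fun B => Function.invFun_eq ⟨B, rfl⟩,
      fun _ _ h => congrArg _ h⟩
  choose κ _ p deg h1 h2 h3 using fun B : {B : Finset X // B.Nonempty ∧ rep B = B} =>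
    CFin.exists_basis (Z.V B.1 ⊓ Q.Inv B.1) ((Z.I0 B.1).restrictScalars ℚ)
      (fun f hf d => ⟨Stab.homogeneousComponent_mem_V hf.1 d,
        Quiv.homogeneousComponent_mem_Inv hf.2 d⟩)
      fun d hd v hv => (Z.V_high B.1 B.2.1).choose_spec d hd v hv.1
  obtain ⟨n, e, he⟩ : ∃ (n : ℕ) (e : Fin n ≃ Σ B, κ B),
      ∀ y y', y ≤ y' → Z.sl (e y').1.1 ≤ Z.sl (e y).1.1 :=
    ⟨_, (Tuple.sort fun y => -Z.sl ((Fintype.equivFin (Σ B, κ B)).symm y).1.1).trans
      (Fintype.equivFin _).symm, fun y y' h => neg_le_neg_iff.1 (Tuple.monotone_sort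
        (fun y => -Z.sl ((Fintype.equivFin (Σ B, κ B)).symm y).1.1) h)⟩
  refine ⟨⟨n, fun y => (e y).1.1, fun y => p _ (e y).2, fun y => deg _ (e y).2,
    fun y => (e y).1.2.1, fun y y' h => (e y).1.2.2.symm.trans ((hr2 _ _ h).trans (e y').1.2.2),
    fun y => (h1 _ _).1.1, fun y => (h1 _ _).1.2, fun y => (h1 _ _).2, fun B c hc h y => ?_,
    fun B hB v hv hv' => ?_, he⟩⟩
  · by_contra hy
    obtain ⟨⟨B', k⟩, rfl⟩ := e.symm.surjective y
    obtain rfl : B'.1 = B := by simpa using not_imp_comm.1 (hc _) hy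
    refine hy (h2 B' (fun k => c (e.symm ⟨B', k⟩)) ?_ k)
    rw [← e.symm.sum_comp, Fintype.sum_sigma, Fintype.sum_eq_single B' fun B'' h' =>
      sum_eq_zero fun k _ => by rw [hc _ (by simpa [Subtype.ext_iff] using h'), zero_smul]] at h
    have h4 : ∀ z, p (e (e.symm z)).1 (e (e.symm z)).2 = p z.1 z.2 := fun z => by
      rw [e.apply_symm_apply]
    simp only [h4] at h
    exact h
  · obtain ⟨σ, hσ, h4⟩ := Quiv.exists_isG_map (hr1 B).symm
    have h5 : (rep B).map (σ⁻¹ : Equiv.Perm X).toEmbedding = B := by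
      rw [← h4, Finset.map_map]
      convert Finset.map_refl
      ext s
      simp
    have h7 := Stab.rename_mem_V hσ hv
    have h8 := Quiv.rename_mem_Inv hσ hv'
    rw [h4] at h7 h8
    obtain ⟨a, ha, b, hb, hab⟩ := Submodule.mem_sup.1 (h3 ⟨rep B, h4 ▸ hB.map, hr2 _ _ (hr1 B)⟩
      (x := rename σ v) ⟨h7, h8⟩)
    have h6 : v = rename (σ⁻¹ : Equiv.Perm X) a + rename (σ⁻¹ : Equiv.Perm X) b := by
      rw [← map_add, hab, rename_rename]
      simp
    rw [h6]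
    refine Submodule.add_mem_sup (Submodule.span_mono ?_
      (Submodule.apply_mem_span_image_of_mem_span
        (rename (σ⁻¹ : Equiv.Perm X) : P X →ₐ[ℚ] P X).toLinearMap ha))
      (h5 ▸ Stab.rename_mem_I0 hσ.inv hb)
    rintro _ ⟨_, ⟨k, rfl⟩, rfl⟩
    refine ⟨e.symm ⟨_, k⟩, σ⁻¹, hσ.inv, ?_⟩
    rw [e.apply_symm_apply]
    exact ⟨h5, rfl⟩

end Crest.Agent.R59
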