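import Crest.Agent.R59.CohaTensor

/-! # Polynomial COHA: auxiliary lemmas for the finiteness of the generators -/

set_option autoImplicit false

namespace Crest.Agent.R59.CFin
open MvPolynomial Finset

section alg
variable {X : Type}

/-- `f` has degree at most `n` modulo `J` -/
def Low (J : Ideal (P X)) (n : ℕ) (f : P X) : Prop := ∃ g : P X, g.totalDegree ≤ n ∧ f - g ∈ J

variable {J J' : Ideal (P X)} {n m : ℕ} {f g : P X}

theorem Low.of_mem (h : f ∈ J) : Low J n f := ⟨0, by simp, by simpa using h⟩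

theorem Low.of_le (h : f.totalDegree ≤ n) : Low J n f := ⟨f, h, by simp⟩

theorem Low.mono (h : Low J n f) (hJ : J ≤ J') (hn : n ≤ m) : Low J' m f :=
  let ⟨g, h1, h2⟩ := h; ⟨g, h1.trans hn, hJ h2⟩

theorem Low.add (h : Low J n f) (h' : Low J n g) : Low J n (f + g) :=
  let ⟨a, h1, h2⟩ := h
  let ⟨b, h3, h4⟩ := h'
  ⟨a + b, (totalDegree_add _ _).trans (max_le h1 h3), by convert add_mem h2 h4 using 1; ring⟩

theorem Low.mul (h : Low J n f) (h' : Low J m g) : Low J (n + m) (f * g) :=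
  let ⟨a, h1, h2⟩ := h
  let ⟨b, h3, h4⟩ := h'
  ⟨a * b, (totalDegree_mul _ _).trans (add_le_add h1 h3), by
    convert add_mem (J.mul_mem_right g h2) (J.mul_mem_left a h4) using 1; ring⟩

theorem Low.smul (h : Low J n f) (c : ℚ) : Low J n (c • f) := by
  simpa [smul_eq_C_mul] using (Low.of_le (J := J) (totalDegree_C c).le).mul h

theorem Low.sum {ι : Type} {s : Finset ι} {u : ι → P X} (h : ∀ i ∈ s, Low J n (u i)) :
    Low J n (∑ i ∈ s, u i) :=
  sum_induction u (Low J n) (fun _ _ => Low.add) (Low.of_mem (zero_mem J)) h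

theorem Low.prod {ι : Type} {s : Finset ι} {u : ι → P X} (h : ∀ i ∈ s, Low J n (u i)) :
    Low J (s.card * n) (∏ i ∈ s, u i) := by
  classical
  induction s using Finset.induction_on with
  | empty => exact Low.of_le (by simp)
  | insert a s ha ih =>
    rw [prod_insert ha, card_insert_of_notMem ha, add_mul, one_mul, add_comm]
    exact (h a (mem_insert_self _ _)).mul (ih fun i hi => h i (mem_insert_of_mem hi))

theorem Low.of_span {T : Set (P X)} (h : ∀ η ∈ T, Low J n η) (hf : f ∈ Submodule.span ℚ T) :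
    Low J n f := by
  induction hf using Submodule.span_induction with
  | mem x hx => exact h x hx
  | zero => exact Low.of_mem (zero_mem J)
  | add x y _ _ hx hy => exact hx.add hy
  | smul c x _ hx => exact hx.smul c

theorem Low.mem (h : Low J n f) (hJ : ∀ g ∈ J, homogeneousComponent m g ∈ J)
    (hf : f.IsHomogeneous m) (hm : n < m) : f ∈ J := by
  obtain ⟨g, h1, h2⟩ := h
  have := hJ _ h2
  rwa [map_sub, homogeneousComponent_eq_self hf, homogeneousComponent_eq_zero _ _ (h1.trans_lt hm),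
    sub_zero] at this

theorem Low.of_comp (h : ∀ d, n < d → homogeneousComponent d f ∈ J) : Low J n f := by
  rw [← sum_homogeneousComponent f]
  refine Low.sum fun d _ => ?_
  rcases le_or_gt d n with hd | hd
  · exact Low.of_le ((homogeneousComponent_isHomogeneous d f).totalDegree_le.trans hd)
  · exact Low.of_mem (h d hd)

/-- if all variables are nilpotent modulo `J : M` then `ψ M` has bounded degree modulo `ψ J` -/
theorem exists_low [Fintype X] (ψ : P X →ₐ[ℚ] P X) (J M : Ideal (P X))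
    (h : ∀ s, MvPolynomial.X s ∈ Ideal.radical ((J.comap ψ).colon (M : Set (P X)))) :
    ∃ N, ∀ v ∈ M, Low J N (ψ v) := by
  classical
  obtain ⟨A, hA⟩ : ∃ A : Ideal (P X), A = (J.comap ψ).colon (M : Set (P X)) := ⟨_, rfl⟩
  rw [← hA] at h
  have h1 : Algebra.IsIntegral ℚ (P X ⧸ A) := ⟨fun x => by
    obtain ⟨f, rfl⟩ := Ideal.Quotient.mkₐ_surjective ℚ A x
    induction f using MvPolynomial.induction_on with
    | C a => exact isIntegral_algebraMap.map _
    | add p q hp hq => rw [map_add]; exact hp.add hq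
    | mul_X p s hp =>
      obtain ⟨k, hk⟩ := h s
      rw [map_mul]
      refine hp.mul (IsIntegral.of_pow k.succ_pos ?_)
      rw [← map_pow, Ideal.Quotient.mkₐ_eq_mk,
        Ideal.Quotient.eq_zero_iff_mem.2 (A.pow_mem_of_pow_mem hk k.le_succ)]
      exact isIntegral_zero⟩
  obtain ⟨T, hT⟩ : ∃ T : Finset (P X), ∀ f, ∃ u ∈ Submodule.span ℚ (T : Set (P X)), f - u ∈ A := by
    obtain ⟨T, hT⟩ := (Algebra.IsIntegral.finite (R := ℚ) (A := P X ⧸ A)).fg_top
    choose l hl using Ideal.Quotient.mkₐ_surjective ℚ A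
    refine ⟨T.image l, fun f => ?_⟩
    have h2 : (Submodule.span ℚ (T.image l : Set (P X))).map
        (Ideal.Quotient.mkₐ ℚ A).toLinearMap = ⊤ := by
      rw [Submodule.map_span, coe_image, Set.image_image, ← hT]
      simp only [AlgHom.toLinearMap_apply, hl, Set.image_id']
    obtain ⟨u, hu, h3⟩ := h2.ge (Submodule.mem_top (x := Ideal.Quotient.mkₐ ℚ A f))
    exact ⟨u, hu, Ideal.Quotient.eq.1 h3.symm⟩
  obtain ⟨G, hG⟩ := (inferInstance : IsNoetherianRing (P X)).noetherian M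
  refine ⟨(T ×ˢ G).sup fun q => (ψ (q.1 * q.2)).totalDegree, fun v hv => ?_⟩
  obtain ⟨a, -, rfl⟩ := Submodule.mem_span_finset.1 (hG.ge hv)
  rw [map_sum]
  refine Low.sum fun g hg => ?_
  obtain ⟨u, hu, h2⟩ := hT (a g)
  rw [show a g • g = (a g - u) • g + u * g by rw [smul_eq_mul, smul_eq_mul]; ring, map_add]
  rw [hA] at h2
  have h3 := Submodule.apply_mem_span_image_of_mem_span
    (ψ.toLinearMap ∘ₗ LinearMap.mulRight ℚ g) hu
  refine (Low.of_mem (Ideal.mem_comap.1 (Submodule.mem_colon.1 h2 g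
    (hG.le (Submodule.subset_span hg))))).add (Low.of_span ?_ h3)
  rintro _ ⟨t, ht, rfl⟩
  have h4 := le_sup (f := fun q : P X × P X => (ψ (q.1 * q.2)).totalDegree)
    (mk_mem_product (mem_coe.1 ht) hg)
  rw [LinearMap.comp_apply, LinearMap.mulRight_apply, AlgHom.toLinearMap_apply]
  exact Low.of_le h4

theorem pb_sub {S : Finset X} (hS : S.Nonempty) (y : P X) :
    pb S - y = C ((S.card : ℚ)⁻¹) * ∑ s ∈ S, (MvPolynomial.X s - y) := by
  have : (C ((S.card : ℚ)⁻¹) : P X) * (S.card : P X) = 1 := by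
    rw [← map_natCast (C : ℚ →+* P X), ← map_mul,
      inv_mul_cancel₀ (Nat.cast_ne_zero.2 hS.card_pos.ne'), map_one]
  rw [sum_sub_distrib, sum_const, nsmul_eq_mul, mul_sub, ← mul_assoc, this, one_mul, pb]

variable [DecidableEq X]

/-- centre the variables of `S`, kill the others -/
noncomputable def psi (S : Finset X) : P X →ₐ[ℚ] P X :=
  aeval fun s => if s ∈ S then MvPolynomial.X s - pb S else 0

theorem psi_pb {S : Finset X} (hS : S.Nonempty) : psi S (pb S) = 0 := by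
  rw [← sub_self (pb S), pb_sub hS]
  conv_lhs => rw [pb, map_mul, map_sum, psi, aeval_C]
  exact congrArg _ (sum_congr rfl fun s hs => by rw [aeval_X, if_pos hs])

theorem sub_psi_mem {S : Finset X} {v : P X} (hv : v ∈ supported ℚ (S : Set X))
    (h : DegLE J S (fun _ => 0) v 0) : v - psi S v ∈ J := by
  have h1 : supported ℚ (S : Set X) ≤ AlgHom.equalizer (psi S)
      (((aeval fun _ => -pb S : MvPolynomial ℕ (P X) →ₐ[P X] P X).restrictScalars ℚ).comp
        (sh S fun _ => 0)) := by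
    refine Algebra.adjoin_le ?_
    rintro _ ⟨s, hs, rfl⟩
    simp [psi, sh, mem_coe.1 hs, sub_eq_add_neg]
  have h2 : MvPolynomial.map (Ideal.Quotient.mk J) (sh S (fun _ => 0) v) =
      C (Ideal.Quotient.mk J v) := by
    ext α
    rw [coeff_map, coeff_C]
    split_ifs with hα
    · rw [← hα, coeff_zero_sh]
    · exact Ideal.Quotient.eq_zero_iff_mem.2 (h α (by
        simpa [pos_iff_ne_zero, Finsupp.degree_eq_zero_iff] using Ne.symm hα))
  rw [← Ideal.Quotient.eq, (AlgHom.mem_equalizer _ _ _).1 (h1 hv)]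
  change _ = Ideal.Quotient.mk J (eval₂ (RingHom.id _) (fun _ => -pb S) (sh S (fun _ => 0) v))
  rw [hom_eval₂, RingHom.comp_id, ← eval_map, h2, eval_C]

end alg

variable {C X : Type} [Fintype C] [DecidableEq C] [DecidableEq X] {Q : Quiv C X} {Z : Stab Q}
  {S : Finset X} {ρ : X → ℕ}

theorem psi_mem_I0 {f : P X} (hf : f ∈ Z.I0 S) : psi S f ∈ Z.I0 S := by
  refine (show Z.I0 S ≤ (Z.I0 S).comap (psi S) from Ideal.span_le.2 ?_) hf
  rintro _ ⟨i, A, hA, h1, h2, rfl⟩
  have : psi S (Q.Kp A (fib S (fun _ => 0) i \ A)) = Q.Kp A (fib S (fun _ => 0) i \ A) := by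
    simp only [Quiv.Kp, map_prod, map_pow, map_sub, psi, aeval_X]
    refine prod_congr rfl fun s hs => prod_congr rfl fun t ht => ?_
    rw [if_pos (fib_subset _ _ _ (h1 hs)), if_pos (fib_subset _ _ _ (mem_sdiff.1 ht).1),
      sub_sub_sub_cancel_right]
  exact Ideal.mem_comap.2 (this.symm ▸ Z.Kp_mem_I hA h1 h2)

theorem Kp_mem_I0 {A : Finset X} (hA : A.Nonempty) (h : A ⊆ S) (hs : Z.sl S < Z.sl A) :
    Q.Kp A (S \ A) ∈ Z.I0 S := by
  have := Z.Kp_mem_I (S := S) (ρ := fun _ => 0) (i := 0) hA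
  rw [fib_const] at this
  exact this h hs

theorem Kl_mul (hρ : Z.Pure S ρ) {f : P X} (hf : f ∈ Z.I S ρ) : Q.Kl S ρ * f ∈ Z.I0 S := by
  refine Ideal.mem_colon_span_singleton.1 ((show Z.I S ρ ≤ (Z.I0 S).colon
    (Ideal.span {Q.Kl S ρ} : Ideal (P X)) from Ideal.span_le.2 ?_) hf) |> (mul_comm f _ ▸ ·)
  rintro _ ⟨i, A, ⟨a, ha⟩, h1, h2, rfl⟩
  have hA : ∀ s ∈ A, s ∈ S ∧ ρ s = i := fun s hs => mem_fib.1 (h1 hs)
  have h3 : Z.sl (fib S ρ i) = Z.sl S := (hA a ha).2 ▸ hρ a (hA a ha).1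
  have h4 : Disjoint (S.filter fun s => ρ s < i) A :=
    disjoint_left.2 fun s hs hs' => (mem_filter.1 hs).2.ne (hA s hs').2
  have h5 : (S.filter fun s => ρ s < i) ∪ A ⊆ S :=
    union_subset (filter_subset _ _) fun s hs => (hA s hs).1
  have h6 : Z.sl S < Z.sl ((S.filter fun s => ρ s < i) ∪ A) := by
    rw [Z.lt_sl_iff ⟨a, mem_union_right _ ha⟩, sum_union h4, ← sum_fiberwise_of_maps_to
      (t := range i) (g := ρ) fun s hs => mem_range.2 (mem_filter.1 hs).2, sum_eq_zero, zero_add]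
    · exact (Z.lt_sl_iff ⟨a, ha⟩ _).1 (h3 ▸ h2)
    · intro j hj
      have : (S.filter fun s => ρ s < i).filter (fun s => ρ s = j) = fib S ρ j := by
        ext s
        simp only [mem_filter, mem_fib, and_assoc]
        exact and_congr_right fun _ => and_iff_right_of_imp fun h => h ▸ mem_range.1 hj
      rw [this]
      rcases (fib S ρ j).eq_empty_or_nonempty with h | ⟨s, hs⟩
      · rw [h, sum_empty]
      · exact (Z.sl_eq_iff ⟨s, hs⟩ _).1 ((mem_fib.1 hs).2 ▸ hρ s (mem_fib.1 hs).1)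
  refine Ideal.mem_colon_span_singleton.2 (Ideal.mem_of_dvd _ ?_
    (Kp_mem_I0 ⟨a, mem_union_right _ ha⟩ h5 h6))
  unfold Quiv.Kp Quiv.Kl
  rw [prod_congr rfl fun s _ => (prod_filter_mul_prod_filter_not _ (fun t => ρ s < ρ t) _).symm,
    prod_mul_distrib, mul_comm]
  refine mul_dvd_mul ?_ ((prod_dvd_prod_of_dvd _ _ fun s _ => prod_dvd_prod_of_subset _ _ _
    (filter_subset_filter _ sdiff_subset)).trans (prod_dvd_prod_of_subset _ _ _ h5))
  rw [← prod_subset (subset_union_right (s₂ := A)) fun s hs hs' => ?_]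
  · refine prod_dvd_prod_of_dvd _ _ fun s hs => prod_dvd_prod_of_subset _ _ _ fun t ht => ?_
    have := (hA s hs).2
    simp only [mem_filter, mem_sdiff, mem_union, mem_fib, not_or, not_and] at ht ⊢
    exact ⟨⟨ht.1.1, by have := ht.1.2.1 ht.1.1; omega⟩, ht.1.2.2⟩
  · rw [filter_eq_empty_iff.2, prod_empty]
    intro t ht
    simp only [mem_filter, mem_sdiff, mem_union, not_or, not_and, hs', or_false] at ht hs
    have := ht.2.1 ht.1
    omega

/-- the common zero locus of the kernels is the diagonal -/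
theorem X_mem_of_prime (hS : S.Nonempty) {p : Ideal (P X)} (hp : p.IsPrime) (h0 : Z.I0 S ≤ p)
    (h1 : pb S ∈ p) (h2 : ∀ ρ, Z.Pure S ρ → 1 < (S.image ρ).card → Q.Kl S ρ ∈ p) {s : X}
    (hs : s ∈ S) : MvPolynomial.X s ∈ p := by
  classical
  obtain ⟨A, hA⟩ : ∃ A : Finset X, ∀ t, t ∈ A ↔
      t ∈ S ∧ MvPolynomial.X t - MvPolynomial.X s ∈ p := ⟨S.filter _, fun _ => mem_filter⟩
  have hAS : A ⊆ S := fun t ht => ((hA t).1 ht).1
  have hA0 : A.Nonempty := ⟨s, (hA s).2 ⟨hs, by simp⟩⟩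
  have h3 : ∀ t ∈ A, ∀ u ∈ S, u ∉ A → MvPolynomial.X u - MvPolynomial.X t ∉ p :=
    fun t ht u hu hu' h => hu' ((hA u).2 ⟨hu, by simpa using add_mem h ((hA t).1 ht).2⟩)
  have h4 : S \ A = ∅ := by
    by_contra hne
    have hB : (S \ A).Nonempty := nonempty_iff_ne_empty.2 hne
    have h5 := (Z.sl_eq_iff hS _).1 rfl
    rw [← sum_sdiff hAS] at h5
    rcases lt_trichotomy (Z.sl S) (Z.sl A) with h | h | h
    · obtain ⟨t, ht, h6⟩ := Ideal.IsPrime.prod_mem_iff.1 (h0 (Kp_mem_I0 hA0 hAS h))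
      obtain ⟨u, hu, h7⟩ := Ideal.IsPrime.prod_mem_iff.1 h6
      exact h3 t ht u (mem_sdiff.1 hu).1 (mem_sdiff.1 hu).2 (hp.mem_of_pow_mem _ h7)
    · have e0 : fib S (fun t => if t ∈ A then 0 else 1) 0 = A := by
        ext t; simpa [mem_fib] using fun ht => hAS ht
      have e1 : fib S (fun t => if t ∈ A then 0 else 1) 1 = S \ A := by
        ext t; simp [mem_fib]
      have h6 := (Z.sl_eq_iff hA0 _).1 h.symm
      obtain ⟨t, -, h7⟩ := Ideal.IsPrime.prod_mem_iff.1 (h2 (fun t => if t ∈ A then 0 else 1)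
        (fun t _ => by
          dsimp only
          split_ifs
          · rw [e0, h]
          · rw [e1, Z.sl_eq_iff hB]; linarith)
        (by
          obtain ⟨a, ha⟩ := hA0
          obtain ⟨b, hb⟩ := hB
          exact one_lt_card.2 ⟨_, mem_image_of_mem _ (hAS ha), _,
            mem_image_of_mem _ (mem_sdiff.1 hb).1, by simp [ha, (mem_sdiff.1 hb).2]⟩))
      obtain ⟨u, hu, h8⟩ := Ideal.IsPrime.prod_mem_iff.1 h7
      obtain ⟨hu, h9⟩ := mem_filter.1 hu
      dsimp only at h9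
      refine h3 t ?_ u hu ?_ (hp.mem_of_pow_mem _ h8) <;> split_ifs at h9 <;> simp_all
    · have h6 : Z.sl S < Z.sl (S \ A) := by
        rw [Z.sl_lt_iff hA0] at h
        rw [Z.lt_sl_iff hB]
        linarith
      obtain ⟨t, ht, h7⟩ := Ideal.IsPrime.prod_mem_iff.1 (h0 (Kp_mem_I0 hB sdiff_subset h6))
      obtain ⟨u, hu, h8⟩ := Ideal.IsPrime.prod_mem_iff.1 h7
      rw [Finset.sdiff_sdiff_eq_self hAS] at hu
      exact h3 u hu t (mem_sdiff.1 ht).1 (mem_sdiff.1 ht).2
        (by simpa using neg_mem (hp.mem_of_pow_mem _ h8))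
  have h5 : pb S - MvPolynomial.X s ∈ p := by
    rw [pb_sub hS]
    exact p.mul_mem_left _ (sum_mem fun t ht => ((hA t).1 (sdiff_eq_empty_iff_subset.1 h4 ht)).2)
  simpa using sub_mem h1 h5

/-- generators of high degree lie in the ideals of all proper pure partitions -/
theorem mem_I_of_high {N d : ℕ}
    (hN : ∀ B ⊂ S, B.Nonempty → ∀ d, N < d → ∀ v ∈ Z.V B, v.IsHomogeneous d → v ∈ Z.I0 B)
    (hd : ∑ s ∈ S, ∑ t ∈ S, Q.ar s t + S.card * N < d) {v : P X} (hv : v ∈ Z.V S)
    (hh : v.IsHomogeneous d) (ρ : X → ℕ) :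
    Z.Pure S ρ → 1 < (S.image ρ).card → v ∈ Z.I S ρ := by
  induction' hk : S.card - (S.image ρ).card using Nat.strong_induction_on with k ih generalizing ρ
  intro hρ h1
  have h2 : Q.al S ρ ≤ ∑ s ∈ S, ∑ t ∈ S, Q.ar s t :=
    sum_le_sum fun s _ => sum_le_sum_of_subset (filter_subset _ _)
  have h3 : ∀ η ∈ Z.Terms S ρ 0, Low (Z.I S ρ) (S.card * N) η := by
    rintro _ ⟨u, j, hu, hj, rfl⟩
    refine (Low.prod (n := N) fun i hi => ?_).mono le_rfl
      (Nat.mul_le_mul_right _ card_image_le)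
    rw [sum_eq_zero_iff.1 hj i hi, pow_zero, mul_one]
    obtain ⟨s, hs, rfl⟩ := mem_image.1 hi
    refine Low.of_comp fun e he => Z.I0_fib_le S ρ _ (hN _ ?_ ⟨s, mem_fib.2 ⟨hs, rfl⟩⟩ e he _
      (Stab.homogeneousComponent_mem_V (hu _ hi) e) (homogeneousComponent_isHomogeneous _ _))
    obtain ⟨b, hb, hb'⟩ := exists_mem_ne h1 (ρ s)
    obtain ⟨t, ht, rfl⟩ := mem_image.1 hb
    exact (ssubset_iff_of_subset (fib_subset _ _ _)).2 ⟨t, ht, fun h => hb' (mem_fib.1 h).2⟩
  have h4 : ∀ m : ℕ, m ≤ Q.al S ρ → DegLE (Z.I S ρ) S ρ v (m - 1) := by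
    intro m hm
    induction hm using Nat.decreasingInduction with
    | self => simpa using (hv.2 ρ hρ).2 h1
    | of_succ m hm ihm =>
      intro α hα
      rcases (show m ≤ Finsupp.degree α by omega).eq_or_lt with he | he
      swap
      · exact ihm α (by omega)
      obtain ⟨a, ha, b, hb, hab⟩ := Submodule.mem_sup.1 (Stab.tensor_V hρ
        (coeff_sh_mem_supported S ρ hv.1 α) fun ρ' hρ' hr => by
          have h5 : (S.image ρ).card < (S.image ρ').card → ∀ n,
              DegLE (Z.I S ρ') S ρ' (coeff α (sh S ρ v)) n := fun h n =>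
            Z.degLE_of_mem_I (Z.coeff_sh_mem_I hr (ih _ (by
              have := card_image_le (s := S) (f := ρ'); omega) ρ' rfl hρ' (h1.trans h)) α) n
          refine ⟨?_, fun h => h5 h _⟩
          rcases lt_or_ge (S.image ρ).card (S.image ρ').card with h | h
          · exact h5 h _
          · have h6 := sameKer_of_card hr h
            rw [Z.al_congr hρ'.anti hρ.anti h6]
            exact Z.degLE_congr (fun s hs t ht => (h6 s hs t ht).symm)
              ((ihm.coeff_sh (fun _ _ _ _ h => h) α).mono le_rfl (by omega)))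
      refine (hab ▸ (Low.of_span h3 ha).add (Low.of_mem hb)).mem
        (fun g hg => Z.homogeneousComponent_mem_I hg _) (coeff_sh_isHomogeneous S ρ hh α)
        (by omega)
  exact (h4 0 (Nat.zero_le _)).mem_of_neg (by norm_num)

end Crest.Agent.R59.CFin
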