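import Crest.Agent.R59.CohaSpan

/-! # Polynomial COHA: ordered lists of blocks (auxiliary to the Harder-Narasimhan spanning) -/

set_option autoImplicit false

namespace Crest.Agent.R59.HN
open MvPolynomial Finset

section lists
variable {X : Type} [DecidableEq X]

/-- union of a list of blocks -/
def U : List (Finset X) → Finset X
  | [] => ∅
  | B :: L => B ∪ U L

/-- nonempty pairwise disjoint blocks -/
def Valid : List (Finset X) → Prop
  | [] => True
  | B :: L => B.Nonempty ∧ Disjoint B (U L) ∧ Valid L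

theorem Valid.length_le {L : List (Finset X)} (h : Valid L) : L.length ≤ (U L).card := by
  induction L with
  | nil => simp
  | cons B L ih =>
    obtain ⟨h1, h2, h3⟩ := h
    have := ih h3
    have h4 := h1.card_pos
    rw [U, card_union_of_disjoint h2, List.length_cons]
    omega

variable {C : Type} (Q : Quiv C X)

/-- kernel of a list of blocks -/
noncomputable def K : List (Finset X) → P X
  | [] => 1
  | B :: L => Q.Kp B (U L) * K L

theorem Kp_union_left {A B : Finset X} (h : Disjoint A B) (D : Finset X) :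
    Q.Kp (A ∪ B) D = Q.Kp A D * Q.Kp B D := by
  unfold Quiv.Kp
  rw [prod_union h]

theorem Kp_union_right (A : Finset X) {B D : Finset X} (h : Disjoint B D) :
    Q.Kp A (B ∪ D) = Q.Kp A B * Q.Kp A D := by
  unfold Quiv.Kp
  rw [← prod_mul_distrib]
  exact prod_congr rfl fun s _ => prod_union h

omit [DecidableEq X] in
theorem Kp_empty (A : Finset X) : Q.Kp A ∅ = 1 := by simp [Quiv.Kp]

theorem K_mem_supported (L : List (Finset X)) : K Q L ∈ supported ℚ ((U L : Finset X) : Set X) := by
  induction L with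
  | nil => exact one_mem _
  | cons B L ih =>
    refine mul_mem (Q.Kp_mem_supported _ _ ?_ ?_) (supported_mono ?_ ih)
    · exact coe_subset.2 subset_union_left
    · exact coe_subset.2 subset_union_right
    · exact coe_subset.2 subset_union_right

/-- a polynomial in the variables of `B ∪ D` is a sum of products -/
theorem supported_union_induction {B D : Finset X} {p : P X → Prop}
    (hm : ∀ f ∈ supported ℚ (B : Set X), ∀ g ∈ supported ℚ (D : Set X), p (f * g))
    (ha : ∀ f g, p f → p g → p (f + g)) {ζ : P X}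
    (hζ : ζ ∈ supported ℚ ((B ∪ D : Finset X) : Set X)) : p ζ := by
  have h : ζ ∈ Subalgebra.toSubmodule (supported ℚ (B : Set X)) *
      Subalgebra.toSubmodule (supported ℚ (D : Set X)) := by
    rw [supported, supported, ← Algebra.adjoin_union_coe_submodule, ← Set.image_union,
      ← coe_union]
    exact hζ
  exact Submodule.mul_induction_on h hm ha

/-- kill the variables outside `B` -/
noncomputable def pr (B : Finset X) : P X →ₐ[ℚ] P X :=
  aeval (fun s => if s ∈ B then MvPolynomial.X s else 0)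

theorem pr_mem_supported (B : Finset X) (f : P X) : pr B f ∈ supported ℚ (B : Set X) := by
  induction f using MvPolynomial.induction_on with
  | C a => rw [pr, aeval_C]; exact Subalgebra.algebraMap_mem _ a
  | add f g hf hg => rw [map_add]; exact add_mem hf hg
  | mul_X f s hf =>
    rw [map_mul]
    refine mul_mem hf ?_
    rw [pr, aeval_X]
    split_ifs with hs
    · exact X_mem_supported.2 hs
    · exact zero_mem _

theorem pr_of_supported {B : Finset X} {f : P X} (hf : f ∈ supported ℚ (B : Set X)) :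
    pr B f = f := by
  rw [supported] at hf
  induction hf using Algebra.adjoin_induction with
  | mem x hx =>
    obtain ⟨s, hs, rfl⟩ := hx
    rw [pr, aeval_X, if_pos (mem_coe.1 hs)]
  | algebraMap r => exact AlgHom.commutes _ r
  | add x y _ _ hx hy => rw [map_add, hx, hy]
  | mul x y _ _ hx hy => rw [map_mul, hx, hy]

variable [Fintype X] {Q}

theorem map_of_disjoint {B D : Finset X} {σ : Equiv.Perm X} (h : σ ∈ Q.Aut B)
    (hd : Disjoint D B) : D.map σ.toEmbedding = D := by
  ext s
  rw [mem_map]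
  constructor
  · rintro ⟨t, ht, rfl⟩
    rw [Equiv.coe_toEmbedding, (Quiv.mem_Aut.1 h).2 t (disjoint_left.1 hd ht)]
    exact ht
  · intro hs
    exact ⟨s, hs, (Quiv.mem_Aut.1 h).2 s (disjoint_left.1 hd hs)⟩

theorem rename_Kp_left {B D : Finset X} {σ : Equiv.Perm X} (h : σ ∈ Q.Aut B)
    (hd : Disjoint B D) : rename σ (Q.Kp B D) = Q.Kp B D := by
  rw [Quiv.rename_Kp (Quiv.mem_Aut.1 h).1, Quiv.map_of_mem_Aut h, map_of_disjoint h hd.symm]

theorem rename_Kp_right {B D : Finset X} {σ : Equiv.Perm X} (h : σ ∈ Q.Aut D)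
    (hd : Disjoint B D) : rename σ (Q.Kp B D) = Q.Kp B D := by
  rw [Quiv.rename_Kp (Quiv.mem_Aut.1 h).1, Quiv.map_of_mem_Aut h, map_of_disjoint h hd]

/-- blockwise averaging under the total average -/
theorem Av_mem_of_Av {S B : Finset X} (hB : B ⊆ S) {ζ : P X}
    (hζ : ∀ σ ∈ Q.Aut B, rename σ ζ = ζ) (T : P X) (M : Submodule ℚ (P X)) :
    Q.Av S (ζ * Q.Av B T) ∈ M ↔ Q.Av S (ζ * T) ∈ M := by
  rw [Quiv.Av_mul_Av hB hζ]
  exact M.smul_mem_iff (Nat.cast_ne_zero.2 (Q.card_Aut_pos B).ne')

end lists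

section potential
variable {C X : Type} [Fintype C] [DecidableEq C] [DecidableEq X] {Q : Quiv C X} (Z : Stab Q)

/-- the antisymmetric pairing attached to the stability -/
def pair (A B : Finset X) : ℤ :=
  lin Z.z (Q.cnt A) * lin Z.w (Q.cnt B) - lin Z.z (Q.cnt B) * lin Z.w (Q.cnt A)

/-- the potential (area under the polygon) -/
def Psi : List (Finset X) → ℤ
  | [] => 0
  | B :: L => pair Z B (U L) + Psi L

theorem pair_union_left {A B : Finset X} (h : Disjoint A B) (D : Finset X) :
    pair Z (A ∪ B) D = pair Z A D + pair Z B D := by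
  unfold pair
  rw [cnt_union h, lin_add, lin_add]
  ring

theorem pair_union_right (A : Finset X) {B D : Finset X} (h : Disjoint B D) :
    pair Z A (B ∪ D) = pair Z A B + pair Z A D := by
  unfold pair
  rw [cnt_union h, lin_add, lin_add]
  ring

omit [DecidableEq X] in
theorem pair_self (A : Finset X) : pair Z A A = 0 := by
  unfold pair
  ring

omit [DecidableEq X] in
theorem pair_nonpos_iff {A B : Finset X} (hA : A.Nonempty) (hB : B.Nonempty) :
    pair Z A B ≤ 0 ↔ Z.sl A ≤ Z.sl B := by
  rw [Z.sl_le_iff hA hB, pair, sub_nonpos]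

theorem exists_bound [Fintype X] : ∃ M : ℤ, ∀ L : List (Finset X), Valid L → Psi Z L ≤ M := by
  obtain ⟨M, hM⟩ :=
    ((List.finite_length_le (Finset X) (Fintype.card X)).image (Psi Z)).bddAbove
  exact ⟨M, fun L hL => hM ⟨L, hL.length_le.trans (card_le_univ _), rfl⟩⟩

/-- either the slopes decrease strictly or two neighbouring blocks can be merged -/
theorem decr_or_merge {L : List (Finset X)} (hL : Valid L) :
    L.Pairwise (fun B B' => Z.sl B' < Z.sl B) ∨
      ∃ L' : List (Finset X), Valid L' ∧ U L' = U L ∧ L'.length < L.length ∧ Psi Z L ≤ Psi Z L' ∧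
        ∃ g ∈ supported ℚ ((U L : Finset X) : Set X), K Q L = K Q L' * g := by
  induction L with
  | nil => exact Or.inl List.Pairwise.nil
  | cons B L ih =>
    obtain ⟨h1, h2, h3⟩ := hL
    rcases ih h3 with h | ⟨L', h4, h5, h6, h7, g, hg, h8⟩
    · cases L with
      | nil => exact Or.inl (List.pairwise_singleton _ _)
      | cons B' L =>
        obtain ⟨h4, h5, h6⟩ := h3
        rw [U, disjoint_union_right] at h2
        by_cases hs : Z.sl B' < Z.sl B
        · refine Or.inl (List.Pairwise.cons (fun D hD => ?_) h)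
          rcases List.mem_cons.1 hD with rfl | hD
          · exact hs
          · exact (List.rel_of_pairwise_cons h hD).trans hs
        · refine Or.inr ⟨(B ∪ B') :: L, ⟨h1.mono subset_union_left,
            disjoint_union_left.2 ⟨h2.2, h5⟩, h6⟩, by simp only [U, union_assoc], by simp, ?_,
            Q.Kp B B', Q.Kp_mem_supported _ _ ?_ ?_, ?_⟩
          · have := (pair_nonpos_iff Z h1 h4).2 (not_lt.1 hs)
            simp only [Psi, U]
            rw [pair_union_left Z h2.1, pair_union_right Z _ h5]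
            linarith
          · exact coe_subset.2 subset_union_left
          · exact coe_subset.2 (subset_union_left.trans subset_union_right)
          · simp only [K, U]
            rw [Kp_union_left Q h2.1, Kp_union_right Q _ h5]
            ring
    · refine Or.inr ⟨B :: L', ⟨h1, h5 ▸ h2, h4⟩, by rw [U, U, h5], by simpa using h6, ?_, g,
        supported_mono (coe_subset.2 subset_union_right) hg, ?_⟩
      · simp only [Psi]
        rw [h5]
        linarith
      · simp only [K]
        rw [h5, h8, mul_assoc]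

/-- splitting a block along a destabilising subset -/
theorem split {B D : Finset X} {L : List (Finset X)} (hL : Valid (B :: L)) (hD : D.Nonempty)
    (hDB : D ⊆ B) (hs : Z.sl B < Z.sl D) :
    Valid (D :: (B \ D) :: L) ∧ U (D :: (B \ D) :: L) = U (B :: L) ∧
      Psi Z (B :: L) < Psi Z (D :: (B \ D) :: L) ∧
      K Q (D :: (B \ D) :: L) = K Q (B :: L) * Q.Kp D (B \ D) := by
  obtain ⟨h1, h2, h3⟩ := hL
  have hB : D ∪ B \ D = B := union_sdiff_of_subset hDB
  have hd : Disjoint D (B \ D) := disjoint_sdiff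
  have h4 : Disjoint (B \ D) (U L) := h2.mono_left sdiff_subset
  have h5 : Disjoint D (U L) := h2.mono_left hDB
  have hne : (B \ D).Nonempty := by
    rw [sdiff_nonempty]
    intro h
    rw [Subset.antisymm h hDB] at hs
    exact lt_irrefl _ hs
  refine ⟨⟨hD, disjoint_union_right.2 ⟨hd, h5⟩, hne, h4, h3⟩, ?_, ?_, ?_⟩
  · simp only [U]
    rw [← union_assoc, hB]
  · have h6 : 0 < pair Z D B := by
      by_contra h
      exact absurd ((pair_nonpos_iff Z hD h1).1 (not_lt.1 h)) (not_le.2 hs)
    have h7 := pair_union_right Z D hd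
    have h8 := pair_union_left Z hd (U L)
    rw [hB] at h7 h8
    rw [pair_self] at h7
    simp only [Psi, U]
    rw [pair_union_right Z D h4]
    linarith
  · have h8 := Kp_union_left Q hd (U L)
    rw [hB] at h8
    simp only [K, U]
    rw [Kp_union_right Q D h4, h8]
    ring

end potential

section words
variable {C X : Type} [Fintype C] [DecidableEq C] [Fintype X] [DecidableEq X] {Q : Quiv C X}
  {Z : Stab Q} {A : Z.Alph}

omit [Fintype C] [DecidableEq C] [Fintype X] in
theorem Kl_append {S₁ S₂ : Finset X} (hd : Disjoint S₁ S₂) {π₁ : X → ℕ} (π₂ : X → ℕ) {k : ℕ}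
    (hπ : ∀ s ∈ S₁, π₁ s < k) :
    Q.Kl (S₁ ∪ S₂) (fun s => if s ∈ S₁ then π₁ s else k + π₂ s) =
      Q.Kp S₁ S₂ * Q.Kl S₁ π₁ * Q.Kl S₂ π₂ := by
  unfold Quiv.Kl Quiv.Kp
  beta_reduce
  rw [prod_union hd, ← prod_mul_distrib]
  congr 1
  · refine prod_congr rfl fun s hs => ?_
    rw [filter_union, prod_union (disjoint_filter_filter hd), mul_comm]
    congr 1
    · refine prod_congr (filter_true_of_mem fun t ht => ?_) fun _ _ => rfl
      have := hπ s hs
      rw [if_pos hs, if_neg (disjoint_right.1 hd ht)]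
      omega
    · refine prod_congr (filter_congr fun t ht => ?_) fun _ _ => rfl
      rw [if_pos hs, if_pos ht]
  · refine prod_congr rfl fun s hs => prod_congr ?_ fun _ _ => rfl
    have hs' := disjoint_right.1 hd hs
    rw [filter_union, filter_false_of_mem (s := S₁), empty_union]
    · refine filter_congr fun t ht => ?_
      rw [if_neg hs', if_neg (disjoint_right.1 hd ht)]
      omega
    · intro t ht
      have := hπ t ht
      rw [if_neg hs', if_pos ht]
      omega

theorem isT_nil : A.IsT ∅ [] 1 :=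
  ⟨fun _ => 0, fun _ => 1, by simp, fun i => i.elim0, by simp [Quiv.Kl]⟩

theorem isT_append {S₁ S₂ : Finset X} {l₁ l₂ : List (Fin A.n × ℕ)} {T₁ T₂ : P X}
    (h₁ : A.IsT S₁ l₁ T₁) (h₂ : A.IsT S₂ l₂ T₂) (hd : Disjoint S₁ S₂) :
    A.IsT (S₁ ∪ S₂) (l₁ ++ l₂) (Q.Kp S₁ S₂ * T₁ * T₂) := by
  obtain ⟨π₁, σ₁, hπ₁, hσ₁, rfl⟩ := h₁
  obtain ⟨π₂, σ₂, hπ₂, hσ₂, rfl⟩ := h₂
  let π : X → ℕ := fun s => if s ∈ S₁ then π₁ s else l₁.length + π₂ s
  let e : Fin (l₁.length + l₂.length) ≃ Fin (l₁ ++ l₂).length := finCongr List.length_append.symm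
  let σ : Fin (l₁ ++ l₂).length → Equiv.Perm X := fun i => Fin.append σ₁ σ₂ (e.symm i)
  have f1 : ∀ i : Fin l₁.length, fib (S₁ ∪ S₂) π (e (Fin.castAdd _ i)) = fib S₁ π₁ i := by
    intro i
    ext s
    have hi := i.2
    simp only [mem_fib, mem_union, π, e, finCongr_apply, Fin.val_cast, Fin.val_castAdd]
    by_cases hs : s ∈ S₁
    · simp [hs]
    · simp only [hs, if_false, false_or, false_and, iff_false, not_and]
      omega
  have f2 : ∀ i : Fin l₂.length, fib (S₁ ∪ S₂) π (e (Fin.natAdd _ i)) = fib S₂ π₂ i := by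
    intro i
    ext s
    simp only [mem_fib, mem_union, π, e, finCongr_apply, Fin.val_cast, Fin.val_natAdd]
    by_cases hs : s ∈ S₁
    · have h1 := hπ₁ s hs
      have h2 := disjoint_left.1 hd hs
      simp only [hs, if_true, h2, true_or, true_and, false_and, iff_false]
      omega
    · simp [hs]
  have g1 : ∀ i : Fin l₁.length, (l₁ ++ l₂).get (e (Fin.castAdd _ i)) = l₁.get i := by
    intro i
    simp [e]
  have g2 : ∀ i : Fin l₂.length, (l₁ ++ l₂).get (e (Fin.natAdd _ i)) = l₂.get i := by
    intro i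
    simp [e]
  have s1 : ∀ i : Fin l₁.length, σ (e (Fin.castAdd _ i)) = σ₁ i := by
    intro i
    simp only [σ, Equiv.symm_apply_apply, Fin.append_left]
  have s2 : ∀ i : Fin l₂.length, σ (e (Fin.natAdd _ i)) = σ₂ i := by
    intro i
    simp only [σ, Equiv.symm_apply_apply, Fin.append_right]
  refine ⟨π, σ, fun s hs => ?_, fun i => ?_, ?_⟩
  · rw [List.length_append]
    by_cases hs1 : s ∈ S₁
    · have := hπ₁ s hs1
      simp only [π, if_pos hs1]
      omega
    · have := hπ₂ s ((mem_union.1 hs).resolve_left hs1)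
      simp only [π, if_neg hs1]
      omega
  · obtain ⟨i, rfl⟩ := e.surjective i
    induction i using Fin.addCases with
    | left i => rw [f1, g1, s1]; exact hσ₁ i
    | right i => rw [f2, g2, s2]; exact hσ₂ i
  · rw [← e.prod_comp, Fin.prod_univ_add, Kl_append hd π₂ hπ₁]
    simp only [f1, f2, g1, g2, s1, s2]
    ring

theorem good_append {l₁ l₂ : List (Fin A.n × ℕ)} (h₁ : Good A.odd l₁) (h₂ : Good A.odd l₂)
    (h : ∀ x ∈ l₁, ∀ y ∈ l₂, Z.sl (A.blk y.1) < Z.sl (A.blk x.1)) : Good A.odd (l₁ ++ l₂) := by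
  refine List.pairwise_append.2 ⟨h₁, h₂, fun x hx y hy => Or.inl ?_⟩
  by_contra hxy
  exact absurd (A.sorted _ _ (not_lt.1 hxy)) (not_le.2 (h x hx y hy))

variable (A)

/-- `span_pure` with the unstable part written in the variables of the block -/
theorem span_pure' {B : Finset X} (hB : B.Nonempty) {ξ : P X} (hξ : ξ ∈ supported ℚ (B : Set X)) :
    Q.Av B ξ ∈ Submodule.span ℚ {f | ∃ (l : List (Fin A.n × ℕ)) (T : P X), Good A.odd l ∧
      (∀ x ∈ l, Z.sl (A.blk x.1) = Z.sl B) ∧ A.IsT B l T ∧ f = Q.Av B T} ⊔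
      Submodule.span ℚ {f | ∃ (D : Finset X) (g : P X), D.Nonempty ∧ D ⊆ B ∧ Z.sl B < Z.sl D ∧
        g ∈ supported ℚ (B : Set X) ∧ f = Q.Kp D (B \ D) * g} := by
  obtain ⟨y, hy, η, hη, h⟩ := Submodule.mem_sup.1 (A.span_pure hB hξ)
  have hy' : pr B y = y := by
    refine Submodule.span_induction (p := fun y _ => pr B y = y) ?_ (map_zero _) ?_ ?_ hy
    · rintro _ ⟨l, T, -, -, hT, rfl⟩
      exact pr_of_supported (Quiv.Av_mem_Inv hT.mem_supported).1
    · intro x y _ _ hx hy
      rw [map_add, hx, hy]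
    · intro a x _ hx
      rw [map_smul, hx]
  have h1 : pr B η = η := by
    have h2 := congrArg (pr B) h
    rw [map_add, hy', pr_of_supported (Quiv.Av_mem_Inv hξ).1, ← h] at h2
    exact add_left_cancel h2
  refine Submodule.mem_sup.2 ⟨y, hy, η, ?_, h⟩
  rw [← h1, ← one_mul η]
  generalize (1 : P X) = g
  have hη' : η ∈ Z.I0 B := hη
  clear h h1 hη
  induction hη' using Submodule.span_induction generalizing g with
  | mem x hx =>
    obtain ⟨i, D, hD, hDB, hs, rfl⟩ := hx
    obtain ⟨s, hs'⟩ := hD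
    obtain rfl : 0 = i := (mem_fib.1 (hDB hs')).2
    rw [fib_const] at hDB hs ⊢
    rw [map_mul, pr_of_supported (Q.Kp_mem_supported _ _ (coe_subset.2 hDB)
      (coe_subset.2 sdiff_subset)), mul_comm]
    exact Submodule.subset_span ⟨D, _, ⟨s, hs'⟩, hDB, hs, pr_mem_supported B g, rfl⟩
  | zero => simp
  | add x y _ _ hx hy => rw [mul_add, map_add]; exact add_mem (hx g) (hy g)
  | smul a x _ hx => rw [smul_eq_mul, ← mul_assoc]; exact hx _

end words

end Crest.Agent.R59.HN
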