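import Crest.Agent.R59.CohaSpan
import Crest.Agent.R59.CohaHNAux

/-! # Polynomial COHA: Harder-Narasimhan spanning -/

set_option autoImplicit false

namespace Crest.Agent.R59
open MvPolynomial Finset

variable {C X : Type} [Fintype C] [DecidableEq C] [Fintype X] [DecidableEq X] {Q : Quiv C X}
  {Z : Stab Q} (A : Z.Alph)

namespace HN

/-- good words whose letters have the slope of one of the blocks -/
noncomputable def Wm (L : List (Finset X)) : Submodule ℚ (P X) :=
  Submodule.span ℚ {f | ∃ (l : List (Fin A.n × ℕ)) (T : P X), Good A.odd l ∧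
    (∀ x ∈ l, ∃ B ∈ L, Z.sl (A.blk x.1) = Z.sl B) ∧ A.IsT (U L) l T ∧ f = Q.Av (U L) T}

variable (Z) in
/-- terms of larger potential -/
noncomputable def Jm (L : List (Finset X)) : Submodule ℚ (P X) :=
  Submodule.span ℚ {f | ∃ (L' : List (Finset X)) (g : P X), Valid L' ∧ U L' = U L ∧
    Psi Z L < Psi Z L' ∧ g ∈ supported ℚ ((U L : Finset X) : Set X) ∧
    f = Q.Av (U L) (K Q L' * g)}

theorem decr {L : List (Finset X)} (hL : Valid L)
    (hd : L.Pairwise (fun B B' => Z.sl B' < Z.sl B)) {ζ : P X}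
    (hζ : ζ ∈ supported ℚ ((U L : Finset X) : Set X)) :
    Q.Av (U L) (K Q L * ζ) ∈ Wm A L ⊔ Jm Z L := by
  induction L generalizing ζ with
  | nil =>
    rw [U, coe_empty, supported_empty] at hζ
    obtain ⟨c, rfl⟩ := Algebra.mem_bot.1 hζ
    rw [K, one_mul, Algebra.algebraMap_eq_smul_one, map_smul]
    exact Submodule.smul_mem _ _ (Submodule.mem_sup_left (Submodule.subset_span
      ⟨[], 1, List.Pairwise.nil, by simp, isT_nil, rfl⟩))
  | cons B L ih =>
    obtain ⟨h1, h2, h3⟩ := id hL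
    obtain ⟨hd1, hd2⟩ := List.pairwise_cons.1 hd
    have hBS : B ⊆ U (B :: L) := subset_union_left
    have hUS : U L ⊆ U (B :: L) := subset_union_right
    refine supported_union_induction
      (p := fun ζ => Q.Av (U (B :: L)) (K Q (B :: L) * ζ) ∈ Wm A (B :: L) ⊔ Jm Z (B :: L))
      (fun f hf g hg => ?_) (fun f g hf hg => ?_) hζ
    swap
    · rw [mul_add, map_add]
      exact add_mem hf hg
    have hinv : ∀ σ ∈ Q.Aut B, rename σ (K Q (B :: L) * g) = K Q (B :: L) * g := by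
      intro σ hσ
      rw [K, map_mul, map_mul, rename_Kp_left hσ h2, Quiv.rename_of_disjoint hσ h2.symm hg,
        Quiv.rename_of_disjoint hσ h2.symm (K_mem_supported Q L)]
    rw [mul_comm f g, ← mul_assoc, ← Av_mem_of_Av hBS hinv]
    refine (show _ ≤ (Wm A (B :: L) ⊔ Jm Z (B :: L)).comap
      (Q.Av (U (B :: L)) ∘ₗ LinearMap.mulLeft ℚ (K Q (B :: L) * g)) from
        sup_le (Submodule.span_le.2 ?_) (Submodule.span_le.2 ?_)) (span_pure' A h1 hf)
    · rintro _ ⟨l₁, T₁, hl₁, hs₁, hT₁, rfl⟩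
      have hinv' : ∀ σ ∈ Q.Aut (U L), rename σ (Q.Kp B (U L) * T₁) = Q.Kp B (U L) * T₁ := by
        intro σ hσ
        rw [map_mul, rename_Kp_right hσ h2, Quiv.rename_of_disjoint hσ h2 hT₁.mem_supported]
      show Q.Av (U (B :: L)) (K Q (B :: L) * g * Q.Av B T₁) ∈ Wm A (B :: L) ⊔ Jm Z (B :: L)
      rw [Av_mem_of_Av hBS hinv, show K Q (B :: L) * g * T₁ =
        Q.Kp B (U L) * T₁ * (K Q L * g) by rw [K]; ring, ← Av_mem_of_Av hUS hinv']
      refine (show _ ≤ (Wm A (B :: L) ⊔ Jm Z (B :: L)).comap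
        (Q.Av (U (B :: L)) ∘ₗ LinearMap.mulLeft ℚ (Q.Kp B (U L) * T₁)) from
          sup_le (Submodule.span_le.2 ?_) (Submodule.span_le.2 ?_)) (ih h3 hd2 hg)
      · rintro _ ⟨l₂, T₂, hl₂, hs₂, hT₂, rfl⟩
        show Q.Av (U (B :: L)) (Q.Kp B (U L) * T₁ * Q.Av (U L) T₂) ∈ Wm A (B :: L) ⊔ Jm Z (B :: L)
        rw [Av_mem_of_Av hUS hinv']
        refine Submodule.mem_sup_left (Submodule.subset_span ⟨l₁ ++ l₂, _,
          good_append hl₁ hl₂ fun x hx y hy => ?_, fun x hx => ?_, isT_append hT₁ hT₂ h2, rfl⟩)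
        · obtain ⟨D, hD, hy'⟩ := hs₂ y hy
          rw [hs₁ x hx, hy']
          exact hd1 D hD
        · rcases List.mem_append.1 hx with hx | hx
          · exact ⟨B, List.mem_cons_self, hs₁ x hx⟩
          · obtain ⟨D, hD, hx'⟩ := hs₂ x hx
            exact ⟨D, List.mem_cons_of_mem _ hD, hx'⟩
      · rintro _ ⟨L', g', h4, h5, h6, hg', rfl⟩
        show Q.Av (U (B :: L)) (Q.Kp B (U L) * T₁ * Q.Av (U L) (K Q L' * g')) ∈
          Wm A (B :: L) ⊔ Jm Z (B :: L)
        rw [Av_mem_of_Av hUS hinv']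
        refine Submodule.mem_sup_right (Submodule.subset_span ⟨B :: L', T₁ * g',
          ⟨h1, h5 ▸ h2, h4⟩, by rw [U, U, h5], ?_,
          mul_mem (supported_mono (coe_subset.2 hBS) hT₁.mem_supported)
            (supported_mono (coe_subset.2 hUS) hg'), ?_⟩)
        · simp only [Psi]
          rw [h5]
          linarith
        · rw [K, h5]
          congr 1
          ring
    · rintro _ ⟨D, g', hD, hDB, hs, hg', rfl⟩
      obtain ⟨h4, h5, h6, h7⟩ := split Z hL hD hDB hs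
      refine Submodule.mem_sup_right (Submodule.subset_span ⟨D :: (B \ D) :: L, g * g', h4, h5, h6,
        mul_mem (supported_mono (coe_subset.2 hUS) hg) (supported_mono (coe_subset.2 hBS) hg'), ?_⟩)
      rw [h7]
      show Q.Av (U (B :: L)) (K Q (B :: L) * g * (Q.Kp D (B \ D) * g')) = _
      congr 1
      ring

theorem main (S : Finset X) {M : ℤ} (hM : ∀ L : List (Finset X), Valid L → Psi Z L ≤ M) (a : ℕ) :
    ∀ (n : ℕ) (L : List (Finset X)), Valid L → U L = S → M < Psi Z L + a → L.length < n →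
      ∀ ζ ∈ supported ℚ (S : Set X), Q.Av S (K Q L * ζ) ∈
        Submodule.span ℚ {f | ∃ (l : List (Fin A.n × ℕ)) (T : P X), Good A.odd l ∧
          A.IsT S l T ∧ f = Q.Av S T} := by
  induction a with
  | zero =>
    intro n L hL _ h
    exact absurd (hM L hL) (not_le.2 (by simpa using h))
  | succ a iha =>
    intro n
    induction n with
    | zero => intro L _ _ _ h; exact absurd h (Nat.not_lt_zero _)
    | succ n ihn =>
      rintro L hL rfl h1 h2 ζ hζ
      rcases decr_or_merge Z hL with hd | ⟨L', h3, h4, h5, h6, g, hg, h7⟩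
      · refine (show Wm A L ⊔ Jm Z L ≤ _ from
          sup_le (Submodule.span_mono ?_) (Submodule.span_le.2 ?_)) (decr A hL hd hζ)
        · rintro _ ⟨l, T, hl, -, hT, rfl⟩
          exact ⟨l, T, hl, hT, rfl⟩
        · rintro _ ⟨L', g, h3, h4, h5, hg, rfl⟩
          refine iha _ L' h3 h4 ?_ (Nat.lt_succ_self _) g hg
          push_cast at h1
          linarith
      · rw [h7, mul_assoc]
        exact ihn L' h3 h4 (by linarith) (by omega) _ (mul_mem hg hζ)

end HN

theorem Stab.Alph.span_all {S : Finset X} {ξ : P X} (hξ : ξ ∈ Q.Inv S) :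
    ξ ∈ Submodule.span ℚ {f | ∃ (l : List (Fin A.n × ℕ)) (T : P X), Good A.odd l ∧
      A.IsT S l T ∧ f = Q.Av S T} := by
  obtain ⟨M, hM⟩ := HN.exists_bound Z
  obtain ⟨L, h1, h2, h3⟩ : ∃ L : List (Finset X), HN.Valid L ∧ HN.U L = S ∧ HN.K Q L = 1 := by
    rcases S.eq_empty_or_nonempty with rfl | hS
    · exact ⟨[], trivial, rfl, rfl⟩
    · exact ⟨[S], ⟨hS, disjoint_empty_right _, trivial⟩, union_empty _,
        by simp [HN.K, HN.U, HN.Kp_empty]⟩
  have h := HN.main A S hM (M - HN.Psi Z L + 1).toNat _ L h1 h2 (by omega) (Nat.lt_succ_self _)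
    ξ hξ.1
  rw [h3, one_mul, Quiv.Av_of_mem_Inv hξ] at h
  exact (Submodule.smul_mem_iff _ (Nat.cast_ne_zero.2 (Q.card_Aut_pos S).ne')).1 h

end Crest.Agent.R59
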