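import Crest.Agent.R59.CohaIndepAux

/-! # Polynomial COHA: ordered products of generators are linearly independent -/

set_option autoImplicit false

namespace Crest.Agent.R59
open MvPolynomial Finset

variable {C X : Type} [Fintype C] [DecidableEq C] [Fintype X] [DecidableEq X] {Q : Quiv C X}
  {Z : Stab Q} (A : Z.Alph)

namespace Indep

/-- A placement of the word `l` on `S`. -/
structure Pl (S : Finset X) (l : List (Fin A.n × ℕ)) (π : X → ℕ) (σ : Fin l.length → Equiv.Perm X) :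
    Prop where
  lt : ∀ s ∈ S, π s < l.length
  blk : ∀ i, Q.IsG (σ i) ∧ (A.blk (l.get i).1).map (σ i).toEmbedding = fib S π i

/-- The product of the placed letters. -/
noncomputable def E (S : Finset X) (l : List (Fin A.n × ℕ)) (π : X → ℕ)
    (σ : Fin l.length → Equiv.Perm X) : P X :=
  ∏ i, (rename (σ i) (A.poly (l.get i).1) * pb (fib S π i) ^ (l.get i).2)

variable {A} {S : Finset X} {l l' : List (Fin A.n × ℕ)} {π ρ : X → ℕ}
  {σ : Fin l.length → Equiv.Perm X} {σ' : Fin l'.length → Equiv.Perm X} {τ : Equiv.Perm X}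

omit [Fintype C] [DecidableEq C] in
theorem mem_of_Aut (hτ : τ ∈ Q.Aut S) {s : X} (hs : s ∈ S) : τ s ∈ S :=
  Quiv.map_of_mem_Aut hτ ▸ mem_map_of_mem τ.toEmbedding hs

omit [Fintype C] [DecidableEq C] in
theorem fib_Aut (hτ : τ ∈ Q.Aut S) (π : X → ℕ) (i : ℕ) :
    fib S (π ∘ τ.symm) i = (fib S π i).map τ.toEmbedding := by
  rw [← fib_map, Quiv.map_of_mem_Aut hτ]

theorem Pl.map (h : Pl A S l π σ) (hτ : τ ∈ Q.Aut S) : Pl A S l (π ∘ τ.symm) fun i => τ * σ i :=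
  ⟨fun _ hs => h.lt _ (mem_of_Aut (Quiv.inv_mem_Aut hτ) hs), fun i =>
    ⟨(Quiv.mem_Aut.1 hτ).1.mul (h.blk i).1, by rw [fib_Aut hτ, ← (h.blk i).2, map_map]; rfl⟩⟩

theorem rename_E (hτ : τ ∈ Q.Aut S) :
    rename τ (E A S l π σ) = E A S l (π ∘ τ.symm) fun i => τ * σ i := by
  simp only [E, map_prod, map_mul, map_pow, rename_rename, rename_pb, fib_Aut hτ,
    Equiv.Perm.coe_mul]

theorem Pl.cnt (h : Pl A S l π σ) (i : Fin l.length) : Q.cnt (fib S π i) = A.dim (l.get i).1 := by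
  rw [← (h.blk i).2, Quiv.cnt_map (h.blk i).1, Stab.Alph.dim]

theorem Pl.nonempty (h : Pl A S l π σ) (i : Fin l.length) : (fib S π i).Nonempty :=
  (h.blk i).2 ▸ (A.blk_ne _).map

theorem Pl.image (h : Pl A S l π σ) : S.image π = range l.length :=
  Stab.Alph.image_eq_range h.lt fun i => (h.blk i).2

omit [Fintype X] in
theorem label_eq {m k : ℕ} (hπ : ∀ s ∈ S, π s < m) {γ : Fin m → Fin k}
    (h : ∀ i : Fin m, fib S π i = fib S ρ (γ i)) {s : X} (hs : s ∈ S) : ρ s = γ ⟨π s, hπ s hs⟩ :=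
  (mem_fib.1 (h ⟨π s, hπ s hs⟩ ▸ mem_fib.2 ⟨hs, rfl⟩)).2

omit [Fintype X] in
theorem sameKer_of_fib {m k : ℕ} (hπ : ∀ s ∈ S, π s < m) {γ : Fin m ≃ Fin k}
    (h : ∀ i : Fin m, fib S π i = fib S ρ (γ i)) : SameKer S π ρ := fun s hs t ht => by
  rw [label_eq hπ h hs, label_eq hπ h ht, Fin.val_inj, γ.apply_eq_iff_eq, Fin.mk.injEq]

omit [Fintype C] [DecidableEq C] [Fintype X] [DecidableEq X] in
theorem Dl_congr {π' : X → ℕ} (h : ∀ s ∈ S, π s = π' s) : Q.Dl S π ρ = Q.Dl S π' ρ :=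
  prod_congr rfl fun s hs => prod_congr (filter_congr fun t ht => by rw [h s hs, h t ht])
    fun _ _ => rfl

theorem Pl.exists_equiv (h : Pl A S l ρ σ) (h' : Pl A S l' π σ') (hk : SameKer S π ρ) :
    ∃ γ : Fin l'.length ≃ Fin l.length, ∀ i : Fin l'.length, fib S π i = fib S ρ (γ i) := by
  choose s hs using h'.nonempty
  have h1 : ∀ i : Fin l'.length, fib S π i = fib S ρ (ρ (s i)) := fun i => by
    rw [← hk.fib_eq (mem_fib.1 (hs i)).1, (mem_fib.1 (hs i)).2]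
  refine ⟨Equiv.ofBijective (fun i => ⟨ρ (s i), h.lt _ (mem_fib.1 (hs i)).1⟩)
    ⟨fun i j hij => ?_, fun j => ?_⟩, h1⟩
  · have := (hk _ (mem_fib.1 (hs i)).1 _ (mem_fib.1 (hs j)).1).2 (Fin.mk.inj hij)
    rwa [(mem_fib.1 (hs i)).2, (mem_fib.1 (hs j)).2, Fin.val_inj] at this
  · obtain ⟨t, ht⟩ := h.nonempty j
    obtain ⟨ht, ht'⟩ := mem_fib.1 ht
    exact ⟨⟨π t, h'.lt t ht⟩, Fin.ext ((mem_fib.1 (h1 ⟨π t, h'.lt t ht⟩ ▸
      mem_fib.2 ⟨ht, rfl⟩)).2.symm.trans ht')⟩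

theorem good_antisymm {n : ℕ} (odd : Fin n → Bool) (x y : Fin n × ℕ)
    (h : x.1 < y.1 ∨ (x.1 = y.1 ∧ (x.2 < y.2 ∨ (x.2 = y.2 ∧ odd x.1 = false))))
    (h' : y.1 < x.1 ∨ (y.1 = x.1 ∧ (y.2 < x.2 ∨ (y.2 = x.2 ∧ odd y.1 = false)))) : x = y :=
  Prod.ext (by omega) (by omega)

/-- Exchanging two consecutive blocks that carry the same letter. -/
theorem Pl.exists_swap (h : Pl A S l ρ σ) {i j : Fin l.length} (hij : i ≠ j)
    (he : l.get i = l.get j) : ∃ κ ∈ Q.Aut S, (∀ s ∈ S, ρ (κ s) = Equiv.swap (i : ℕ) j (ρ s)) ∧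
      rename κ (E A S l ρ σ) = E A S l ρ σ ∧
      Q.eps κ = (-1) ^ (∑ c, if Q.odd c then A.dim (l.get i).1 c else 0) := by
  have hj : (A.blk (l.get i).1).map (σ j).toEmbedding = fib S ρ j := he ▸ (h.blk j).2
  obtain ⟨κ, hκ, h1, h2⟩ := Quiv.exists_swap (D := A.blk (l.get i).1) (h.blk i).1 (h.blk j).1 (by
    rw [(h.blk i).2, hj]
    exact disjoint_left.2 fun s hs hs' =>
      hij (Fin.ext ((mem_fib.1 hs).2.symm.trans (mem_fib.1 hs').2)))
  rw [(h.blk i).2, hj] at hκ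
  have hκS := Quiv.Aut_mono (union_subset (fib_subset _ _ _) (fib_subset _ _ _)) hκ
  have h3 : ∀ a, l.get (Equiv.swap i j a) = l.get a := fun a => by
    rw [Equiv.swap_apply_def]
    split_ifs with h h' <;> simp only [*]
  have h4 : ∀ a, ∀ s ∈ A.blk (l.get a).1, σ a s ∈ fib S ρ a := fun a s hs =>
    (h.blk a).2 ▸ mem_map_of_mem _ hs
  have h5 : ∀ a, ∀ s ∈ A.blk (l.get a).1, κ (σ a s) = σ (Equiv.swap i j a) s := fun a s hs => by
    rw [Equiv.swap_apply_def]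
    split_ifs with ha ha'
    · subst ha
      exact (h1 s hs).1
    · subst ha'
      exact (h1 s (he ▸ hs)).2
    · refine (Quiv.mem_Aut.1 hκ).2 _ ?_
      simp [mem_fib, (mem_fib.1 (h4 a s hs)).2, Fin.val_inj, ha, ha']
  have h6 : ∀ s ∈ S, ρ (κ s) = Equiv.swap (i : ℕ) j (ρ s) := fun s hs => by
    obtain ⟨a, ha⟩ : ∃ a : Fin l.length, s ∈ fib S ρ a := ⟨⟨ρ s, h.lt s hs⟩, mem_fib.2 ⟨hs, rfl⟩⟩
    rw [(mem_fib.1 ha).2, Fin.val_injective.swap_apply]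
    rw [← (h.blk a).2] at ha
    obtain ⟨d, hd, rfl⟩ := mem_map.1 ha
    rw [Equiv.coe_toEmbedding, h5 a d hd, (mem_fib.1 (h4 _ d ((h3 a).symm ▸ hd))).2]
  refine ⟨κ, hκS, h6, ?_, h2⟩
  rw [rename_E hκS, E, E, ← Equiv.prod_comp (Equiv.swap i j)
    fun a => rename (σ a) (A.poly (l.get a).1) * pb (fib S ρ a) ^ (l.get a).2]
  refine prod_congr rfl fun a _ => ?_
  rw [h3, rename_congr_of_supported (A.mem_Inv _).1 (σ := ⇑(κ * σ a))
    (τ := σ (Equiv.swap i j a)) (h5 a)]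
  congr 3
  refine filter_congr fun s hs => ?_
  have := h6 (κ.symm s) (mem_of_Aut (Quiv.inv_mem_Aut hκS) hs)
  rw [Equiv.apply_symm_apply] at this
  rw [this, ← Fin.val_injective.swap_apply, Equiv.apply_eq_iff_eq]
  rfl

/-- The sign of the kernel and the sign of the product agree. -/
theorem Pl.sign (h : Pl A S l ρ σ) (hl : Good A.odd l) (γ : Equiv.Perm (Fin l.length))
    (hγ : ∀ i, l.get (γ i) = l.get i) : ∀ τ ∈ Q.Aut S,
      (∀ i : Fin l.length, fib S (ρ ∘ τ.symm) i = fib S ρ (γ i)) → ∃ s : ℚ,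
        Q.Dl S (ρ ∘ τ.symm) ρ = s • Q.Dl S ρ ρ ∧
          Q.eps τ • rename τ (E A S l ρ σ) = s • E A S l ρ σ := by
  have hl' := List.pairwise_iff_get.1 hl
  refine perm_ind (good_antisymm A.odd) l.get hl' (fun γ => ∀ τ ∈ Q.Aut S,
      (∀ i : Fin l.length, fib S (ρ ∘ τ.symm) i = fib S ρ (γ i)) → ∃ s : ℚ,
        Q.Dl S (ρ ∘ τ.symm) ρ = s • Q.Dl S ρ ρ ∧
          Q.eps τ • rename τ (E A S l ρ σ) = s • E A S l ρ σ) (fun τ hτ h1 => ?_)
    (fun γ i j hij he ih τ hτ h1 => ?_) γ hγ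
  · have h2 : ∀ s ∈ S, ρ s = ρ (τ.symm s) := fun s hs => label_eq (h.map hτ).lt h1 hs
    refine ⟨1, by rw [one_smul]; exact Dl_congr fun s hs => (h2 s hs).symm, ?_⟩
    rw [E, rename_prod_of_blocks (S := S) (ρ := ρ) (fun i => ?_) _ le_rfl hτ
      (fun s hs => by rw [h2 _ (mem_of_Aut hτ hs), Equiv.symm_apply_apply])
      fun s hs hs' => absurd (h.lt s hs) hs'.not_gt, smul_smul, Quiv.eps_mul_self]
    have h3 := Quiv.rename_mem_Inv (h.blk i).1 (A.mem_Inv (l.get i).1)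
    rw [(h.blk i).2] at h3
    refine ⟨mul_mem h3.1 (pow_mem (pb_mem_supported _) _), fun κ hκ => ?_⟩
    rw [map_mul, map_pow, h3.2 κ hκ, rename_pb, Quiv.map_of_mem_Aut hκ, smul_mul_assoc]
  · have hij' : i < j := by rw [Fin.lt_def]; omega
    obtain ⟨κ, hκ, h2, h3, h4⟩ := h.exists_swap hij'.ne he
    have hτ' := Quiv.mul_mem_Aut hτ (Quiv.inv_mem_Aut hκ)
    have h5 : ∀ s ∈ S, (ρ ∘ (τ * κ⁻¹).symm) s = (Equiv.swap (i : ℕ) j ∘ ρ ∘ τ.symm) s :=
      fun s hs => h2 _ (mem_of_Aut (Quiv.inv_mem_Aut hτ) hs)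
    obtain ⟨s, h6, h7⟩ := ih _ hτ' fun a => by
      have := h1 (Equiv.swap i j a)
      rw [Equiv.Perm.mul_apply, Equiv.swap_apply_self, ← Fin.val_injective.swap_apply] at this
      rw [← this]
      exact filter_congr fun t ht => by
        rw [h5 t ht, Function.comp_apply, Equiv.swap_apply_eq_iff]
    have h8 := (h.map hτ).cnt i
    have h9 := (h.map hτ).cnt j
    rw [hij, ← he] at h9
    have h10 : Q.eps κ * (-1) ^ av Q.a (A.dim (l.get i).1) (A.dim (l.get i).1) = 1 := by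
      have h11 := hl' i j hij'
      rw [← he] at h11
      rw [h4, ← pow_add]
      exact Even.neg_one_pow (by simpa [Stab.Alph.odd, par] using h11)
    rw [Dl_congr h5, hij, Z.Dl_swap _ (by rw [Stab.sl, Stab.sl, h8, h9])
      (sameKer_of_fib (h.map hτ).lt h1), h8, h9] at h6
    refine ⟨Q.eps κ * s, ?_, ?_⟩
    · rw [mul_smul, ← h6, ← neg_one_smul ℚ (1 : MvPolynomial ℕ ℚ), smul_pow, one_pow,
        smul_mul_assoc, one_mul, smul_smul, h10, one_smul]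
    · conv_lhs => rw [← inv_mul_cancel_right τ κ, Quiv.eps_mul (Quiv.mem_Aut.1 hτ').1
        (Quiv.mem_Aut.1 hκ).1, Equiv.Perm.coe_mul, ← rename_rename, h3, mul_comm, mul_smul, h7,
        smul_smul]

/-- The functional attached to a placement. -/
theorem Pl.exists_Psi (h : Pl A S l ρ σ) (hl : Good A.odd l) : ∃ Ψ : P X →ₗ[ℚ] ℚ,
    (∀ (π : X → ℕ) (s : ℚ), SameKer S π ρ → Z.Anti S π → Q.Dl S π ρ = s • Q.Dl S ρ ρ →
      Ψ (Q.Kl S π * E A S l ρ σ) = s) ∧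
    ∀ (l' : List (Fin A.n × ℕ)) (π : X → ℕ) (σ' : Fin l'.length → Equiv.Perm X), Pl A S l' π σ' →
      Good A.odd l' → toLex (Z.Phi S ρ, toLex (-((l.map Prod.snd).sum : ℤ), -(l.length : ℤ))) ≤
        toLex (Z.Phi S π, toLex (-((l'.map Prod.snd).sum : ℤ), -(l'.length : ℤ))) →
      Ψ (Q.Kl S π * E A S l' π σ') ≠ 0 → ∃ γ : Fin l'.length ≃ Fin l.length,
        (∀ i : Fin l'.length, fib S π i = fib S ρ (γ i)) ∧ ∀ i, l.get (γ i) = l'.get i := by
  choose φ hφ hφ' hφ'' using exists_dual A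
  have hsum : ∀ l : List (Fin A.n × ℕ), ∑ i, (l.get i).2 = (l.map Prod.snd).sum := fun l => by simp
  have hρ := Stab.Alph.anti_of_good hl h.lt h.blk
  have hinv : ∀ (κ : Equiv.Perm X) (f : P X), rename (⇑κ⁻¹) (rename κ f) = f := fun κ f => by
    simp [rename_rename]
  obtain ⟨Ψ, h0, h1⟩ := Indep.exists_Psi (Z := Z) h.image
    (fun i => φ (l.get i).1 ∘ₗ (rename ⇑(σ i)⁻¹ : P X →ₐ[ℚ] P X).toLinearMap) (fun i f hf => by
      have := Stab.rename_mem_I0 (h.blk i).1.inv hf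
      rw [← (h.blk i).2, map_map] at this
      exact hφ _ _ (by simpa [Equiv.Perm.inv_def] using this)) fun i => (l.get i).2
  rw [hsum] at h0 h1
  refine ⟨Ψ, fun π s hk hπ hs => ?_, fun l' π σ' h' hl' hle hne => ?_⟩
  · rw [E, h1 π s _ _ hk (Z.al_congr hπ hρ hk) hs (fun i =>
      (h.blk i).2 ▸ Stab.rename_mem_V (h.blk i).1 (A.mem_V _)) (hsum l)]
    simp [hφ']
  have hπ := Stab.Alph.anti_of_good hl' h'.lt h'.blk
  have hT : E A S l' π σ' ∈ _ := Stab.Alph.prod_mem_Terms h'.lt h'.blk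
  simp only [Prod.Lex.toLex_le_toLex, neg_lt_neg_iff, neg_inj, neg_le_neg_iff, Nat.cast_lt,
    Nat.cast_inj, Nat.cast_le] at hle
  have hb := Z.bound hπ hρ (hle.elim le_of_lt fun h => h.1.le) hT
  obtain ⟨hΦ, hle⟩ := hle.resolve_left fun h => hne (h0 _ (Z.degLE_of_mem_I (hb.2.2 h) _))
  obtain ⟨he, hle⟩ := hle.resolve_left fun h => hne (h0 _ (hb.1.mono le_rfl (by omega)))
  have hk : SameKer S π ρ := by_contra fun hk => hne (h0 _ (he ▸ Z.bound_of_not_sameKer hπ hρ hΦ.le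
    hT (by rwa [h.image, h'.image, card_range, card_range]) hk))
  obtain ⟨γ, hγ⟩ := h.exists_equiv h' hk
  obtain ⟨s, hs⟩ : ∃ s : ℚ, Q.Dl S π ρ = s • Q.Dl S ρ ρ :=
    (Z.Dl_eq_or_neg hρ hπ (fun s hs t ht => (hk s hs t ht).symm) fun _ _ _ _ => Iff.rfl).elim
      (fun h => ⟨1, by rw [h, one_smul]⟩) fun h => ⟨-1, by rw [h, neg_one_smul]⟩
  have h2 := h1 π s (fun i => rename (σ' (γ.symm i)) (A.poly (l'.get (γ.symm i)).1))
    (fun i => (l'.get (γ.symm i)).2) hk (Z.al_congr hπ hρ hk) hs (fun i => by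
      have := Stab.rename_mem_V (h'.blk (γ.symm i)).1 (A.mem_V (l'.get (γ.symm i)).1)
      rwa [(h'.blk _).2, hγ, γ.apply_symm_apply] at this)
    (by rw [γ.symm.sum_comp fun i => (l'.get i).2, hsum, he])
  rw [← γ.prod_comp, ← γ.prod_comp] at h2
  simp only [γ.symm_apply_apply, ← hγ] at h2
  obtain ⟨h3, h4⟩ := mul_ne_zero_iff.1 (h2.symm.trans_ne hne)
  have h5 : _ = _ := by_contra fun h => right_ne_zero_of_mul h3 (if_neg h)
  refine ⟨γ, hγ, fun i => Prod.ext (by_contra fun hy => ?_) (by simpa using congrFun h5.symm (γ i))⟩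
  have h6 : A.blk (l'.get i).1 = A.blk (l.get (γ i)).1 :=
    A.blk_eq _ _ ((h'.cnt i).symm.trans (by rw [hγ]; exact h.cnt _))
  refine prod_ne_zero_iff.1 h4 i (mem_univ _) ?_
  rcases Quiv.rename_eq_or_neg (h.blk (γ i)).1 (h'.blk i).1 (A.mem_Inv (l'.get i).1)
    (by rw [(h'.blk i).2, hγ, h6, (h.blk _).2]) with h7 | h7 <;>
  simp only [LinearMap.comp_apply, AlgHom.toLinearMap_apply, h7, map_neg, hinv,
    hφ'' _ _ (Ne.symm hy) h6, neg_zero]

end Indep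

open Indep

theorem Stab.Alph.indep_all (S : Finset X)
    (T : {l : List (Fin A.n × ℕ) // Good A.odd l ∧ dimW A.dim l = Q.cnt S} → P X)
    (hT : ∀ l, A.IsT S l.1 (T l)) : LinearIndependent ℚ (fun l => Q.Av S (T l)) := by
  classical
  choose π σ h1 h2 h3 using hT
  have hP : ∀ l, Pl A S l.1 (π l) (σ l) := fun l => ⟨h1 l, h2 l⟩
  have hT : ∀ l, ∀ τ ∈ Q.Aut S, rename τ (T l) =
      Q.Kl S (π l ∘ τ.symm) * rename τ (E A S l.1 (π l) (σ l)) := fun l τ hτ => by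
    rw [h3, map_mul, Quiv.rename_Kl (Quiv.mem_Aut.1 hτ).1, Quiv.map_of_mem_Aut hτ, E]
  refine linearIndependent_iff'.2 fun F c hc l₁ hl₁ => by_contra fun hne => ?_
  obtain ⟨l, hl, hmin⟩ := exists_min_image (F.filter (c · ≠ 0)) (fun l => toLex (Z.Phi S (π l),
    toLex (-((l.1.map Prod.snd).sum : ℤ), -(l.1.length : ℤ)))) ⟨l₁, mem_filter.2 ⟨hl₁, hne⟩⟩
  obtain ⟨Ψ, hΨ, hΨ'⟩ := (hP l).exists_Psi l.2.1
  have key : ∀ l' ∈ F, c l' ≠ 0 → ∀ τ ∈ Q.Aut S, Ψ (rename τ (T l')) ≠ 0 →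
      ∃ γ : Fin l'.1.length ≃ Fin l.1.length, (∀ i : Fin l'.1.length,
        fib S (π l' ∘ τ.symm) i = fib S (π l) (γ i)) ∧ ∀ i, l.1.get (γ i) = l'.1.get i :=
    fun l' hl' hc' τ hτ h => hΨ' _ _ _ ((hP l').map hτ) l'.2.1 (by
      have := Z.Phi_map (Quiv.mem_Aut.1 hτ).1 S (π l')
      rw [Quiv.map_of_mem_Aut hτ] at this
      exact this ▸ hmin l' (mem_filter.2 ⟨hl', hc'⟩)) (by rwa [hT _ _ hτ, rename_E hτ] at h)
  have h4 := congrArg Ψ hc
  rw [map_zero, map_sum, sum_eq_single_of_mem l (mem_filter.1 hl).1 fun l' hl' hll => ?_, map_smul,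
    smul_eq_mul, mul_eq_zero, Quiv.Av_apply, map_sum] at h4
  · refine (sum_pos' (fun τ hτ => ?_) ⟨1, Quiv.one_mem_Aut S, ?_⟩).ne'
      (h4.resolve_left (mem_filter.1 hl).2)
    · by_cases h : Ψ (rename τ (T l)) = 0
      · rw [map_smul, h, smul_zero]
      obtain ⟨γ, hγ, hγ'⟩ := key l (mem_filter.1 hl).1 (mem_filter.1 hl).2 τ hτ h
      obtain ⟨s, h5, h6⟩ := (hP l).sign l.2.1 γ hγ' τ hτ hγ
      rw [hT _ _ hτ, ← mul_smul_comm, h6, mul_smul_comm, map_smul, hΨ _ s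
        (sameKer_of_fib ((hP l).map hτ).lt hγ) (Stab.Alph.anti_of_good l.2.1 ((hP l).map hτ).lt
          ((hP l).map hτ).blk) h5]
      exact mul_self_nonneg s
    · have := hΨ _ 1 (fun _ _ _ _ => Iff.rfl) (Stab.Alph.anti_of_good l.2.1 (h1 l) (h2 l))
        (one_smul _ _).symm
      rw [E, ← h3] at this
      simp [Quiv.eps_one, this]
  · by_cases hc' : c l' = 0
    · rw [hc', zero_smul, map_zero]
    rw [map_smul, Quiv.Av_apply, map_sum, sum_eq_zero fun τ hτ => ?_, smul_zero]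
    rw [map_smul, show Ψ (rename τ (T l')) = 0 from by_contra fun h => hll ?_, smul_zero]
    obtain ⟨γ, -, hγ⟩ := key l' hl' hc' τ hτ h
    refine Subtype.ext (List.Perm.eq_of_pairwise (fun a b _ _ => good_antisymm A.odd a b)
      l'.2.1 l.2.1 (Multiset.coe_eq_coe.1 ?_))
    rw [← List.ofFn_get l'.1, ← List.ofFn_get l.1, ← Fin.univ_val_map, ← Fin.univ_val_map,
      ← Multiset.map_univ_val_equiv γ, Multiset.map_map]
    exact Multiset.map_congr rfl fun i _ => (hγ i).symm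

end Crest.Agent.R59
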