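import Crest.Agent.R59.CohaDefs

/-! # Polynomial rings as tensor products over disjoint blocks of variables -/

set_option autoImplicit false

namespace Crest.Agent.R59.Tens
open MvPolynomial Finset

variable {X : Type}

/-- monic monomial -/
noncomputable abbrev mon (β : X →₀ ℕ) : P X := monomial β 1

theorem mon_add (β γ : X →₀ ℕ) : mon (β + γ) = mon β * mon γ := by simp [monomial_mul]

theorem lin_ext {N : Type} [AddCommGroup N] [Module ℚ N] {F G : P X →ₗ[ℚ] N}
    (h : ∀ β, F (mon β) = G (mon β)) : F = G :=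
  (basisMonomials X ℚ).ext h

theorem mon_mem {T : Set X} {β : X →₀ ℕ} (h : ∀ s, β s ≠ 0 → s ∈ T) : mon β ∈ supported ℚ T := by
  classical
  rw [mem_supported, vars_monomial one_ne_zero]
  exact fun s hs => h s (by simpa using hs)

theorem supp_induction {T : Set X} {p : P X → Prop}
    (hm : ∀ β : X →₀ ℕ, (∀ s, β s ≠ 0 → s ∈ T) → p (mon β)) (h0 : p 0)
    (hadd : ∀ x y, p x → p y → p (x + y)) (hs : ∀ (c : ℚ) x, p x → p (c • x)) {u : P X}
    (hu : u ∈ supported ℚ T) : p u := by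
  rw [u.as_sum]
  refine sum_induction _ p hadd h0 fun β hβ => ?_
  rw [show monomial β (coeff β u) = coeff β u • mon β by simp [smul_monomial]]
  exact hs _ _ (hm β fun s hs => mem_supported.1 hu
    ((mem_vars_iff_mem_support s).2 ⟨β, hβ, by simpa using hs⟩))

theorem supp_ext {N : Type} [AddCommGroup N] [Module ℚ N] {T : Set X} {F G : P X →ₗ[ℚ] N}
    (h : ∀ β : X →₀ ℕ, (∀ s, β s ≠ 0 → s ∈ T) → F (mon β) = G (mon β)) {u : P X}
    (hu : u ∈ supported ℚ T) : F u = G u :=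
  supp_induction (p := fun u => F u = G u) h (by simp) (fun x y hx hy => by simp [hx, hy])
    (fun c x hx => by simp [hx]) hu

theorem supp_mem {N : Type} [AddCommGroup N] [Module ℚ N] {T : Set X} {F : P X →ₗ[ℚ] N}
    {W : Submodule ℚ N} (h : ∀ β : X →₀ ℕ, (∀ s, β s ≠ 0 → s ∈ T) → F (mon β) ∈ W) {u : P X}
    (hu : u ∈ supported ℚ T) : F u ∈ W :=
  supp_induction (p := fun u => F u ∈ W) h (by simp)
    (fun x y hx hy => by simpa using W.add_mem hx hy)
    (fun c x hx => by simpa using W.smul_mem c hx) hu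

theorem all_mem {N : Type} [AddCommGroup N] [Module ℚ N] {F : P X →ₗ[ℚ] N}
    {W : Submodule ℚ N} (h : ∀ β : X →₀ ℕ, F (mon β) ∈ W) (u : P X) : F u ∈ W :=
  supp_mem (T := Set.univ) (fun β _ => h β) (by simp)

/-- an ideal is spanned by the products of generators and monomials -/
theorem span_mem {N : Type} [AddCommGroup N] [Module ℚ N] {G : Set (P X)} {F : P X →ₗ[ℚ] N}
    {W : Submodule ℚ N} (h : ∀ K ∈ G, ∀ β, F (K * mon β) ∈ W) {x : P X}
    (hx : x ∈ Ideal.span G) : F x ∈ W := by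
  suffices ∀ y, F (x * y) ∈ W by simpa using this 1
  induction hx using Submodule.span_induction with
  | mem K hK => exact all_mem (F := F ∘ₗ LinearMap.mulLeft ℚ K) (h K hK)
  | zero => simp
  | add a b _ _ ha hb => exact fun y => by simpa [add_mul] using W.add_mem (ha y) (hb y)
  | smul a b _ hb => exact fun y => by rw [smul_eq_mul, mul_comm a, mul_assoc]; exact hb _

variable [DecidableEq X]

theorem mon_split (B : Finset X) (β : X →₀ ℕ) :
    mon β = mon (β.filter (· ∈ B)) * mon (β.filter (· ∉ B)) := by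
  rw [← mon_add, Finsupp.filter_add_filter_not]

theorem mon_in (B : Finset X) (β : X →₀ ℕ) : mon (β.filter (· ∈ B)) ∈ supported ℚ (B : Set X) :=
  mon_mem fun s hs => by
    by_contra h
    exact hs (Finsupp.filter_apply_neg _ _ h)

theorem mon_out (B : Finset X) (β : X →₀ ℕ) :
    mon (β.filter (· ∉ B)) ∈ supported ℚ (B : Set X)ᶜ :=
  mon_mem fun _ hs h => hs (Finsupp.filter_apply_neg _ _ (not_not.2 h))

section two
variable {N : Type} [AddCommGroup N] [Module ℚ N]

/-- the linear map on `P = P(B) ⊗ P(Bᶜ)` induced by a bilinear map -/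
noncomputable def two (B : Finset X) (μ : P X →ₗ[ℚ] P X →ₗ[ℚ] N) : P X →ₗ[ℚ] N :=
  (basisMonomials X ℚ).constr ℚ fun β => μ (mon (β.filter (· ∈ B))) (mon (β.filter (· ∉ B)))

theorem two_mon (B : Finset X) (μ : P X →ₗ[ℚ] P X →ₗ[ℚ] N) (β : X →₀ ℕ) :
    two B μ (mon β) = μ (mon (β.filter (· ∈ B))) (mon (β.filter (· ∉ B))) :=
  (basisMonomials X ℚ).constr_basis ℚ _ β

theorem two_mul {B : Finset X} (μ : P X →ₗ[ℚ] P X →ₗ[ℚ] N) {v y : P X}
    (hv : v ∈ supported ℚ (B : Set X)) (hy : y ∈ supported ℚ (B : Set X)ᶜ) :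
    two B μ (v * y) = μ v y := by
  refine supp_ext (F := two B μ ∘ₗ LinearMap.mulRight ℚ y) (G := μ.flip y) (fun β hβ => ?_) hv
  refine supp_ext (F := two B μ ∘ₗ LinearMap.mulLeft ℚ (mon β)) (G := μ (mon β))
    (fun γ hγ => ?_) hy
  simp only [LinearMap.comp_apply, LinearMap.mulLeft_apply]
  rw [← mon_add, two_mon, Finsupp.filter_add, Finsupp.filter_add,
    (Finsupp.filter_eq_self_iff (· ∈ B) β).2 hβ, (Finsupp.filter_eq_self_iff (· ∉ B) γ).2 hγ,
    (Finsupp.filter_eq_zero_iff (· ∈ B) γ).2 fun s hs => by_contra fun h => hγ s h hs,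
    (Finsupp.filter_eq_zero_iff (· ∉ B) β).2 fun s hs => by_contra fun h => hs (hβ s h),
    add_zero, zero_add]

end two

/-- contraction of the variables outside `B` with a functional -/
noncomputable def ctr (B : Finset X) (φ : P X →ₗ[ℚ] ℚ) : P X →ₗ[ℚ] P X :=
  two B ((LinearMap.lsmul ℚ (P X) ∘ₗ φ).flip)

theorem ctr_mul {B : Finset X} (φ : P X →ₗ[ℚ] ℚ) {v y : P X}
    (hv : v ∈ supported ℚ (B : Set X)) (hy : y ∈ supported ℚ (B : Set X)ᶜ) :
    ctr B φ (v * y) = φ y • v :=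
  two_mul _ hv hy

theorem ctr_mon (B : Finset X) (φ : P X →ₗ[ℚ] ℚ) (β : X →₀ ℕ) :
    ctr B φ (mon β) = φ (mon (β.filter (· ∉ B))) • mon (β.filter (· ∈ B)) :=
  two_mon _ _ β

theorem ctr_mem (B : Finset X) (φ : P X →ₗ[ℚ] ℚ) (ξ : P X) :
    ctr B φ ξ ∈ supported ℚ (B : Set X) :=
  all_mem (W := (supported ℚ (B : Set X)).toSubmodule)
    (fun β => by rw [ctr_mon]; exact Subalgebra.smul_mem _ (mon_in B β) _) ξ

theorem two_congr {B : Finset X} {f f' g : P X →ₗ[ℚ] P X} {ξ : P X}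
    (h : ∀ ψ : P X →ₗ[ℚ] ℚ, f (ctr B (ψ ∘ₗ g) ξ) = f' (ctr B (ψ ∘ₗ g) ξ)) :
    two B ((LinearMap.mul ℚ (P X)).compl₁₂ f g) ξ =
      two B ((LinearMap.mul ℚ (P X)).compl₁₂ f' g) ξ := by
  have h1 : ∀ f : P X →ₗ[ℚ] P X, two B ((LinearMap.mul ℚ (P X)).compl₁₂ f g) =
      LinearMap.mul' ℚ (P X) ∘ₗ two B ((TensorProduct.mk ℚ (P X) (P X)).compl₁₂ f g) :=
    fun f => lin_ext fun β => by simp [two_mon]
  have h2 : ∀ (f : P X →ₗ[ℚ] P X) (γ : X →₀ ℕ), Finsupp.lapply γ ∘ₗ
      (TensorProduct.equivFinsuppOfBasisRight (basisMonomials X ℚ)).toLinearMap ∘ₗ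
        two B ((TensorProduct.mk ℚ (P X) (P X)).compl₁₂ f g) =
      f ∘ₗ ctr B ((basisMonomials X ℚ).coord γ ∘ₗ g) :=
    fun f γ => lin_ext fun β => by simp [two_mon, ctr_mon]
  rw [h1, h1, LinearMap.comp_apply, LinearMap.comp_apply]
  refine congrArg _ ((TensorProduct.equivFinsuppOfBasisRight (basisMonomials X ℚ)).injective
    (Finsupp.ext fun γ => ?_))
  exact (LinearMap.congr_fun (h2 f γ) ξ).trans ((h _).trans (LinearMap.congr_fun (h2 f' γ) ξ).symm)

section tens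
variable {ι A : Type} [DecidableEq ι] [CommRing A] [Algebra ℚ A] {T : Finset ι}
  {B : ι → Finset X}

/-- tensor product of linear maps on the blocks -/
noncomputable def tens (T : Finset ι) (B : ι → Finset X) (f : ι → P X →ₗ[ℚ] A) : P X →ₗ[ℚ] A :=
  (basisMonomials X ℚ).constr ℚ fun β => ∏ i ∈ T, f i (mon (β.filter (· ∈ B i)))

omit [DecidableEq ι] in
theorem tens_mon (T : Finset ι) (B : ι → Finset X) (f : ι → P X →ₗ[ℚ] A) (β : X →₀ ℕ) :
    tens T B f (mon β) = ∏ i ∈ T, f i (mon (β.filter (· ∈ B i))) :=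
  (basisMonomials X ℚ).constr_basis ℚ _ β

omit [DecidableEq ι] in
theorem tens_congr {f g : ι → P X →ₗ[ℚ] A} (h : ∀ i ∈ T, f i = g i) : tens T B f = tens T B g :=
  lin_ext fun β => by rw [tens_mon, tens_mon, prod_congr rfl fun i hi => by rw [h i hi]]

theorem tens_eq_two (hd : ∀ i ∈ T, ∀ j ∈ T, i ≠ j → Disjoint (B i) (B j)) {j : ι} (hj : j ∈ T)
    (f : ι → P X →ₗ[ℚ] A) :
    tens T B f = two (B j) ((LinearMap.mul ℚ A).compl₁₂ (f j) (tens (T.erase j) B f)) := by
  refine lin_ext fun β => ?_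
  rw [two_mon, LinearMap.compl₁₂_apply, LinearMap.mul_apply', tens_mon, tens_mon,
    ← mul_prod_erase _ _ hj]
  refine congrArg _ (prod_congr rfl fun i hi => ?_)
  congr 2
  ext s
  simp only [Finsupp.filter_apply]
  by_cases h : s ∈ B i
  · rw [if_pos h, if_pos h, if_pos (disjoint_left.1 (hd i (mem_of_mem_erase hi) j hj
      (ne_of_mem_erase hi)) h)]
  · rw [if_neg h, if_neg h]

theorem tens_mul (hd : ∀ i ∈ T, ∀ j ∈ T, i ≠ j → Disjoint (B i) (B j)) {j : ι} (hj : j ∈ T)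
    (f : ι → P X →ₗ[ℚ] A) {v y : P X} (hv : v ∈ supported ℚ (B j : Set X))
    (hy : y ∈ supported ℚ (B j : Set X)ᶜ) :
    tens T B f (v * y) = f j v * tens (T.erase j) B f y := by
  rw [tens_eq_two hd hj, two_mul _ hv hy]
  rfl

theorem tens_kill (hd : ∀ i ∈ T, ∀ j ∈ T, i ≠ j → Disjoint (B i) (B j)) {j : ι} (hj : j ∈ T)
    {f : ι → P X →ₗ[ℚ] A} {K : P X} (hK : K ∈ supported ℚ (B j : Set X))
    (hf : ∀ y, f j (K * y) = 0) (β : X →₀ ℕ) : tens T B f (K * mon β) = 0 := by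
  rw [mon_split (B j) β, ← mul_assoc, tens_mul hd hj f (mul_mem hK (mon_in _ β)) (mon_out _ β), hf,
    zero_mul]

theorem tens_prod (hd : ∀ i ∈ T, ∀ j ∈ T, i ≠ j → Disjoint (B i) (B j)) (f : ι → P X →ₗ[ℚ] A)
    {u : ι → P X} (hu : ∀ i ∈ T, u i ∈ supported ℚ (B i : Set X)) :
    tens T B f (∏ i ∈ T, u i) = ∏ i ∈ T, f i (u i) := by
  induction T using Finset.induction_on with
  | empty => exact (tens_mon ∅ B f 0).trans (by simp)
  | insert j T hj ih =>
    rw [prod_insert hj, prod_insert hj, tens_mul hd (mem_insert_self _ _) f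
      (hu j (mem_insert_self _ _)) (prod_mem fun i hi => supported_mono (fun s hs => disjoint_left.1
        (hd i (mem_insert_of_mem hi) j (mem_insert_self _ _) fun h => hj (h ▸ hi)) hs)
        (hu i (mem_insert_of_mem hi))), erase_insert hj,
      ih (fun a ha b hb => hd a (mem_insert_of_mem ha) b (mem_insert_of_mem hb))
        fun i hi => hu i (mem_insert_of_mem hi)]

end tens

/-- linear maps adapted to two subspaces -/
theorem exists_proj {M : Type} [AddCommGroup M] [Module ℚ M] (I V : Submodule ℚ M) :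
    ∃ q r : M →ₗ[ℚ] M, (∀ x, x - q x ∈ I) ∧ (∀ x ∈ I, q x = 0) ∧ (∀ x ∈ I, r x = 0) ∧
      (∀ x, r x ∈ V) ∧ ∀ x ∈ V, q x = r x := by
  obtain ⟨s, hs⟩ := I.mkQ.exists_rightInverse_of_surjective I.range_mkQ
  obtain ⟨s₀, hs₀⟩ := (I.mkQ.submoduleMap V).exists_rightInverse_of_surjective
    (LinearMap.range_eq_top.2 (LinearMap.submoduleMap_surjective _ _))
  obtain ⟨p, hp⟩ := (V.map I.mkQ).subtype.exists_leftInverse_of_injective (Submodule.ker_subtype _)
  have h1 : ∀ y, I.mkQ (s y) = y := LinearMap.congr_fun hs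
  have h2 : ∀ y, I.mkQ (s₀ y : M) = y := fun y => congrArg Subtype.val (LinearMap.congr_fun hs₀ y)
  have h3 : ∀ y : V.map I.mkQ, p y = y := LinearMap.congr_fun hp
  refine ⟨V.subtype ∘ₗ s₀ ∘ₗ p ∘ₗ I.mkQ +
    s ∘ₗ (LinearMap.id - (V.map I.mkQ).subtype ∘ₗ p) ∘ₗ I.mkQ, V.subtype ∘ₗ s₀ ∘ₗ p ∘ₗ I.mkQ,
    fun x => ?_, fun x hx => ?_, fun x hx => ?_, fun x => (s₀ _).2, fun x hx => ?_⟩
  · rw [← Submodule.Quotient.mk_eq_zero, ← Submodule.mkQ_apply]
    simp only [LinearMap.add_apply, LinearMap.comp_apply, map_sub, map_add, Submodule.subtype_apply,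
      LinearMap.sub_apply, LinearMap.id_apply, h1, h2]
    abel
  · simp [(Submodule.Quotient.mk_eq_zero I).2 hx]
  · simp [(Submodule.Quotient.mk_eq_zero I).2 hx]
  · have := h3 ⟨I.mkQ x, Submodule.mem_map_of_mem hx⟩
    simp only [LinearMap.add_apply, LinearMap.comp_apply, Submodule.subtype_apply,
      LinearMap.sub_apply, LinearMap.id_apply, this, sub_self, map_zero, add_zero]

/-- an element all of whose contractions lie in the subspaces `V i` is a combination of products of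
elements of the `V i`, modulo the ideals -/
theorem mem_of_ctr {ι : Type} [DecidableEq ι] {T : Finset ι} {B : ι → Finset X}
    (hd : ∀ i ∈ T, ∀ j ∈ T, i ≠ j → Disjoint (B i) (B j)) {G : ι → Set (P X)}
    (hG : ∀ i ∈ T, ∀ K ∈ G i, K ∈ supported ℚ (B i : Set X)) (V : ι → Submodule ℚ (P X))
    {J : Ideal (P X)} (hJ : ∀ i ∈ T, Ideal.span (G i) ≤ J) {S : Set X}
    (hS : ∀ s ∈ S, ∃ i ∈ T, s ∈ B i) {ξ : P X} (hξ : ξ ∈ supported ℚ S)
    (h : ∀ j ∈ T, ∀ φ : P X →ₗ[ℚ] ℚ, (∀ i ∈ T.erase j, ∀ x ∈ Ideal.span (G i), φ x = 0) →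
      ctr (B j) φ ξ ∈ V j) :
    ξ ∈ Submodule.span ℚ {η | ∃ u : ι → P X, (∀ i ∈ T, u i ∈ V i) ∧ η = ∏ i ∈ T, u i} ⊔
      J.restrictScalars ℚ := by
  choose q r h1 h2 h3 h4 h5 using fun i =>
    exists_proj ((Ideal.span (G i)).restrictScalars ℚ) (V i)
  have s1 : ξ - tens T B q ξ ∈ J.restrictScalars ℚ := by
    refine supp_mem (F := LinearMap.id - tens T B q) (fun β hβ => ?_) hξ
    have : β = ∑ i ∈ T, β.filter (· ∈ B i) := by
      ext s
      simp only [Finsupp.finsetSum_apply, Finsupp.filter_apply]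
      by_cases h0 : β s = 0
      · simp [h0]
      obtain ⟨i, hi, hs⟩ := hS s (hβ s h0)
      rw [sum_eq_single_of_mem i hi fun j hj hji =>
        if_neg (disjoint_left.1 (hd i hi j hj hji.symm) hs), if_pos hs]
    rw [LinearMap.sub_apply, LinearMap.id_apply, tens_mon, Submodule.restrictScalars_mem,
      ← Ideal.Quotient.eq, map_prod]
    conv_lhs => rw [this, mon, monomial_sum_one, map_prod]
    exact prod_congr rfl fun i hi => Ideal.Quotient.eq.2 (hJ i hi (h1 i _))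
  have s2 : ∀ U ⊆ T, tens T B (fun i => if i ∈ U then r i else q i) ξ = tens T B q ξ := by
    intro U hU
    induction U using Finset.induction_on with
    | empty => simp
    | insert j U hj ih =>
      have hjT := hU (mem_insert_self _ _)
      rw [← ih ((subset_insert _ _).trans hU), tens_eq_two hd hjT, tens_eq_two hd hjT,
        if_pos (mem_insert_self _ _), if_neg hj, tens_congr (T := T.erase j)
          (g := fun i => if i ∈ U then r i else q i) fun i hi => by simp [ne_of_mem_erase hi]]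
      refine two_congr fun ψ => (h5 j _ (h j hjT _ fun i hi x hx => ?_)).symm
      rw [LinearMap.comp_apply, (Submodule.mem_bot ℚ).1 (span_mem (fun K hK β => ?_) hx), map_zero]
      refine tens_kill (fun a ha b hb => hd a (mem_of_mem_erase ha) b (mem_of_mem_erase hb)) hi
        (hG i (mem_of_mem_erase hi) K hK) (fun y => ?_) β
      have : K * y ∈ Ideal.span (G i) := Ideal.mul_mem_right _ _ (Ideal.subset_span hK)
      split_ifs
      exacts [h3 i _ this, h2 i _ this]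
  rw [← add_sub_cancel (tens T B q ξ) ξ]
  refine Submodule.add_mem_sup ?_ s1
  rw [← s2 T subset_rfl]
  refine all_mem (fun β => Submodule.subset_span ?_) ξ
  refine ⟨_, fun i hi => ?_, tens_mon _ _ _ β⟩
  rw [if_pos hi]
  exact h4 i _

end Crest.Agent.R59.Tens
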