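import Crest.Agent.R59.CohaBasic
import Crest.Agent.R59.CohaTensorAux

/-! # Polynomial COHA: tensor decomposition over the blocks of a partition -/

set_option autoImplicit false

namespace Crest.Agent.R59
open MvPolynomial Finset

variable {C X : Type} [Fintype C] [DecidableEq C] [DecidableEq X] {Q : Quiv C X} {Z : Stab Q}
  {S : Finset X} {ρ : X → ℕ}

namespace Tens

omit [DecidableEq X] in
theorem fib_disjoint (S : Finset X) (ρ : X → ℕ) (T : Finset ℕ) :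
    ∀ i ∈ T, ∀ j ∈ T, i ≠ j → Disjoint (fib S ρ i) (fib S ρ j) := fun _ _ _ _ h =>
  disjoint_left.2 fun _ hs ht => h ((mem_filter.1 hs).2.symm.trans (mem_filter.1 ht).2)

/-- the generators of `I S ρ` -/
def gens (Z : Stab Q) (S : Finset X) (ρ : X → ℕ) : Set (P X) :=
  {f | ∃ (i : ℕ) (A : Finset X), A.Nonempty ∧ A ⊆ fib S ρ i ∧ Z.sl (fib S ρ i) < Z.sl A ∧
    f = Q.Kp A (fib S ρ i \ A)}

theorem gens_spec {K : P X} (hK : K ∈ gens Z S ρ) :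
    ∃ s ∈ S, K ∈ supported ℚ (fib S ρ (ρ s) : Set X) ∧ K ∈ Z.I0 (fib S ρ (ρ s)) := by
  obtain ⟨i, A, ⟨s, hs⟩, hA, hsl, rfl⟩ := hK
  obtain ⟨h1, rfl⟩ := mem_fib.1 (hA hs)
  refine ⟨s, h1, Q.Kp_mem_supported _ _ (coe_subset.2 hA) (coe_subset.2 sdiff_subset), ?_⟩
  have := Z.Kp_mem_I (S := fib S ρ (ρ s)) (ρ := fun _ => 0) (i := 0) ⟨s, hs⟩ (by rwa [fib_const])
    (by rwa [fib_const])
  rwa [fib_const] at this

theorem coeff_sh_ctr (B : Finset X) (τ : X → ℕ) (φ : P X →ₗ[ℚ] ℚ) (α : ℕ →₀ ℕ) (ξ : P X) :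
    coeff α (sh B τ (ctr B φ ξ)) = ctr B φ (coeff α (sh B τ ξ)) := by
  refine LinearMap.congr_fun (lin_ext
    (F := ((lcoeff (P X) α).restrictScalars ℚ ∘ₗ (sh B τ).toLinearMap) ∘ₗ ctr B φ)
    (G := ctr B φ ∘ₗ ((lcoeff (P X) α).restrictScalars ℚ ∘ₗ (sh B τ).toLinearMap)) fun β => ?_) ξ
  change coeff α (sh B τ (ctr B φ (mon β))) = ctr B φ (coeff α (sh B τ (mon β)))
  have h : sh B τ (mon (β.filter (· ∉ B))) = MvPolynomial.C (mon (β.filter (· ∉ B))) :=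
    sh_of_disjoint (B := (β.filter (· ∉ B)).support) τ
      (mon_mem fun s hs => Finsupp.mem_support_iff.2 hs)
      (disjoint_left.2 fun s hs hB =>
        Finsupp.mem_support_iff.1 hs (Finsupp.filter_apply_neg _ _ (not_not.2 hB)))
  rw [ctr_mon, map_smul, coeff_smul]
  conv_rhs => rw [mon_split B β, map_mul, h, mul_comm, coeff_C_mul, mul_comm,
    ctr_mul φ (coeff_sh_mem_supported B τ (mon_in B β) α) (mon_out B β)]

theorem ctr_mem_I {B : Finset X} {τ : X → ℕ} {φ : P X →ₗ[ℚ] ℚ}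
    (h1 : ∀ s ∈ B, fib S ρ (ρ s) = fib B τ (τ s))
    (h2 : ∀ s ∈ S, s ∉ B → Disjoint (fib S ρ (ρ s)) B ∧ ∀ x ∈ Z.I0 (fib S ρ (ρ s)), φ x = 0)
    {x : P X} (hx : x ∈ Z.I S ρ) : ctr B φ x ∈ Z.I B τ := by
  refine span_mem (G := gens Z S ρ) (W := (Z.I B τ).restrictScalars ℚ) (fun K hK β => ?_) hx
  obtain ⟨s, hs, k1, k2⟩ := gens_spec hK
  rw [mon_split B β]
  by_cases hB : s ∈ B
  · rw [h1 s hB] at k1 k2
    rw [← mul_assoc, ctr_mul φ (mul_mem (supported_mono (coe_subset.2 (fib_subset _ _ _)) k1)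
      (mon_in B β)) (mon_out B β)]
    exact Submodule.smul_mem _ _ (Ideal.mul_mem_right _ _ (Z.I0_fib_le B τ _ k2))
  · rw [mul_left_comm, ctr_mul φ (mon_in B β) (mul_mem (supported_mono
      (fun t ht => disjoint_left.1 (h2 s hs hB).1 ht) k1) (mon_out B β)),
      (h2 s hs hB).2 _ (Ideal.mul_mem_right _ _ k2), zero_smul]
    exact zero_mem _

theorem lex_lt {M a b x y : ℕ} (hx : x < M) (hy : y < M) :
    M * a + x < M * b + y ↔ a < b ∨ (a = b ∧ x < y) := by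
  rcases lt_trichotomy a b with h | rfl | h
  · have := Nat.mul_le_mul_left M (Nat.succ_le_of_lt h)
    rw [Nat.mul_succ] at this
    omega
  · omega
  · have := Nat.mul_le_mul_left M (Nat.succ_le_of_lt h)
    rw [Nat.mul_succ] at this
    omega

theorem lex_eq {M a b x y : ℕ} (hx : x < M) (hy : y < M) :
    M * a + x = M * b + y ↔ a = b ∧ x = y := by
  have h1 := lex_lt (a := a) (b := b) hx hy
  have h2 := lex_lt (a := b) (b := a) hy hx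
  omega

omit [DecidableEq X] in
/-- refinement of one block of an ordered partition -/
theorem exists_refine (S : Finset X) (ρ τ : X → ℕ) (j : ℕ) : ∃ ρ' : X → ℕ,
    (∀ s ∈ S, ∀ t ∈ S, ρ' s = ρ' t ↔ ρ s = ρ t ∧ (ρ s = j → τ s = τ t)) ∧
    ∀ s ∈ S, ∀ t ∈ S, ρ' s < ρ' t ↔ ρ s < ρ t ∨ (ρ s = j ∧ ρ t = j ∧ τ s < τ t) := by
  have h : ∀ s ∈ S, (if ρ s = j then τ s else 0) < S.sup τ + 1 := fun s hs => by
    have := le_sup (f := τ) hs
    split_ifs <;> omega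
  refine ⟨fun s => (S.sup τ + 1) * ρ s + if ρ s = j then τ s else 0, fun s hs t ht => ?_,
    fun s hs t ht => ?_⟩
  · rw [lex_eq (h s hs) (h t ht)]
    split_ifs <;> omega
  · rw [lex_lt (h s hs) (h t ht)]
    split_ifs <;> omega

omit [Fintype C] [DecidableEq C] [DecidableEq X] in
theorem al_refine {ρ' τ : X → ℕ} {j : ℕ}
    (h : ∀ s ∈ S, ∀ t ∈ S, ρ' s < ρ' t ↔ ρ s < ρ t ∨ (ρ s = j ∧ ρ t = j ∧ τ s < τ t)) :
    Q.al S ρ' = Q.al S ρ + Q.al (fib S ρ j) τ := by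
  simp only [Quiv.al, fib, sum_filter, ← sum_add_distrib]
  refine sum_congr rfl fun s hs => ?_
  split_ifs with h1
  · rw [← sum_add_distrib]
    refine sum_congr rfl fun t ht => ?_
    simp only [h s hs t ht]
    split_ifs <;> omega
  · rw [add_zero]
    refine sum_congr rfl fun t ht => ?_
    simp only [h s hs t ht, h1, false_and, or_false]

theorem ctr_mem_V (hρ : Z.Pure S ρ) {ξ : P X}
    (h : ∀ ρ' : X → ℕ, Z.Pure S ρ' → (∀ s ∈ S, ∀ t ∈ S, ρ' s = ρ' t → ρ s = ρ t) →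
      DegLE (Z.I S ρ') S ρ' ξ ((Q.al S ρ' : ℤ) - Q.al S ρ) ∧
      ((S.image ρ).card < (S.image ρ').card →
        DegLE (Z.I S ρ') S ρ' ξ ((Q.al S ρ' : ℤ) - Q.al S ρ - 1)))
    {j : ℕ} {φ : P X →ₗ[ℚ] ℚ}
    (hφ : ∀ i ∈ (S.image ρ).erase j, ∀ x ∈ Z.I0 (fib S ρ i), φ x = 0) :
    ctr (fib S ρ j) φ ξ ∈ Z.V (fib S ρ j) := by
  refine ⟨ctr_mem _ _ _, fun τ hτ => ?_⟩
  obtain ⟨ρ', e1, e2⟩ := exists_refine S ρ τ j
  have f1 : ∀ s ∈ fib S ρ j, fib S ρ' (ρ' s) = fib (fib S ρ j) τ (τ s) := by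
    intro s hs
    obtain ⟨hs, hj⟩ := mem_fib.1 hs
    ext t
    simp only [mem_fib]
    constructor
    · rintro ⟨ht, h'⟩
      have := (e1 t ht s hs).1 h'
      exact ⟨⟨ht, this.1.trans hj⟩, this.2 (this.1.trans hj)⟩
    · exact fun h' => ⟨h'.1.1, (e1 t h'.1.1 s hs).2 ⟨h'.1.2.trans hj.symm, fun _ => h'.2⟩⟩
  have f2 : ∀ s ∈ S, ρ s ≠ j → fib S ρ' (ρ' s) = fib S ρ (ρ s) := by
    intro s hs hj
    ext t
    simp only [mem_fib]
    refine and_congr_right fun ht => (e1 t ht s hs).trans ⟨fun h' => h'.1, fun h' => ⟨h', ?_⟩⟩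
    exact fun h'' => (hj (h'.symm.trans h'')).elim
  have hp : Z.Pure S ρ' := by
    intro s hs
    by_cases hj : ρ s = j
    · rw [f1 s (mem_fib.2 ⟨hs, hj⟩), hτ s (mem_fib.2 ⟨hs, hj⟩), ← hj, hρ s hs]
    · rw [f2 s hs hj, hρ s hs]
  have tr : ∀ n : ℤ, DegLE (Z.I S ρ') S ρ' ξ n →
      DegLE (Z.I (fib S ρ j) τ) (fib S ρ j) τ (ctr (fib S ρ j) φ ξ) n := by
    intro n hn α hα
    rw [coeff_sh_ctr]
    refine ctr_mem_I f1 (fun s hs hB => ?_) (((hn.restrict (fib_subset S ρ j) fun s hs t ht hst =>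
      ?_).relabel fun s hs t ht hst => ?_) α hα)
    · have hj : ρ s ≠ j := fun hj => hB (mem_fib.2 ⟨hs, hj⟩)
      rw [f2 s hs hj]
      exact ⟨fib_disjoint S ρ {ρ s, j} _ (by simp) _ (by simp) hj,
        hφ _ (mem_erase.2 ⟨hj, mem_image_of_mem _ hs⟩)⟩
    · exact mem_fib.2 ⟨ht, ((e1 s (mem_fib.1 hs).1 t ht).1 hst).1.symm.trans (mem_fib.1 hs).2⟩
    · exact ((e1 s (mem_fib.1 hs).1 t (mem_fib.1 ht).1).1 hst).2 (mem_fib.1 hs).2
  have hr : ∀ s ∈ S, ∀ t ∈ S, ρ' s = ρ' t → ρ s = ρ t := fun s hs t ht h' =>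
    ((e1 s hs t ht).1 h').1
  obtain ⟨g1, g2⟩ := h ρ' hp hr
  rw [al_refine e2, Nat.cast_add, add_sub_cancel_left] at g1 g2
  rw [add_zero]
  refine ⟨tr _ g1, fun hc => tr _ (g2 (lt_of_not_ge fun hle => hc.not_ge ?_))⟩
  rw [card_le_one]
  simp only [mem_image, mem_fib]
  rintro _ ⟨s, hs, rfl⟩ _ ⟨t, ht, rfl⟩
  exact ((e1 s hs.1 t ht.1).1 ((sameKer_of_card hr hle s hs.1 t ht.1).2
    (hs.2.trans ht.2.symm))).2 hs.2

end Tens

open Tens

/-- product of functionals which vanish on the unstable ideals of the blocks -/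
theorem Stab.exists_prod_functional (φ : ℕ → P X →ₗ[ℚ] ℚ)
    (hφ : ∀ i ∈ S.image ρ, ∀ f ∈ Z.I0 (fib S ρ i), φ i f = 0) :
    ∃ Φ : P X →ₗ[ℚ] ℚ, (∀ f ∈ Z.I S ρ, Φ f = 0) ∧
      ∀ u : ℕ → P X, (∀ i ∈ S.image ρ, u i ∈ supported ℚ (fib S ρ i : Set X)) →
        Φ (∏ i ∈ S.image ρ, u i) = ∏ i ∈ S.image ρ, φ i (u i) := by
  refine ⟨tens (S.image ρ) (fib S ρ) φ, fun f hf => (Submodule.mem_bot ℚ).1
    (span_mem (G := gens Z S ρ) (fun K hK β => ?_) hf),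
    fun u hu => tens_prod (fib_disjoint S ρ _) φ hu⟩
  obtain ⟨s, hs, k1, k2⟩ := gens_spec hK
  exact tens_kill (fib_disjoint S ρ _) (mem_image_of_mem ρ hs) k1
    (fun y => hφ _ (mem_image_of_mem ρ hs) _ (Ideal.mul_mem_right _ _ k2)) β

/-- an element satisfying the generator conditions blockwise is a combination of products of
generators, modulo the unstable ideal -/
theorem Stab.tensor_V (hρ : Z.Pure S ρ) {ξ : P X} (hξ : ξ ∈ supported ℚ (S : Set X))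
    (h : ∀ ρ' : X → ℕ, Z.Pure S ρ' → (∀ s ∈ S, ∀ t ∈ S, ρ' s = ρ' t → ρ s = ρ t) →
      DegLE (Z.I S ρ') S ρ' ξ ((Q.al S ρ' : ℤ) - Q.al S ρ) ∧
      ((S.image ρ).card < (S.image ρ').card →
        DegLE (Z.I S ρ') S ρ' ξ ((Q.al S ρ' : ℤ) - Q.al S ρ - 1))) :
    ξ ∈ Submodule.span ℚ (Z.Terms S ρ 0) ⊔ (Z.I S ρ).restrictScalars ℚ := by
  have := mem_of_ctr (fib_disjoint S ρ (S.image ρ))
    (G := fun i => gens Z (fib S ρ i) fun _ => 0)
    (fun i _ K hK => by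
      obtain ⟨s, -, k1, -⟩ := gens_spec hK
      rwa [fib_const] at k1) (fun i => Z.V (fib S ρ i))
    (fun i _ => Z.I0_fib_le S ρ i) (fun s hs => ⟨ρ s, mem_image_of_mem ρ hs, mem_fib.2 ⟨hs, rfl⟩⟩)
    hξ fun j _ φ hφ => ctr_mem_V hρ h hφ
  refine SetLike.le_def.1 (sup_le_sup_right (Submodule.span_mono ?_) _) this
  rintro _ ⟨u, hu, rfl⟩
  exact ⟨u, fun _ => 0, hu, by simp, by simp⟩

end Crest.Agent.R59
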