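import Crest.Agent.R59.CohaBound
import Crest.Agent.R59.CohaTensor
import Crest.Agent.R59.CohaPerm

/-! # Polynomial COHA: auxiliary lemmas for the linear independence -/

set_option autoImplicit false

namespace Crest.Agent.R59.Indep
open MvPolynomial Finset

variable {C X : Type} [Fintype C] [DecidableEq C] [DecidableEq X] {Q : Quiv C X}
  {Z : Stab Q} {S : Finset X} {ρ : X → ℕ} {k : ℕ}

theorem exists_prod_functional_fin (hρ : S.image ρ = range k) (φ : Fin k → P X →ₗ[ℚ] ℚ)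
    (hφ : ∀ i : Fin k, ∀ f ∈ Z.I0 (fib S ρ i), φ i f = 0) :
    ∃ Φ : P X →ₗ[ℚ] ℚ, (∀ f ∈ Z.I S ρ, Φ f = 0) ∧
      ∀ u : ℕ → P X, (∀ i : Fin k, u i ∈ supported ℚ (fib S ρ i : Set X)) →
        Φ (∏ i : Fin k, u i) = ∏ i, φ i (u i) := by
  obtain ⟨Φ, h1, h2⟩ := Z.exists_prod_functional (S := S) (ρ := ρ)
    (fun n => if h : n < k then φ ⟨n, h⟩ else 0) fun i hi f hf => by
      have hi' : i < k := mem_range.1 (hρ ▸ hi)
      rw [dif_pos hi']
      exact hφ ⟨i, hi'⟩ f hf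
  refine ⟨Φ, h1, fun u hu => ?_⟩
  have := h2 u fun i hi => hu ⟨i, mem_range.1 (hρ ▸ hi)⟩
  rw [hρ, prod_range, prod_range] at this
  simpa using this

theorem top_fin (hρ : S.image ρ = range k) {π : X → ℕ} (hk : SameKer S π ρ) {u : ℕ → P X}
    {j : ℕ → ℕ} (hu : ∀ i : Fin k, u i ∈ Z.V (fib S ρ i)) (α : ℕ →₀ ℕ)
    (hα : Finsupp.degree α = Q.al S π + ∑ i : Fin k, j i) :
    coeff α (sh S ρ (Q.Kl S π * ∏ i : Fin k, (u i * pb (fib S ρ i) ^ j i))) -
      coeff α (Q.Dl S π ρ * ∏ i : Fin k, MvPolynomial.X (i : ℕ) ^ j i) •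
        ∏ i : Fin k, u i ∈ Z.I S ρ := by
  obtain ⟨γ, hγ⟩ := exists_relabel fun s hs t ht => (hk s hs t ht).1
  have h1 : (S.image π).image γ = range k := by
    rw [← hρ, image_image]
    exact image_congr fun s hs => (hγ s hs).symm
  have h2 : Set.InjOn γ (S.image π) := by
    simp only [coe_image, Set.InjOn, Set.forall_mem_image]
    intro s hs t ht h
    exact (hk s hs t ht).2 (by rw [hγ s hs, hγ t ht, h])
  have h3 : ∀ i ∈ S.image π, fib S π i = fib S ρ (γ i) := by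
    simp only [forall_mem_image]
    intro s hs
    rw [hk.fib_eq hs, hγ s hs]
  have h4 := Z.top hk hγ (u := fun i => u (γ i)) (j := fun i => j (γ i)) (fun i hi => by
    rw [h3 i hi]
    exact hu ⟨γ i, mem_range.1 (h1 ▸ mem_image_of_mem γ hi)⟩) α (by
      rw [hα, ← sum_image h2, h1, sum_range])
  rw [prod_congr rfl fun i hi => by rw [h3 i hi],
    ← prod_image (f := fun i => u i * pb (fib S ρ i) ^ j i) h2,
    ← prod_image (f := fun i => MvPolynomial.X i ^ j i) h2, ← prod_image h2, h1, prod_range,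
    prod_range, prod_range] at h4
  exact h4

theorem coeff_prod_X_pow (j j₀ : Fin k → ℕ) :
    coeff (∑ i : Fin k, Finsupp.single (i : ℕ) (j₀ i))
      (∏ i : Fin k, MvPolynomial.X (i : ℕ) ^ j i : MvPolynomial ℕ ℚ) = if j = j₀ then 1 else 0 := by
  simp only [X_pow_eq_monomial, ← monomial_sum_one, coeff_monomial]
  refine if_congr ⟨fun h => funext fun i => ?_, fun h => by rw [h]⟩ rfl rfl
  simpa [Finsupp.finsetSum_apply, Finsupp.single_apply, Fin.val_inj] using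
    DFunLike.congr_fun h (i : ℕ)

/-- The functional that reads the top coefficient. -/
theorem exists_Psi (hρ : S.image ρ = range k) (φ : Fin k → P X →ₗ[ℚ] ℚ)
    (hφ : ∀ i : Fin k, ∀ f ∈ Z.I0 (fib S ρ i), φ i f = 0) (j₀ : Fin k → ℕ) :
    ∃ Ψ : P X →ₗ[ℚ] ℚ,
      (∀ ξ, DegLE (Z.I S ρ) S ρ ξ (Q.al S ρ + (∑ i, j₀ i : ℕ) - 1) → Ψ ξ = 0) ∧
      ∀ (π : X → ℕ) (s : ℚ) (u : Fin k → P X) (j : Fin k → ℕ), SameKer S π ρ →
        Q.al S π = Q.al S ρ → Q.Dl S π ρ = s • Q.Dl S ρ ρ → (∀ i : Fin k, u i ∈ Z.V (fib S ρ i)) →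
        ∑ i, j i = ∑ i, j₀ i → Ψ (Q.Kl S π * ∏ i : Fin k, (u i * pb (fib S ρ i) ^ j i)) =
          s * (if j = j₀ then 1 else 0) * ∏ i, φ i (u i) := by
  obtain ⟨Φ, h1, h2⟩ := exists_prod_functional_fin hρ φ hφ
  obtain ⟨g, hg⟩ := (LinearMap.mulLeft ℚ (Q.Dl S ρ ρ)).exists_leftInverse_of_injective
    (LinearMap.ker_eq_bot.2 (mul_right_injective₀ (Q.Dl_ne_zero S fun _ _ _ _ h => h)))
  let Φ' : MvPolynomial ℕ (P X) →ₗ[ℚ] MvPolynomial ℕ ℚ :=
    (AddMonoidAlgebra.coeffLinearEquiv ℚ).symm.toLinearMap ∘ₗ Finsupp.mapRange.linearMap Φ ∘ₗ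
      (AddMonoidAlgebra.coeffLinearEquiv ℚ).toLinearMap
  have hΦ' : ∀ f α, coeff α (Φ' f) = Φ (coeff α f) := fun _ _ => rfl
  refine ⟨lcoeff ℚ (∑ i : Fin k, Finsupp.single (i : ℕ) (j₀ i)) ∘ₗ g ∘ₗ
    homogeneousComponent (Q.al S ρ + ∑ i, j₀ i) ∘ₗ Φ' ∘ₗ (sh S ρ).toLinearMap, fun ξ hξ => ?_,
    fun π s u j hk hal hs hu hj => ?_⟩
  · have : homogeneousComponent (Q.al S ρ + ∑ i, j₀ i) (Φ' (sh S ρ ξ)) = 0 := by
      ext α
      rw [coeff_homogeneousComponent, coeff_zero, hΦ']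
      split_ifs with h
      · exact h1 _ (hξ α (by rw [h]; push_cast; omega))
      · rfl
    simp [this]
  · let u' : ℕ → P X := fun n => if h : n < k then u ⟨n, h⟩ else 0
    let j' : ℕ → ℕ := fun n => if h : n < k then j ⟨n, h⟩ else 0
    have hu' : ∀ i : Fin k, u' i = u i := fun i => dif_pos i.2
    have hj' : ∀ i : Fin k, j' i = j i := fun i => dif_pos i.2
    have h3 : homogeneousComponent (Q.al S ρ + ∑ i, j₀ i)
        (Φ' (sh S ρ (Q.Kl S π * ∏ i : Fin k, (u i * pb (fib S ρ i) ^ j i)))) =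
        (∏ i, φ i (u i)) • (Q.Dl S π ρ * ∏ i : Fin k, MvPolynomial.X (i : ℕ) ^ j i) := by
      ext α
      rw [coeff_homogeneousComponent, coeff_smul, hΦ']
      split_ifs with h
      · have h4 := h1 _ (top_fin hρ hk (u := u') (j := j') (fun i => hu' i ▸ hu i) α
          (by simp only [h, hal, hj', hj]))
        rw [map_sub, map_smul, h2 u' fun i => hu' i ▸ (hu i).1, sub_eq_zero] at h4
        simpa only [hu', hj', smul_eq_mul, mul_comm] using h4
      · rw [((Q.Dl_isHomogeneous S π ρ).mul (IsHomogeneous.prod _ _ _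
          fun i _ => isHomogeneous_X_pow _ _)).coeff_eq_zero (by rwa [hal, hj]), smul_zero]
    have h5 : ∀ m, g (Q.Dl S ρ ρ * m) = m := fun m => LinearMap.congr_fun hg m
    simp only [LinearMap.comp_apply, AlgHom.toLinearMap_apply, h3, hs, smul_mul_assoc, map_smul, h5,
      lcoeff_apply, coeff_prod_X_pow, smul_eq_mul]
    ring

/-- Permutations preserving a sorted family are products of adjacent transpositions. -/
theorem perm_ind {β : Type} {R : β → β → Prop} (hR : ∀ a b, R a b → R b a → a = b)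
    (f : Fin k → β) (hf : ∀ i j, i < j → R (f i) (f j)) (p : Equiv.Perm (Fin k) → Prop) (h1 : p 1)
    (hs : ∀ (γ : Equiv.Perm (Fin k)) (i j : Fin k), (j : ℕ) = i + 1 → f i = f j →
      p γ → p (γ * Equiv.swap i j))
    (γ : Equiv.Perm (Fin k)) (hγ : ∀ i, f (γ i) = f i) : p γ := by
  induction h : toLex (⇑γ) using WellFoundedLT.induction generalizing γ with
  | ind x ih =>
    subst h
    by_cases hm : StrictMono γ
    · rwa [show γ = 1 from Equiv.ext fun i => hm.apply_eq]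
    obtain ⟨i, j, hij, hlt⟩ : ∃ i j : Fin k, (j : ℕ) = i + 1 ∧ γ j < γ i := by
      cases k with
      | zero => exact absurd (fun i => i.elim0) hm
      | succ k =>
        obtain ⟨i, hi⟩ := not_forall.1 (mt Fin.strictMono_iff_lt_succ.2 hm)
        exact ⟨i.castSucc, i.succ, rfl, lt_of_le_of_ne (not_lt.1 hi)
          (γ.injective.ne (Fin.castSucc_lt_succ (i := i)).ne')⟩
    have hij' : i < j := by rw [Fin.lt_def]; omega
    have he : f i = f j := hR _ _ (hf i j hij') (by rw [← hγ i, ← hγ j]; exact hf _ _ hlt)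
    have := hs (γ * Equiv.swap i j) i j hij he (ih _ ⟨i, fun l hl => ?_, ?_⟩ _ (fun l => ?_) rfl)
    · rwa [mul_assoc, Equiv.swap_mul_self, mul_one] at this
    · simp [Equiv.swap_apply_of_ne_of_ne hl.ne (hl.trans hij').ne]
    · simpa using hlt
    · rw [Equiv.Perm.mul_apply, hγ, Equiv.swap_apply_def]
      split_ifs with h h' <;> simp [*]

variable [Fintype X]

theorem exists_dual (A : Z.Alph) (y : Fin A.n) : ∃ φ : P X →ₗ[ℚ] ℚ,
    (∀ f ∈ Z.I0 (A.blk y), φ f = 0) ∧ φ (A.poly y) = 1 ∧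
      ∀ y', y' ≠ y → A.blk y' = A.blk y → φ (A.poly y') = 0 := by
  let v : Fin A.n → P X := fun y' => if y' ≠ y ∧ A.blk y' = A.blk y then A.poly y' else 0
  have h : A.poly y ∉ (Z.I0 (A.blk y)).restrictScalars ℚ ⊔ Submodule.span ℚ (Set.range v) := by
    intro h
    obtain ⟨f, hf, _, h', he⟩ := Submodule.mem_sup.1 h
    obtain ⟨c, rfl⟩ := (Submodule.mem_span_range_iff_exists_fun ℚ).1 h'
    have := A.indep (A.blk y) (fun y' => (if y' = y then 1 else 0) -
      if y' ≠ y ∧ A.blk y' = A.blk y then c y' else 0)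
      (fun y' hy' => by rw [if_neg (fun e => hy' (by rw [e])), if_neg fun e => hy' e.2, sub_zero])
      (by
        simp only [sub_smul, sum_sub_distrib, ite_smul, one_smul, zero_smul, sum_ite_eq',
          mem_univ, if_true, ← he, v, smul_ite, smul_zero, add_sub_cancel_right]
        exact hf) y
    simp at this
  obtain ⟨φ, h1, h2⟩ := LinearMap.exists_extend_of_notMem (0 : _ →ₗ[ℚ] ℚ) h 1
  refine ⟨φ, fun f hf => LinearMap.congr_fun h1 ⟨f, Submodule.mem_sup_left hf⟩, h2,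
    fun y' h3 h4 => LinearMap.congr_fun h1 ⟨_, Submodule.mem_sup_right
      (Submodule.subset_span ⟨y', if_pos ⟨h3, h4⟩⟩)⟩⟩

omit [Fintype C] [DecidableEq C] in
/-- A block preserving automorphism acts on a product of invariants by its sign. -/
theorem rename_prod_of_blocks {ξ : Fin k → P X} (hξ : ∀ i : Fin k, ξ i ∈ Q.Inv (fib S ρ i))
    (m : ℕ) (hm : m ≤ k) {τ : Equiv.Perm X} (hτ : τ ∈ Q.Aut S) (h : ∀ s ∈ S, ρ (τ s) = ρ s)
    (h' : ∀ s ∈ S, m ≤ ρ s → τ s = s) : rename τ (∏ i, ξ i) = Q.eps τ • ∏ i, ξ i := by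
  induction m generalizing τ with
  | zero =>
    obtain rfl : τ = 1 := Equiv.ext fun s => by
      by_cases hs : s ∈ S
      exacts [h' s hs (Nat.zero_le _), (Quiv.mem_Aut.1 hτ).2 s hs]
    simp [Quiv.eps_one]
  | succ m ih =>
    obtain ⟨hG, hS⟩ := Quiv.mem_Aut.1 hτ
    have h1 : ∀ s, τ s ∈ fib S ρ m ↔ s ∈ fib S ρ m := fun s => by
      by_cases hs : s ∈ S
      · have : τ s ∈ S := by
          by_contra h2
          exact h2 ((τ.injective (hS _ h2)).symm ▸ hs)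
        simp [mem_fib, hs, this, h s hs]
      · rw [hS s hs]
    obtain ⟨κ, hκ, hκ'⟩ : ∃ κ ∈ Q.Aut (fib S ρ m), ∀ s ∈ fib S ρ m, κ s = τ s :=
      ⟨Equiv.Perm.ofSubtype (τ.subtypePerm h1), Quiv.mem_Aut.2 ⟨fun s => by
        by_cases hs : s ∈ fib S ρ m
        · rw [Equiv.Perm.ofSubtype_subtypePerm_of_mem _ hs, hG]
        · rw [Equiv.Perm.ofSubtype_apply_of_not_mem _ hs],
        fun s hs => Equiv.Perm.ofSubtype_apply_of_not_mem _ hs⟩,
        fun s hs => Equiv.Perm.ofSubtype_subtypePerm_of_mem _ hs⟩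
    have hκS := Quiv.inv_mem_Aut (Quiv.Aut_mono (fib_subset S ρ m) hκ)
    have h2 : ∀ s ∈ fib S ρ m, (κ⁻¹ * τ) s = s := fun s hs => by simp [← hκ' s hs]
    have h3 : ∀ s ∉ fib S ρ m, (κ⁻¹ * τ) s = τ s := fun s hs =>
      (Quiv.mem_Aut.1 (Quiv.inv_mem_Aut hκ)).2 _ (mt (h1 s).1 hs)
    have h4 := ih (Nat.le_of_succ_le hm) (Quiv.mul_mem_Aut hκS hτ) (fun s hs => by
      by_cases hs' : s ∈ fib S ρ m
      · rw [h2 s hs']
      · rw [h3 s hs', h s hs]) fun s hs hms => by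
      by_cases hs' : s ∈ fib S ρ m
      · exact h2 s hs'
      · rw [h3 s hs', h' s hs (lt_of_le_of_ne hms fun e => hs' (mem_fib.2 ⟨hs, e.symm⟩))]
    have h5 : rename κ (∏ i, ξ i) = Q.eps κ • ∏ i, ξ i := by
      rw [map_prod, ← mul_prod_erase _ _ (mem_univ ⟨m, hm⟩), ← mul_prod_erase _ ξ (mem_univ ⟨m, hm⟩),
        (hξ ⟨m, hm⟩).2 κ hκ, smul_mul_assoc, prod_congr rfl fun i hi => ?_]
      refine Quiv.rename_of_disjoint hκ (disjoint_left.2 fun s hs hs' => ?_) (hξ i).1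
      exact ne_of_mem_erase hi (Fin.ext ((mem_fib.1 hs).2.symm.trans (mem_fib.1 hs').2))
    have hκG := (Quiv.mem_Aut.1 hκ).1
    conv_lhs => rw [← mul_inv_cancel_left κ τ, Equiv.Perm.coe_mul, ← rename_rename, h4, map_smul,
      h5, smul_smul, mul_comm, ← Quiv.eps_mul hκG (hκG.inv.mul hG), mul_inv_cancel_left]

end Crest.Agent.R59.Indep
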