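import Crest.Agent.R59.CohaPerm

/-! # Polynomial COHA: the alphabet of the trivial stability -/

set_option autoImplicit false

namespace Crest.Agent.R59
open MvPolynomial Finset

section aux
variable {C X : Type} [Fintype C] [DecidableEq C] [DecidableEq X] {Q : Quiv C X}

omit [Fintype C] [DecidableEq X] in
theorem triv_cnt_singleton (s : X) : Q.cnt {s} = Pi.single (Q.col s) 1 := by
  funext c
  simp only [Quiv.cnt, filter_singleton, Pi.single_apply]
  by_cases h : Q.col s = c
  · simp [h]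
  · simp [h, Ne.symm h]

/-- singleton blocks are never destabilised -/
theorem triv_I_eq_bot (Z : Stab Q) {S : Finset X} {ρ : X → ℕ}
    (h : ∀ s ∈ S, ∀ t ∈ S, ρ s = ρ t → s = t) : Z.I S ρ = ⊥ := by
  rw [Stab.I, Ideal.span_eq_bot]
  rintro f ⟨i, A, ⟨s, hs⟩, hA, hlt, -⟩
  have : A = fib S ρ i := by
    refine Subset.antisymm hA fun t ht => ?_
    have h1 := mem_fib.1 (hA hs)
    have h2 := mem_fib.1 ht
    rwa [h t h2.1 s h1.1 (h2.2.trans h1.2.symm)]
  rw [this] at hlt
  exact absurd hlt (lt_irrefl _)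

theorem triv_I0_singleton (Z : Stab Q) (s : X) : Z.I0 {s} = ⊥ :=
  triv_I_eq_bot Z fun a ha b hb _ => by rw [mem_singleton.1 ha, mem_singleton.1 hb]

/-- a translation invariant polynomial in one variable is constant -/
theorem triv_const {t : X} {v : P X} (hv : v ∈ supported ℚ (({t} : Finset X) : Set X))
    (h : DegLE ⊥ {t} (fun _ => 0) v 0) : ∃ k : ℚ, v = k • (1 : P X) := by
  have h1 : sh {t} (fun _ => 0) v = MvPolynomial.C v := by
    ext1 α
    rw [coeff_C]
    split_ifs with h0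
    · rw [← h0, coeff_zero_sh]
    · refine (Ideal.mem_bot).1 (h α ?_)
      have : Finsupp.degree α ≠ 0 := fun e => h0 ((Finsupp.degree_eq_zero_iff α).1 e).symm
      omega
  let ev : MvPolynomial ℕ (P X) →ₐ[ℚ] P X :=
    (aeval (R := P X) fun _ : ℕ => -(MvPolynomial.X t : P X)).restrictScalars ℚ
  have h2 : ∀ u ∈ supported ℚ (({t} : Finset X) : Set X),
      ∃ k : ℚ, ev (sh {t} (fun _ => 0) u) = k • (1 : P X) := by
    intro u hu
    rw [supported_eq_adjoin_X] at hu
    induction hu using Algebra.adjoin_induction with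
    | mem x hx =>
      obtain ⟨s, hs, rfl⟩ := hx
      have hs' : s = t := by simpa using hs
      exact ⟨0, by simp [hs', sh, ev]⟩
    | algebraMap r => exact ⟨r, by rw [AlgHom.commutes, AlgHom.commutes, Algebra.algebraMap_eq_smul_one]⟩
    | add x y _ _ hx hy =>
      obtain ⟨k, hk⟩ := hx
      obtain ⟨k', hk'⟩ := hy
      exact ⟨k + k', by rw [map_add, map_add, hk, hk', add_smul]⟩
    | mul x y _ _ hx hy =>
      obtain ⟨k, hk⟩ := hx
      obtain ⟨k', hk'⟩ := hy
      exact ⟨k * k', by rw [map_mul, map_mul, hk, hk', smul_mul_smul_comm, mul_one]⟩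
  obtain ⟨k, hk⟩ := h2 v hv
  refine ⟨k, ?_⟩
  rw [← hk, h1]
  simp [ev]

omit [DecidableEq C] [DecidableEq X] in
/-- the slope of a colour -/
theorem triv_term (Z : Stab Q) (s : X) (μ : ℚ) :
    (Z.z (Q.col s) : ℚ) - μ * (Z.w (Q.col s) : ℚ) =
      ((Z.z (Q.col s) : ℚ) / (Z.w (Q.col s) : ℚ) - μ) * (Z.w (Q.col s) : ℚ) := by
  have hw : (Z.w (Q.col s) : ℚ) ≠ 0 := by exact_mod_cast (Z.w_pos _).ne'
  rw [sub_mul, div_mul_cancel₀ _ hw]

omit [DecidableEq C] [DecidableEq X] in
theorem triv_ar (Z : Stab Q) (h0 : ∀ c c', Z.z c' * Z.w c ≤ Z.z c * Z.w c' → Q.a c c' = 0) {s t : X}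
    (h : (Z.z (Q.col t) : ℚ) / (Z.w (Q.col t) : ℚ) ≤ (Z.z (Q.col s) : ℚ) / (Z.w (Q.col s) : ℚ)) :
    Q.ar s t = 0 := by
  have hs : (0 : ℚ) < Z.w (Q.col s) := by exact_mod_cast Z.w_pos _
  have ht : (0 : ℚ) < Z.w (Q.col t) := by exact_mod_cast Z.w_pos _
  rw [div_le_div_iff₀ ht hs] at h
  exact h0 _ _ (by exact_mod_cast h)

theorem triv_mem_I0 [Fintype X] (Z : Stab Q)
    (h0 : ∀ c c', Z.z c' * Z.w c ≤ Z.z c * Z.w c' → Q.a c c' = 0) {B : Finset X} (hB : 1 < B.card)
    {v : P X} (hv : v ∈ Z.V B) : v ∈ Z.I0 B := by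
  have hne : B.Nonempty := card_pos.1 (by omega)
  let f : X → ℚ := fun s => (Z.z (Q.col s) : ℚ) / (Z.w (Q.col s) : ℚ)
  have hw : ∀ s, (0 : ℚ) < Z.w (Q.col s) := fun s => by exact_mod_cast Z.w_pos _
  obtain ⟨s₀, hs₀, hmax⟩ := exists_max_image B f hne
  have hsl : ∀ A : Finset X, A.Nonempty → (∀ s ∈ A, f s = f s₀) → Z.sl A = f s₀ := fun A hA h =>
    (Z.sl_eq_iff hA _).2 (sum_eq_zero fun s hs => by
      rw [triv_term, show (Z.z (Q.col s) : ℚ) / (Z.w (Q.col s) : ℚ) = f s₀ from h s hs, sub_self,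
        zero_mul])
  by_cases hall : ∀ s ∈ B, f s = f s₀
  · let ρ : X → ℕ := fun s => (Fintype.equivFin X s : ℕ)
    have hρ : Function.Injective ρ := Fin.val_injective.comp (Fintype.equivFin X).injective
    have hp : Z.Pure B ρ := fun s hs => by
      rw [hsl B hne hall]
      exact hsl _ ⟨s, mem_fib.2 ⟨hs, rfl⟩⟩ fun t ht => hall t (fib_subset _ _ _ ht)
    have hal : Q.al B ρ = 0 := sum_eq_zero fun s hs => sum_eq_zero fun t ht =>
      triv_ar Z h0 (le_of_eq ((hall t (mem_filter.1 ht).1).trans (hall s hs).symm))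
    have h1 := ((hv.2 ρ hp).2 (by rwa [card_image_of_injective _ hρ])).mem_of_neg
      (by rw [hal]; norm_num)
    rw [triv_I_eq_bot Z fun s _ t _ e => hρ e, Ideal.mem_bot] at h1
    rw [h1]
    exact zero_mem _
  · push Not at hall
    obtain ⟨t, ht, hft⟩ := hall
    let A := B.filter fun s => f s = f s₀
    have hA : A.Nonempty := ⟨s₀, mem_filter.2 ⟨hs₀, rfl⟩⟩
    have hlt : Z.sl B < Z.sl A := by
      rw [hsl A hA fun s hs => (mem_filter.1 hs).2, Z.sl_lt_iff hne]
      refine sum_neg' (fun s hs => ?_) ⟨t, ht, ?_⟩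
      · rw [triv_term]
        exact mul_nonpos_of_nonpos_of_nonneg (sub_nonpos.2 (hmax s hs)) (hw s).le
      · rw [triv_term]
        exact mul_neg_of_neg_of_pos (sub_neg.2 (lt_of_le_of_ne (hmax t ht) hft)) (hw t)
    have h1 := Z.Kp_mem_I (S := B) (ρ := fun _ => 0) (i := 0) hA
      (by rw [fib_const]; exact filter_subset _ _) (by rwa [fib_const])
    have h2 : Q.Kp A (fib B (fun _ => 0) 0 \ A) = 1 :=
      prod_eq_one fun s hs => prod_eq_one fun u hu => by
        rw [fib_const] at hu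
        rw [triv_ar Z h0 ((hmax u (mem_sdiff.1 hu).1).trans (mem_filter.1 hs).2.ge), pow_zero]
    rw [h2] at h1
    simpa [Stab.I0] using Ideal.mul_mem_left _ v h1

end aux

variable {r : ℕ} {X : Type} [Fintype X] [DecidableEq X] {Q : Quiv (Fin r) X}

theorem Stab.exists_alph_triv (Z : Stab Q) (hcol : Function.Surjective Q.col)
    (h0 : ∀ c c', Z.z c' * Z.w c ≤ Z.z c * Z.w c' → Q.a c c' = 0)
    (hs : ∀ c c', c ≤ c' → Z.z c' * Z.w c ≤ Z.z c * Z.w c') :
    ∃ A : Z.Alph, List.ofFn (fun y => (A.dim y, A.deg y)) =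
      List.ofFn (fun c : Fin r => ((Pi.single c 1 : Fin r → ℕ), (0 : ℕ))) := by
  choose s hsc using hcol
  have hcnt : ∀ c, Q.cnt {s c} = Pi.single c 1 := fun c => by rw [triv_cnt_singleton, hsc]
  have hinj : ∀ c c', Q.cnt {s c} = Q.cnt {s c'} → c = c' := fun c c' h => by
    rw [hcnt, hcnt] at h
    by_contra hne
    simpa [hne] using congrFun h c
  refine ⟨{ n := r
            blk := fun c => {s c}
            poly := fun _ => 1
            deg := fun _ => 0
            blk_ne := fun c => singleton_nonempty _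
            blk_eq := fun c c' h => by rw [hinj c c' h]
            mem_V := fun c => ⟨one_mem _, fun ρ _ => ⟨?_, fun h => ?_⟩⟩
            mem_Inv := fun c => ⟨one_mem _, fun σ hσ => ?_⟩
            homog := fun c => isHomogeneous_one _ _
            indep := fun B c hc hI y => ?_
            span := fun B hB v hv _ => ?_
            sorted := fun c c' h => ?_ }, ?_⟩
  · refine (degLE_totalDegree _ _ _ _).mono le_rfl ?_
    rw [totalDegree_one]
    omega
  · simp at h
  · have : σ = 1 := by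
      have h1 := (Quiv.mem_Aut.1 hσ).2
      ext t
      by_cases h2 : σ t ∈ ({s c} : Finset X)
      · by_cases h3 : t ∈ ({s c} : Finset X)
        · rw [mem_singleton.1 h2, mem_singleton.1 h3]; rfl
        · exact h1 t h3
      · exact σ.injective (h1 _ h2)
    rw [this, Quiv.eps_one, one_smul, map_one]
  · by_contra hy
    have hB : ({s y} : Finset X) = B := by
      by_contra h
      exact hy (hc y h)
    rw [sum_eq_single y (fun y' _ hne => by
      rw [hc y' fun h => hne (hinj _ _ (by rw [h, hB])), zero_smul]) (by simp), ← hB,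
      triv_I0_singleton, Ideal.mem_bot] at hI
    exact hy (by simpa using hI)
  · rcases (Nat.succ_le_of_lt (card_pos.2 hB)).eq_or_lt with h1 | h1
    · obtain ⟨t, rfl⟩ := card_eq_one.1 h1.symm
      have h2 := (hv.2 _ (Z.pure_const {t})).1
      rw [Quiv.al_const, show Z.I {t} (fun _ => 0) = ⊥ from triv_I0_singleton Z t] at h2
      obtain ⟨k, rfl⟩ := triv_const hv.1 (by simpa using h2)
      obtain ⟨σ, hσ, hσ'⟩ := Q.exists_isG_map (A := {s (Q.col t)}) (B := {t})
        (by rw [hcnt, triv_cnt_singleton])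
      exact Submodule.mem_sup_left (Submodule.smul_mem _ _
        (Submodule.subset_span ⟨Q.col t, σ, hσ, hσ', (map_one _).symm⟩))
    · exact Submodule.mem_sup_right (triv_mem_I0 Z h0 h1 hv)
  · rw [Z.sl_le_iff (singleton_nonempty _) (singleton_nonempty _)]
    simp only [lin_cnt, sum_singleton, hsc]
    exact hs c c' h
  · congr 1
    funext c
    exact Prod.ext (hcnt c) rfl

end Crest.Agent.R59
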