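import Crest.Agent.R59.CohaHN
import Crest.Agent.R59.CohaIndep
import Crest.Agent.R59.CohaFin
import Crest.Agent.R59.CohaTriv
import Crest.Agent.R59.CohaCount

/-! # Polynomial COHA: the wall-crossing identity -/

set_option autoImplicit false

namespace Crest.Agent.R59
open MvPolynomial Finset

theorem Stab.Alph.finrank_eq {C X : Type} [Fintype C] [DecidableEq C] [Fintype X] [DecidableEq X]
    {Q : Quiv C X} {Z : Stab Q} (A : Z.Alph) (S : Finset X) (i : ℕ) :
    Module.finrank ℚ ↥(Q.Inv S ⊓ homogeneousSubmodule X ℚ i) =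
      Nat.card {l : List (Fin A.n × ℕ) // Good A.odd l ∧ dimW A.dim l = Q.cnt S ∧
        degW Q.a A.dim A.deg l = i} := by
  have hfin : Finite {l : List (Fin A.n × ℕ) // Good A.odd l ∧ dimW A.dim l = Q.cnt S ∧
      degW Q.a A.dim A.deg l = i} :=
    finite_good Q.a Q.odd A.dim A.deg Stab.Alph.dim_ne_zero (Q.cnt S) i
  have := Fintype.ofFinite {l : List (Fin A.n × ℕ) // Good A.odd l ∧ dimW A.dim l = Q.cnt S ∧
      degW Q.a A.dim A.deg l = i}
  have hex : ∀ l : {l : List (Fin A.n × ℕ) // Good A.odd l ∧ dimW A.dim l = Q.cnt S},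
      ∃ T, A.IsT S l.1 T := fun l => Stab.Alph.exists_isT l.2.2
  choose T hT using hex
  let f : {l : List (Fin A.n × ℕ) // Good A.odd l ∧ dimW A.dim l = Q.cnt S ∧
      degW Q.a A.dim A.deg l = i} →
      {l : List (Fin A.n × ℕ) // Good A.odd l ∧ dimW A.dim l = Q.cnt S} :=
    fun l => ⟨l.1, l.2.1, l.2.2.1⟩
  have hf : Function.Injective f := fun l l' h => Subtype.ext (congrArg (fun x => x.1) h :)
  have hli := (A.indep_all S T hT).comp f hf
  have hspan : Submodule.span ℚ (Set.range ((fun l => Q.Av S (T l)) ∘ f)) =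
      Q.Inv S ⊓ homogeneousSubmodule X ℚ i := by
    refine le_antisymm (Submodule.span_le.2 ?_) fun ξ hξ => ?_
    · rintro _ ⟨l, rfl⟩
      refine ⟨Quiv.Av_mem_Inv (hT (f l)).mem_supported, ?_⟩
      have h1 := Quiv.Av_isHomogeneous (Q := Q) (S := S) (hT (f l)).isHomogeneous
      rw [show degW Q.a A.dim A.deg (f l).1 = i from l.2.2.2] at h1
      exact h1
    · have h1 : ∀ η ∈ Submodule.span ℚ {g | ∃ (l : List (Fin A.n × ℕ)) (T : P X), Good A.odd l ∧
          A.IsT S l T ∧ g = Q.Av S T}, homogeneousComponent i η ∈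
            Submodule.span ℚ (Set.range ((fun l => Q.Av S (T l)) ∘ f)) := by
        intro η hη
        induction hη using Submodule.span_induction with
        | mem g hg =>
          obtain ⟨l, T', hl, hT', rfl⟩ := hg
          rw [homogeneousComponent_of_mem
            ((mem_homogeneousSubmodule _ _).2 (Quiv.Av_isHomogeneous hT'.isHomogeneous))]
          split_ifs with hi
          · have h2 : Q.Av S (T ⟨l, hl, hT'.dimW_eq⟩) ∈
                Submodule.span ℚ (Set.range ((fun l => Q.Av S (T l)) ∘ f)) :=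
              Submodule.subset_span ⟨⟨l, hl, hT'.dimW_eq, hi.symm⟩, rfl⟩
            rcases (hT ⟨l, hl, hT'.dimW_eq⟩).Av_eq_or_neg hT' with h3 | h3
            · rwa [h3]
            · rw [h3]; exact neg_mem h2
          · exact zero_mem _
        | zero => rw [map_zero]; exact zero_mem _
        | add x y _ _ hx hy => rw [map_add]; exact add_mem hx hy
        | smul c x _ hx => rw [map_smul]; exact Submodule.smul_mem _ _ hx
      have h2 := h1 ξ (A.span_all hξ.1)
      rwa [homogeneousComponent_of_mem hξ.2, if_pos rfl] at h2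
  rw [← hspan, finrank_span_eq_card hli, Nat.card_eq_fintype_card]

theorem lin_neg {C : Type} [Fintype C] (z : C → ℤ) (d : C → ℕ) : lin (-z) d = -lin z d := by
  simp [lin]

/-- the ordered product over the vertices (increasing slope) is an ordered product (decreasing
slope) over finitely many generators, up to any bound on the dimension vector -/
theorem coha_identity {r : ℕ} (a : Fin r → Fin r → ℕ) (odd : Fin r → Bool) (z w : Fin r → ℤ)
    (hw : ∀ c, 0 < w c)
    (hsym : ∀ d e : Fin r → ℕ, lin z d * lin w e = lin z e * lin w d → av a d e = av a e d)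
    (h0 : ∀ c c', z c * w c' ≤ z c' * w c → a c c' = 0)
    (hs : ∀ c c', c ≤ c' → z c * w c' ≤ z c' * w c) (B : ℕ) :
    ∃ Y : List ((Fin r → ℕ) × ℕ), (∀ y ∈ Y, y.1 ≠ 0) ∧
      Y.Pairwise (fun y y' => lin z y'.1 * lin w y.1 ≤ lin z y.1 * lin w y'.1) ∧
      ∀ d : Fin r → ℕ, (∀ c, d c ≤ B) →
        Wser a odd Y d =
          Wser a odd (List.ofFn fun c : Fin r => ((Pi.single c 1 : Fin r → ℕ), (0 : ℕ))) d := by
  let Q : Quiv (Fin r) (Fin r × Fin (B + 1)) := ⟨Prod.fst, a, odd⟩
  let Z : Stab Q := ⟨z, w, hw, hsym⟩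
  let Z' : Stab Q := ⟨-z, w, hw, fun d e h => hsym d e (by
    rw [lin_neg, lin_neg] at h
    linarith)⟩
  obtain ⟨A⟩ := Z.exists_alph
  obtain ⟨A', hA'⟩ := Z'.exists_alph_triv (fun c => ⟨(c, 0), rfl⟩)
    (fun c c' h => h0 c c' (by
      change -z c' * w c ≤ -z c * w c' at h
      linarith))
    (fun c c' h => by
      change -z c' * w c ≤ -z c * w c'
      linarith [hs c c' h])
  refine ⟨List.ofFn fun y => (A.dim y, A.deg y), fun y hy => ?_, ?_, fun d hd => ?_⟩
  · obtain ⟨j, rfl⟩ := List.mem_ofFn.1 hy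
    exact Stab.Alph.dim_ne_zero j
  · rw [List.pairwise_ofFn]
    intro j j' hj
    exact (Z.sl_le_iff (A.blk_ne j') (A.blk_ne j)).1 (A.sorted j j' hj.le)
  · let S : Finset (Fin r × Fin (B + 1)) := univ.filter fun p => (p.2 : ℕ) < d p.1
    have hS : Q.cnt S = d := by
      funext c
      have h1 : S.filter (fun s => Q.col s = c) =
          (univ.filter fun j : Fin (B + 1) => (j : ℕ) < d c).map
            ⟨Prod.mk c, Prod.mk_right_injective c⟩ := by
        ext ⟨c', j⟩
        simp only [S, Q, mem_filter, mem_univ, true_and, mem_map, Function.Embedding.coeFn_mk,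
          Prod.mk.injEq]
        constructor
        · rintro ⟨h, rfl⟩
          exact ⟨j, h, rfl, rfl⟩
        · rintro ⟨j', h, rfl, rfl⟩
          exact ⟨h, rfl⟩
      rw [Quiv.cnt, h1, card_map, Fin.card_filter_val_lt]
      exact min_eq_right ((hd c).trans (Nat.le_succ B))
    rw [← hA', ← hS]
    ext i
    rw [coeff_Wser a odd A.dim A.deg Stab.Alph.dim_ne_zero,
      coeff_Wser a odd A'.dim A'.deg Stab.Alph.dim_ne_zero]
    exact congrArg Nat.cast ((A.finrank_eq S i).symm.trans (A'.finrank_eq S i))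

end Crest.Agent.R59
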