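import Crest.Agent.R59.CohaStep
import Crest.Agent.R59.CohaPerm

/-! # Polynomial COHA: ordered products of generators span the invariants -/

set_option autoImplicit false

namespace Crest.Agent.R59
open MvPolynomial Finset

variable {C X : Type} [Fintype C] [DecidableEq C] [Fintype X] [DecidableEq X] {Q : Quiv C X}
  {Z : Stab Q} (A : Z.Alph)

namespace Span

omit [Fintype X] in
theorem Kl_mul_mem_I0 {S : Finset X} {ρ : X → ℕ} (hρ : Z.Pure S ρ) {f : P X} (hf : f ∈ Z.I S ρ) :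
    Q.Kl S ρ * f ∈ Z.I0 S := by
  refine Submodule.span_induction (p := fun f _ => Q.Kl S ρ * f ∈ Z.I0 S) ?_ (by simp)
    (fun a b _ _ ha hb => by rw [mul_add]; exact add_mem ha hb)
    (fun c a _ ha => by rw [smul_eq_mul, mul_left_comm]; exact Ideal.mul_mem_left _ _ ha) hf
  rintro _ ⟨i, B, hB, hBi, hsl, rfl⟩
  obtain ⟨s₀, hs₀⟩ := hB
  have h0 := mem_fib.1 (hBi hs₀)
  have h1 : Z.sl (fib S ρ i) = Z.sl S := h0.2 ▸ hρ s₀ h0.1
  have hd : Disjoint B (S.filter fun s => ρ s < i) := Finset.disjoint_left.2 fun s hs hs' => by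
    have := (mem_fib.1 (hBi hs)).2
    have := (mem_filter.1 hs').2
    omega
  have hne : (B ∪ S.filter fun s => ρ s < i).Nonempty := ⟨s₀, mem_union_left _ hs₀⟩
  have hsub : (B ∪ S.filter fun s => ρ s < i) ⊆ S :=
    union_subset (hBi.trans (fib_subset _ _ _)) (filter_subset _ _)
  have h2 : Z.sl S < Z.sl (B ∪ S.filter fun s => ρ s < i) := by
    rw [Z.lt_sl_iff hne, sum_union hd, ← sum_fiberwise_of_maps_to (s := S.filter fun s => ρ s < i)
      (t := range i) (g := ρ) fun s hs => mem_range.2 (mem_filter.1 hs).2,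
      sum_eq_zero (s := range i) fun j hj => ?_, add_zero, ← Z.lt_sl_iff ⟨s₀, hs₀⟩, ← h1]
    · exact hsl
    · have e : (S.filter fun s => ρ s < i).filter (fun s => ρ s = j) = fib S ρ j := by
        ext s
        have := mem_range.1 hj
        simp only [mem_filter, mem_fib]
        constructor
        · exact fun h => ⟨h.1.1, h.2⟩
        · exact fun h => ⟨⟨h.1, by omega⟩, h.2⟩
      rw [e]
      rcases (fib S ρ j).eq_empty_or_nonempty with h | ⟨s, hs⟩
      · rw [h, sum_empty]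
      · have h3 := mem_fib.1 hs
        exact (Z.sl_eq_iff ⟨s, hs⟩ _).1 (h3.2 ▸ hρ s h3.1)
  have h3 := Z.Kp_mem_I (S := S) (ρ := fun _ => 0) (i := 0) hne (by rwa [fib_const])
    (by rwa [fib_const])
  rw [fib_const] at h3
  refine Ideal.mem_of_dvd _ ?_ h3
  have e : Q.Kl S ρ = ∏ p ∈ (S ×ˢ S).filter (fun p => ρ p.1 < ρ p.2),
      (MvPolynomial.X p.2 - MvPolynomial.X p.1 : P X) ^ Q.ar p.1 p.2 := by
    rw [prod_filter, prod_product]
    exact prod_congr rfl fun s _ => prod_filter _ _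
  rw [e, Quiv.Kp, Quiv.Kp, ← prod_product', ← prod_product', ← prod_union]
  · refine prod_dvd_prod_of_subset _ _ _ fun p hp => ?_
    simp only [mem_product, mem_union, mem_filter, mem_sdiff, not_or, not_and, mem_fib] at hp ⊢
    obtain ⟨h4, h5, h6, h7⟩ := hp
    have h8 := h7 h5
    rcases h4 with h4 | h4
    · have h9 := mem_fib.1 (hBi h4)
      by_cases h10 : ρ p.2 = i
      · exact Or.inr ⟨h4, ⟨h5, h10⟩, h6⟩
      · exact Or.inl ⟨⟨h9.1, h5⟩, by omega⟩
    · exact Or.inl ⟨⟨h4.1, h5⟩, by omega⟩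
  · refine Finset.disjoint_left.2 fun p hp hp' => ?_
    have h4 := (mem_filter.1 hp).2
    have h5 := (mem_fib.1 (hBi (mem_product.1 hp').1)).2
    have h6 := (mem_fib.1 (mem_sdiff.1 (mem_product.1 hp').2).1).2
    omega

/-- the target space -/
noncomputable def G (S : Finset X) : Submodule ℚ (P X) :=
  Submodule.span ℚ {f | ∃ (l : List (Fin A.n × ℕ)) (T : P X), Good A.odd l ∧
    (∀ x ∈ l, Z.sl (A.blk x.1) = Z.sl S) ∧ A.IsT S l T ∧ f = Q.Av S T} ⊔
    (Z.I0 S).restrictScalars ℚ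

/-- the induction hypothesis -/
def IH (S : Finset X) (e : ℤ) (k : ℕ) : Prop :=
  ∀ ξ ∈ supported ℚ (S : Set X), Z.F S e k ξ → Q.Av S ξ ∈ G A S

variable {A} {S : Finset X} {e k : ℕ} {π π' ρ : X → ℕ} {η : P X}

theorem mem_of_I0 {ξ : P X} (h : ξ ∈ Z.I0 S) : Q.Av S ξ ∈ G A S :=
  Submodule.mem_sup_right (Stab.Av_mem_I0 h)

theorem reorder (hS : S.Nonempty) (ih : IH A S e k) (hπ : Z.Pure S π)
    (hk : (S.image π).card = k + 1) (hππ : SameKer S π π') {c : ℚ}
    (hc : Q.Dl S π' π = c • Q.Dl S π π) (hη : η ∈ Z.Terms S π e) :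
    Q.Av S (Q.Kl S π' * η) - c • Q.Av S (Q.Kl S π * η) ∈ G A S := by
  have h := Stab.F_reorder hπ hππ hc hη hS
  rw [hk, Nat.add_sub_cancel] at h
  rw [← map_smul, ← map_sub]
  exact ih _ (sub_mem (mul_mem (Q.Kl_mem_supported S π') (Stab.Terms.mem_supported hη))
    (Subalgebra.smul_mem _ (mul_mem (Q.Kl_mem_supported S π) (Stab.Terms.mem_supported hη)) c)) h

theorem reorder' (hS : S.Nonempty) (ih : IH A S e k) (hπ : Z.Pure S π)
    (hk : (S.image π).card = k + 1) (hππ : SameKer S π π') (hη : η ∈ Z.Terms S π e)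
    (h : Q.Av S (Q.Kl S π * η) ∈ G A S) : Q.Av S (Q.Kl S π' * η) ∈ G A S := by
  obtain ⟨c, hc⟩ : ∃ c : ℚ, Q.Dl S π' π = c • Q.Dl S π π := by
    rcases Stab.Dl_eq_or_neg hπ.anti (hπ.congr hππ).anti hππ fun _ _ _ _ => Iff.rfl with h | h
    · exact ⟨1, by rw [h, one_smul]⟩
    · exact ⟨-1, by rw [h, neg_one_smul]⟩
  simpa using add_mem (reorder hS ih hπ hk hππ hc hη) (Submodule.smul_mem _ c h)

theorem isT_ofFn {m : ℕ} (w : Fin m → Fin A.n × ℕ) (σ : Fin m → Equiv.Perm X)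
    (hπ : ∀ s ∈ S, π s < m)
    (hσ : ∀ a, Q.IsG (σ a) ∧ (A.blk (w a).1).map (σ a).toEmbedding = fib S π a) :
    A.IsT S (List.ofFn w)
      (Q.Kl S π * ∏ a, (rename (σ a) (A.poly (w a).1) * pb (fib S π a) ^ (w a).2)) := by
  refine ⟨π, fun i => σ (i.cast List.length_ofFn), by simpa using hπ, fun i => ?_, ?_⟩
  · rw [List.get_ofFn]
    exact hσ _
  · simp only [List.get_ofFn]
    congr 1
    exact (Fintype.prod_equiv (finCongr List.length_ofFn) _ _ fun i => rfl).symm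

theorem odd_pair (hS : S.Nonempty) (ih : IH A S e k) (hπ : Z.Pure S π)
    (hk : (S.image π).card = k + 1) {m : ℕ} (w : Fin m → Fin A.n × ℕ) (σ : Fin m → Equiv.Perm X)
    (hm : ∀ s ∈ S, π s < m)
    (hσ : ∀ a, Q.IsG (σ a) ∧ (A.blk (w a).1).map (σ a).toEmbedding = fib S π a)
    (hη : η ∈ Z.Terms S π e)
    (he : η = ∏ a, (rename (σ a) (A.poly (w a).1) * pb (fib S π a) ^ (w a).2))
    {a b : Fin m} (hab : b.val = a + 1) (hw : w a = w b) (ho : A.odd (w a).1 = true) :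
    Q.Av S (Q.Kl S π * η) ∈ G A S := by
  have hne : a ≠ b := fun h => by rw [h] at hab; omega
  have ha := (hσ a).2
  have hb := (hσ b).2
  rw [← hw] at hb
  have hdis : ∀ {i j : ℕ}, i ≠ j → Disjoint (fib S π i) (fib S π j) := fun h =>
    Finset.disjoint_left.2 fun s h1 h2 => h ((mem_fib.1 h1).2.symm.trans (mem_fib.1 h2).2)
  obtain ⟨τ, hτ, h1, h2⟩ := Quiv.exists_swap (D := A.blk (w a).1) (hσ a).1 (hσ b).1
    (by rw [ha, hb]; exact hdis (Fin.val_ne_of_ne hne))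
  rw [ha, hb] at hτ
  have hτS : τ ∈ Q.Aut S := Quiv.Aut_mono (union_subset (fib_subset _ _ _) (fib_subset _ _ _)) hτ
  have hG := (Quiv.mem_Aut.1 hτ).1
  have h3 : ∀ c, w (Equiv.swap a b c) = w c := Equiv.apply_swap_eq_self hw
  have hmem : ∀ c, ∀ s ∈ A.blk (w c).1, σ c s ∈ fib S π c := fun c s hs =>
    (hσ c).2 ▸ mem_map_of_mem _ hs
  have h4 : ∀ c, ∀ s ∈ A.blk (w c).1, τ (σ c s) = σ (Equiv.swap a b c) s := by
    intro c s hs
    by_cases hca : c = a
    · subst hca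
      rw [Equiv.swap_apply_left, (h1 s hs).1]
    by_cases hcb : c = b
    · subst hcb
      rw [Equiv.swap_apply_right, (h1 s (hw ▸ hs)).2]
    · rw [Equiv.swap_apply_of_ne_of_ne hca hcb]
      refine (Quiv.mem_Aut.1 hτ).2 _ fun h => ?_
      rcases mem_union.1 h with h | h
      · exact Finset.disjoint_left.1 (hdis (Fin.val_ne_of_ne hca)) (hmem c s hs) h
      · exact Finset.disjoint_left.1 (hdis (Fin.val_ne_of_ne hcb)) (hmem c s hs) h
  have h5 : ∀ c : Fin m, (fib S π c).map τ.toEmbedding = fib S π (Equiv.swap a b c) := fun c => by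
    rw [← (hσ c).2, ← (hσ _).2, h3, map_map]
    ext t
    simp only [mem_map, Function.Embedding.trans_apply, Equiv.coe_toEmbedding]
    exact exists_congr fun s => and_congr_right fun hs => by rw [h4 c s hs]
  have h6 : rename τ η = η := by
    rw [he, map_prod, ← Equiv.prod_comp (Equiv.swap a b)
      fun c => rename (σ c) (A.poly (w c).1) * pb (fib S π c) ^ (w c).2]
    refine prod_congr rfl fun c _ => ?_
    rw [map_mul, map_pow, rename_pb, h5, h3, rename_rename,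
      rename_congr_of_supported (σ := τ ∘ σ c) (A.mem_V _).1 (h4 c)]
  have h7 : ∀ s ∈ S, π (τ s) = Equiv.swap a.val (a + 1) (π s) := fun s hs => by
    have h8 : τ s ∈ fib S π (Equiv.swap a b ⟨π s, hm s hs⟩) :=
      h5 _ ▸ mem_map_of_mem _ (mem_fib.2 ⟨hs, rfl⟩)
    rw [(mem_fib.1 h8).2, ← hab]
    exact (Fin.val_injective.swap_apply a b ⟨π s, hm s hs⟩).symm
  have h9 : rename τ (Q.Kl S (Equiv.swap a.val (a + 1) ∘ π)) = Q.Kl S π := by
    have h10 : ∀ s ∈ S, ((Equiv.swap a.val (a + 1) ∘ π) ∘ τ.symm) s = π s := fun s hs => by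
      rw [← Quiv.map_of_mem_Aut hτS] at hs
      obtain ⟨t, ht, rfl⟩ := mem_map.1 hs
      simp only [Function.comp_apply, Equiv.coe_toEmbedding, Equiv.symm_apply_apply, h7 t ht]
    rw [Quiv.rename_Kl hG, Quiv.map_of_mem_Aut hτS]
    exact Q.Kl_congr S fun s hs t ht => by rw [h10 s hs, h10 t ht]
  have h11 : Q.Av S (Q.Kl S π * η) =
      Q.eps τ • Q.Av S (Q.Kl S (Equiv.swap a.val (a + 1) ∘ π) * η) := by
    rw [← Quiv.Av_rename hτS, map_mul (rename τ), h9, h6]
  have ca : Q.cnt (fib S π a) = A.dim (w a).1 := by rw [← ha, Quiv.cnt_map (hσ a).1]; rfl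
  have cb : Q.cnt (fib S π (a + 1)) = A.dim (w a).1 := by
    rw [← hab, ← hb, Quiv.cnt_map (hσ b).1]; rfl
  have h12 := Stab.Dl_swap (Z := Z) (S := S) (π := π) (ρ := π) a.val
    (by rw [Stab.sl, Stab.sl, ca, cb]) fun _ _ _ _ => Iff.rfl
  rw [ca, cb] at h12
  have h13 := reorder hS ih hπ hk (π' := Equiv.swap a.val (a + 1) ∘ π)
    (fun s _ t _ => (Equiv.injective _).eq_iff.symm)
    (c := (-1) ^ av Q.a (A.dim (w a).1) (A.dim (w a).1))
    (by rw [h12, smul_eq_C_mul, map_pow, map_neg, map_one]) hη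
  have h14 : (-1 : ℚ) ^ av Q.a (A.dim (w a).1) (A.dim (w a).1) * Q.eps τ = -1 := by
    rw [h2, ← pow_add, add_comm]
    exact Odd.neg_one_pow (of_decide_eq_true ho)
  rw [h11, smul_smul, h14, neg_one_smul, sub_neg_eq_add, ← two_smul ℚ,
    Submodule.smul_mem_iff _ two_ne_zero] at h13
  rw [h11]
  exact Submodule.smul_mem _ _ h13

theorem sorted (hS : S.Nonempty) (ih : IH A S e k) (hπ : Z.Pure S π)
    (hk : (S.image π).card = k + 1) {m : ℕ} (w : Fin m → Fin A.n × ℕ) (σ : Fin m → Equiv.Perm X)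
    (hm : ∀ s ∈ S, π s < m)
    (hσ : ∀ a, Q.IsG (σ a) ∧ (A.blk (w a).1).map (σ a).toEmbedding = fib S π a)
    (hη : η ∈ Z.Terms S π e)
    (he : η = ∏ a, (rename (σ a) (A.poly (w a).1) * pb (fib S π a) ^ (w a).2))
    (hw : Monotone fun a => toLex (w a)) : Q.Av S (Q.Kl S π * η) ∈ G A S := by
  by_cases hg : Good A.odd (List.ofFn w)
  · refine Submodule.mem_sup_left (Submodule.subset_span
      ⟨_, _, hg, fun x hx => ?_, he ▸ isT_ofFn w σ hm hσ, rfl⟩)
    obtain ⟨a, rfl⟩ := List.mem_ofFn.1 hx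
    obtain ⟨s, hs⟩ : (fib S π a).Nonempty := (hσ a).2 ▸ (A.blk_ne _).map
    rw [← Stab.sl_map (hσ a).1, (hσ a).2, ← (mem_fib.1 hs).2]
    exact hπ s (mem_fib.1 hs).1
  · rw [Good, List.pairwise_ofFn] at hg
    push Not at hg
    obtain ⟨a, b, hab, h1, h2⟩ := hg
    have h3 := Prod.Lex.toLex_le_toLex.1 (hw hab.le)
    have h4 : (w a).1 = (w b).1 := (h3.resolve_left h1.not_gt).1
    have h5 : (w a).2 = (w b).2 := le_antisymm (h3.resolve_left h1.not_gt).2 (h2 h4).1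
    have h6 : a.val + 1 < m := lt_of_le_of_lt hab b.2
    refine odd_pair hS ih hπ hk w σ hm hσ hη he (a := a) (b := ⟨a + 1, h6⟩) rfl
      (toLex.injective (le_antisymm (hw (Nat.le_succ _)) ?_)) (by simpa using (h2 h4).2 h5)
    rw [Prod.ext h4 h5]
    exact hw hab

theorem letters (hS : S.Nonempty) (ih : IH A S e k) (hρ : Z.Pure S ρ)
    (hk : (S.image ρ).card = k + 1) {u : ℕ → P X} {j : ℕ → ℕ}
    (hu : ∀ i ∈ S.image ρ, ∃ (y : Fin A.n) (σ : Equiv.Perm X), Q.IsG σ ∧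
      (A.blk y).map σ.toEmbedding = fib S ρ i ∧ u i = rename σ (A.poly y))
    (hη : η ∈ Z.Terms S ρ e) (he : η = ∏ i ∈ S.image ρ, (u i * pb (fib S ρ i) ^ j i)) :
    Q.Av S (Q.Kl S ρ * η) ∈ G A S := by
  choose y σ h1 h2 h3 using fun i : S.image ρ => hu i i.2
  let e₀ := (S.image ρ).equivFin.symm
  let φ := (Tuple.sort fun a => toLex (y (e₀ a), j (e₀ a))).trans e₀
  let π : X → ℕ := fun s => if h : ρ s ∈ S.image ρ then φ.symm ⟨ρ s, h⟩ else 0
  have hπ : ∀ s (hs : s ∈ S), π s = φ.symm ⟨ρ s, mem_image_of_mem _ hs⟩ := fun s hs =>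
    dif_pos (mem_image_of_mem _ hs)
  have hker : SameKer S ρ π := fun s hs t ht => by
    rw [hπ s hs, hπ t ht, Fin.val_inj, φ.symm.injective.eq_iff, Subtype.mk.injEq]
  have hfib : ∀ a, fib S π a.val = fib S ρ (φ a) := fun a => by
    ext s
    simp only [mem_fib]
    refine and_congr_right fun hs => ?_
    rw [hπ s hs, Fin.val_inj, Equiv.symm_apply_eq, Subtype.ext_iff]
  have hη' := Stab.Terms.congr hη hker
  have hk' := hker.card_image.symm.trans hk
  refine reorder' hS ih (hρ.congr hker) hk' (fun s hs t ht => (hker s hs t ht).symm) hη'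
    (sorted hS ih (hρ.congr hker) hk' (fun a => (y (φ a), j (φ a))) (fun a => σ (φ a))
      (fun s hs => by rw [hπ s hs]; exact Fin.is_lt _) (fun a => ⟨h1 _, by rw [hfib, h2]⟩) hη' ?_
      (Tuple.monotone_sort fun a => toLex (y (e₀ a), j (e₀ a))))
  rw [he, ← prod_coe_sort, ← φ.prod_comp]
  exact prod_congr rfl fun a _ => by rw [hfib, h3]

theorem term (hS : S.Nonempty) (ih : IH A S e k) (hρ : Z.Pure S ρ)
    (hk : (S.image ρ).card = k + 1) (hη : η ∈ Z.Terms S ρ e) : Q.Av S (Q.Kl S ρ * η) ∈ G A S := by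
  obtain ⟨u, j, hu, hj, rfl⟩ := hη
  suffices h : ∀ (J : Finset ℕ) (u : ℕ → P X), (∀ i ∈ S.image ρ, u i ∈ Z.V (fib S ρ i)) →
      (∀ i ∈ S.image ρ, i ∉ J → ∃ (y : Fin A.n) (σ : Equiv.Perm X), Q.IsG σ ∧
        (A.blk y).map σ.toEmbedding = fib S ρ i ∧ u i = rename σ (A.poly y)) →
      Q.Av S (Q.Kl S ρ * ∏ i ∈ S.image ρ, (u i * pb (fib S ρ i) ^ j i)) ∈ G A S from
    h _ u hu fun i hi hi' => absurd hi hi'
  intro J
  induction J using Finset.induction_on with
  | empty =>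
    exact fun u hu h => letters hS ih hρ hk (fun i hi => h i hi (notMem_empty i))
      ⟨u, j, hu, hj, rfl⟩ rfl
  | insert a J _ ihJ =>
    intro u hu h
    by_cases ha : a ∈ S.image ρ
    swap
    · exact ihJ u hu fun i hi hi' => h i hi fun h' =>
        (mem_insert.1 h').elim (fun h' => ha (h' ▸ hi)) hi'
    set ζ := pb (fib S ρ a) ^ j a * ∏ i ∈ (S.image ρ).erase a, (u i * pb (fib S ρ i) ^ j i) with hζ
    have e1 : ∀ v, Q.Kl S ρ * ∏ i ∈ S.image ρ, (Function.update u a v i * pb (fib S ρ i) ^ j i) =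
        Q.Kl S ρ * ζ * v := fun v => by
      rw [← mul_prod_erase _ _ ha, Function.update_self, prod_congr rfl fun i hi => by
        rw [Function.update_of_ne (ne_of_mem_erase hi)], hζ]
      ring
    have e2 : ∀ τ ∈ Q.Aut (fib S ρ a), rename τ (Q.Kl S ρ * ζ) = Q.Kl S ρ * ζ := fun τ hτ => by
      rw [hζ, map_mul, map_mul, map_pow, map_prod, Quiv.rename_Kl_of_mem_Aut_fib hτ, rename_pb,
        Quiv.map_of_mem_Aut hτ, prod_congr rfl fun i hi => Quiv.rename_of_disjoint hτ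
          (Finset.disjoint_left.2 fun s h1 h2 => ne_of_mem_erase hi
            ((mem_fib.1 h1).2.symm.trans (mem_fib.1 h2).2))
          (mul_mem (hu i (mem_of_mem_erase hi)).1 (pow_mem (pb_mem_supported _) _))]
    obtain ⟨s, hs, hsa⟩ := mem_image.1 ha
    have h1 := A.span (fib S ρ a) ⟨s, mem_fib.2 ⟨hs, hsa⟩⟩ _ (Stab.Av_mem_V (hu a ha))
      (Quiv.Av_mem_Inv (hu a ha).1)
    have h2 : Q.Av S (Q.Kl S ρ * ζ * Q.Av (fib S ρ a) (u a)) ∈ G A S := by
      refine (show _ ≤ (G A S).comap (Q.Av S ∘ₗ LinearMap.mulLeft ℚ (Q.Kl S ρ * ζ)) from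
        sup_le (Submodule.span_le.2 ?_) fun v hv => ?_) h1
      · rintro _ ⟨y, σ, h3, h4, rfl⟩
        change Q.Av S (Q.Kl S ρ * ζ * _) ∈ G A S
        rw [← e1]
        refine ihJ _ (fun i hi => ?_) fun i hi hi' => ?_
        · rcases eq_or_ne i a with rfl | h5
          · rw [Function.update_self, ← h4]
            exact Stab.rename_mem_V h3 (A.mem_V y)
          · rw [Function.update_of_ne h5]
            exact hu i hi
        · rcases eq_or_ne i a with rfl | h5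
          · exact ⟨y, σ, h3, h4, Function.update_self ..⟩
          · rw [Function.update_of_ne h5]
            exact h i hi fun h' => (mem_insert.1 h').elim h5 hi'
      · change Q.Av S (Q.Kl S ρ * ζ * v) ∈ G A S
        rw [mul_assoc]
        exact mem_of_I0 (Kl_mul_mem_I0 hρ (Ideal.mul_mem_left _ _ (Z.I0_fib_le S ρ a hv)))
    rw [Quiv.Av_mul_Av (fib_subset _ _ _) e2,
      Submodule.smul_mem_iff _ (Nat.cast_ne_zero.2 (Quiv.card_Aut_pos _).ne'), ← e1,
      Function.update_eq_self] at h2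
    exact h2

theorem ih_succ (hS : S.Nonempty) (ih : IH A S e k) : IH A S e (k + 1) := by
  intro ξ hξ h
  obtain ⟨ζ, hζ, h1⟩ := Stab.step_all hξ h
  have h2 : ζ ∈ supported ℚ (S : Set X) ∧ Q.Av S ζ ∈ G A S := by
    refine Submodule.span_induction (p := fun ζ _ => ζ ∈ supported ℚ (S : Set X) ∧
      Q.Av S ζ ∈ G A S) ?_ ⟨zero_mem _, by simp⟩
      (fun a b _ _ ha hb => ⟨add_mem ha.1 hb.1, by rw [map_add]; exact add_mem ha.2 hb.2⟩)
      (fun c a _ ha => ⟨Subalgebra.smul_mem _ ha.1 c, by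
        rw [map_smul]; exact Submodule.smul_mem _ c ha.2⟩) hζ
    rintro _ ⟨ρ, η, hρ, hk, hη, rfl⟩
    exact ⟨mul_mem (Q.Kl_mem_supported S ρ) (Stab.Terms.mem_supported hη), term hS ih hρ hk hη⟩
  simpa using add_mem (ih _ (sub_mem hξ h2.1) h1) h2.2

theorem ih_all (hS : S.Nonempty) (n k : ℕ) : IH A S ((n : ℤ) - 1) k := by
  induction n generalizing k with
  | zero => exact fun ξ _ h => mem_of_I0 (h.mem_I0 (by simp))
  | succ n ih =>
    rw [Nat.cast_succ, add_sub_cancel_right]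
    induction k with
    | zero => exact fun ξ hξ h => ih _ ξ hξ (h.of_zero hS)
    | succ k ihk => exact ih_succ hS ihk

end Span

/-- one slope -/
theorem Stab.Alph.span_pure {S : Finset X} (hS : S.Nonempty) {ξ : P X}
    (hξ : ξ ∈ supported ℚ (S : Set X)) :
    Q.Av S ξ ∈ Submodule.span ℚ {f | ∃ (l : List (Fin A.n × ℕ)) (T : P X), Good A.odd l ∧
      (∀ x ∈ l, Z.sl (A.blk x.1) = Z.sl S) ∧ A.IsT S l T ∧ f = Q.Av S T} ⊔
      (Z.I0 S).restrictScalars ℚ :=
  Span.ih_all hS (ξ.totalDegree + 1) S.card ξ hξ (by simpa using Z.F_totalDegree S ξ)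

end Crest.Agent.R59
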