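import Crest.Agent.R59.CohaStepAux

/-! # Polynomial COHA: divisibility of the top part by the kernel -/

set_option autoImplicit false
set_option linter.unusedSectionVars false

namespace Crest.Agent.R59.StepAux
open MvPolynomial Finset

theorem prod_blocks {X M : Type} [CommMonoid M] (S : Finset X) (ρ : X → ℕ) (r : ℕ → ℕ → Prop)
    [DecidableRel r] (F : X → X → M) :
    ∏ s ∈ S, ∏ t ∈ S.filter (fun t => r (ρ s) (ρ t)), F s t =
      ∏ i ∈ S.image ρ, ∏ j ∈ (S.image ρ).filter (fun j => r i j),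
        ∏ s ∈ fib S ρ i, ∏ t ∈ fib S ρ j, F s t := by
  rw [← Finset.prod_fiberwise_of_maps_to (t := S.image ρ) (g := ρ)
    (fun s hs => mem_image_of_mem ρ hs)]
  refine Finset.prod_congr rfl fun i _ => ?_
  rw [Finset.prod_comm]
  refine Finset.prod_congr rfl fun s hs => ?_
  have hsi : ρ s = i := (mem_filter.mp hs).2
  rw [← Finset.prod_fiberwise_of_maps_to (t := (S.image ρ).filter (fun j => r i j)) (g := ρ)
    (fun t ht => mem_filter.mpr ⟨mem_image_of_mem ρ (mem_filter.mp ht).1,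
      hsi ▸ (mem_filter.mp ht).2⟩)]
  refine Finset.prod_congr rfl fun j hj => Finset.prod_congr ?_ fun _ _ => rfl
  ext t
  simp only [fib, mem_filter]
  constructor
  · rintro ⟨⟨h1, _⟩, h3⟩; exact ⟨h1, h3⟩
  · rintro ⟨h1, h3⟩; exact ⟨⟨h1, by rw [hsi, h3]; exact (mem_filter.mp hj).2⟩, h3⟩

theorem sum_blocks {X : Type} (S : Finset X) (ρ : X → ℕ) (r : ℕ → ℕ → Prop)
    [DecidableRel r] (F : X → X → ℕ) :
    ∑ s ∈ S, ∑ t ∈ S.filter (fun t => r (ρ s) (ρ t)), F s t =
      ∑ i ∈ S.image ρ, ∑ j ∈ (S.image ρ).filter (fun j => r i j),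
        ∑ s ∈ fib S ρ i, ∑ t ∈ fib S ρ j, F s t :=
  prod_blocks (M := Multiplicative ℕ) S ρ r F

variable {C X : Type} [Fintype C] [DecidableEq C] [DecidableEq X] {Q : Quiv C X} {Z : Stab Q}
  {S : Finset X} {ρ : X → ℕ}

/-- arrows between two blocks -/
def blk (Q : Quiv C X) (S : Finset X) (ρ : X → ℕ) (i j : ℕ) : ℕ :=
  ∑ s ∈ fib S ρ i, ∑ t ∈ fib S ρ j, Q.ar s t

theorem blk_symm (hρ : Z.Pure S ρ) {i j : ℕ} (hi : i ∈ S.image ρ) (hj : j ∈ S.image ρ) :
    blk Q S ρ i j = blk Q S ρ j i := by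
  obtain ⟨s, hs, rfl⟩ := mem_image.mp hi
  obtain ⟨t, ht, rfl⟩ := mem_image.mp hj
  exact Z.ar_symm ((hρ s hs).trans (hρ t ht).symm)

theorem two_al (hρ : Z.Pure S ρ) :
    2 * Q.al S ρ = ∑ s ∈ S, ∑ t ∈ S, if ρ s ≠ ρ t then Q.ar s t else 0 := by
  have h1 : ∑ s ∈ S, ∑ t ∈ S.filter (fun t => ρ t < ρ s), Q.ar s t = Q.al S ρ := by
    unfold Quiv.al
    rw [sum_blocks S ρ (fun i j => j < i), sum_blocks S ρ (fun i j => i < j)]
    simp only [Finset.sum_filter]
    rw [Finset.sum_comm]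
    refine Finset.sum_congr rfl fun i hi => Finset.sum_congr rfl fun j hj => ?_
    split_ifs
    · exact blk_symm hρ hj hi
    · rfl
  rw [two_mul]
  nth_rewrite 1 [← h1]
  unfold Quiv.al
  simp only [Finset.sum_filter, ← Finset.sum_add_distrib]
  refine Finset.sum_congr rfl fun s _ => Finset.sum_congr rfl fun t _ => ?_
  rcases lt_trichotomy (ρ s) (ρ t) with h | h | h
  · simp [h, h.ne, h.not_gt]
  · simp [h]
  · simp [h, h.ne', h.not_gt]

theorem pure_comp (hρ : Z.Pure S ρ) (g : ℕ → ℕ) : Z.Pure S (fun s => g (ρ s)) := by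
  intro s hs
  have hne : (fib S (fun s => g (ρ s)) (g (ρ s))).Nonempty := ⟨s, mem_fib.mpr ⟨hs, rfl⟩⟩
  rw [Z.sl_eq_iff hne, ← Finset.sum_fiberwise_of_maps_to
    (t := (fib S (fun s => g (ρ s)) (g (ρ s))).image ρ) (g := ρ)
    (fun s hs => mem_image_of_mem ρ hs)]
  refine Finset.sum_eq_zero fun j hj => ?_
  obtain ⟨t, ht, rfl⟩ := mem_image.mp hj
  obtain ⟨htS, ht'⟩ := mem_fib.mp ht
  have h1 : (fib S (fun s => g (ρ s)) (g (ρ s))).filter (fun u => ρ u = ρ t) = fib S ρ (ρ t) := by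
    ext u
    simp only [fib, mem_filter]
    constructor
    · rintro ⟨⟨h1, _⟩, h3⟩; exact ⟨h1, h3⟩
    · rintro ⟨h1, h3⟩; exact ⟨⟨h1, by rw [h3]; exact ht'⟩, h3⟩
  rw [h1]
  exact (Z.sl_eq_iff ⟨t, mem_fib.mpr ⟨htS, rfl⟩⟩ _).mp (hρ t htS)

theorem blk_eq (Q : Quiv C X) (S : Finset X) (ρ : X → ℕ) (i j : ℕ) :
    blk Q S ρ i j = ∑ s ∈ S, ∑ t ∈ S, if ρ s = i ∧ ρ t = j then Q.ar s t else 0 := by
  unfold blk fib
  simp only [Finset.sum_filter]
  refine Finset.sum_congr rfl fun s _ => ?_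
  split_ifs with h
  · simp [h]
  · simp [h]

theorem al_merge (hρ : Z.Pure S ρ) {i j : ℕ} (hij : i ≠ j) (hi : i ∈ S.image ρ)
    (hj : j ∈ S.image ρ) :
    Q.al S (fun s => if ρ s = j then i else ρ s) + blk Q S ρ i j = Q.al S ρ := by
  have h1 := two_al hρ
  have h2 := two_al (pure_comp hρ (fun k => if k = j then i else k))
  have h3 := blk_symm hρ hi hj
  have h4 : (∑ s ∈ S, ∑ t ∈ S, if ρ s ≠ ρ t then Q.ar s t else 0) =
      (∑ s ∈ S, ∑ t ∈ S, if (if ρ s = j then i else ρ s) ≠ (if ρ t = j then i else ρ t)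
        then Q.ar s t else 0) + blk Q S ρ i j + blk Q S ρ j i := by
    rw [blk_eq, blk_eq]
    simp only [← Finset.sum_add_distrib]
    refine Finset.sum_congr rfl fun s _ => Finset.sum_congr rfl fun t _ => ?_
    split_ifs <;> omega
  omega

theorem Dl_eq (Q : Quiv C X) (S : Finset X) (ρ : X → ℕ) :
    Q.Dl S ρ ρ = ∏ p ∈ (S.image ρ ×ˢ S.image ρ).filter (fun p => p.1 < p.2),
      (MvPolynomial.X p.2 - MvPolynomial.X p.1 : MvPolynomial ℕ ℚ) ^ blk Q S ρ p.1 p.2 := by
  unfold Quiv.Dl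
  rw [prod_blocks S ρ (fun i j => i < j), Finset.prod_filter, Finset.prod_product]
  refine Finset.prod_congr rfl fun i _ => ?_
  rw [Finset.prod_filter]
  refine Finset.prod_congr rfl fun j _ => ?_
  split_ifs
  · unfold blk
    rw [← Finset.prod_pow_eq_pow_sum]
    refine Finset.prod_congr rfl fun s hs => ?_
    rw [← Finset.prod_pow_eq_pow_sum]
    refine Finset.prod_congr rfl fun t ht => ?_
    rw [(mem_fib.mp hs).2, (mem_fib.mp ht).2]
  · rfl

theorem Dl_mem_supported (Q : Quiv C X) (S : Finset X) (ρ : X → ℕ) :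
    Q.Dl S ρ ρ ∈ supported ℚ (↑(S.image ρ) : Set ℕ) := by
  unfold Quiv.Dl
  refine Subalgebra.prod_mem _ fun s hs => Subalgebra.prod_mem _ fun t ht => ?_
  refine Subalgebra.pow_mem _ (sub_mem ?_ ?_) _
  · exact X_mem_supported.mpr (Finset.mem_coe.mpr (mem_image_of_mem ρ (mem_filter.mp ht).1))
  · exact X_mem_supported.mpr (Finset.mem_coe.mpr (mem_image_of_mem ρ hs))

theorem sh_mem_supported (S : Finset X) (ρ : X → ℕ) (ξ : P X) :
    sh S ρ ξ ∈ supported (P X) (↑(S.image ρ) : Set ℕ) := by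
  induction ξ using MvPolynomial.induction_on with
  | C a =>
    rw [← algebraMap_eq, AlgHom.commutes, IsScalarTower.algebraMap_apply ℚ (P X)]
    exact Subalgebra.algebraMap_mem _ _
  | add p q hp hq => rw [map_add]; exact add_mem hp hq
  | mul_X p s hp =>
    rw [map_mul]
    refine mul_mem hp ?_
    simp only [sh, aeval_X]
    split_ifs with hs
    · exact add_mem (Subalgebra.algebraMap_mem _ _)
        (X_mem_supported.mpr (Finset.mem_coe.mpr (mem_image_of_mem ρ hs)))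
    · exact Subalgebra.algebraMap_mem _ _

theorem shear_sh (S : Finset X) (ρ : X → ℕ) (i j : ℕ) (ξ : P X) :
    aeval (fun k => map (algebraMap ℚ (P X)) (tv i j 1 k)) (sh S ρ ξ) =
      eval₂Hom (sh (fib S ρ j) ρ : P X →+* MvPolynomial ℕ (P X)) MvPolynomial.X
        (sh S (fun s => if ρ s = j then i else ρ s) ξ) := by
  induction ξ using MvPolynomial.induction_on with
  | C a =>
    rw [← algebraMap_eq, AlgHom.commutes, AlgHom.commutes, IsScalarTower.algebraMap_apply ℚ (P X),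
      AlgHom.commutes, algebraMap_eq, eval₂Hom_C]
    simp
  | add p q hp hq => simp only [map_add, hp, hq]
  | mul_X p s hp =>
    have hX : aeval (fun k => map (algebraMap ℚ (P X)) (tv i j 1 k)) (sh S ρ (MvPolynomial.X s)) =
        eval₂Hom (sh (fib S ρ j) ρ : P X →+* MvPolynomial ℕ (P X)) MvPolynomial.X
          (sh S (fun s => if ρ s = j then i else ρ s) (MvPolynomial.X s)) := by
      by_cases hs : s ∈ S
      · by_cases hj : ρ s = j
        · simp [sh, hs, hj, tv, mem_fib]; ring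
        · simp [sh, hs, hj, tv, mem_fib]
      · simp [sh, hs, mem_fib]
    rw [map_mul, map_mul, map_mul, map_mul, hp, hX]

theorem shear_coeff_mem (hρ : Z.Pure S ρ) {i j : ℕ} {ξ : P X} {D a : ℕ}
    (h : DegLE (Z.I S (fun s => if ρ s = j then i else ρ s)) S
      (fun s => if ρ s = j then i else ρ s) ξ ((D : ℤ) - a))
    (γ : ℕ →₀ ℕ) (hγ : γ.degree = D) (ha : γ j < a) :
    coeff γ (aeval (fun k => map (algebraMap ℚ (P X)) (tv i j 1 k)) (sh S ρ ξ)) ∈ Z.I S ρ := by
  classical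
  have hI : Z.I S (fun s => if ρ s = j then i else ρ s) ≤ Z.I S ρ :=
    Z.I_le_of_refines (fun s _ t _ hst => by simp only [hst]) (fun s hs =>
      (hρ s hs).trans (pure_comp hρ (fun k => if k = j then i else k) s hs).symm)
  rw [shear_sh, coe_eval₂Hom, eval₂_eq, coeff_sum]
  refine Ideal.sum_mem _ fun β _ => ?_
  have hm : (∏ k ∈ β.support, (MvPolynomial.X k : MvPolynomial ℕ (P X)) ^ β k) = monomial β 1 := by
    rw [monomial_eq]; simp [Finsupp.prod]
  rw [hm, coeff_mul_monomial']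
  split_ifs with hβ
  · rw [mul_one]
    by_cases hd : (D : ℤ) - a < (β.degree : ℕ)
    · have h1 : DegLE (Z.I S ρ) S ρ _ (-1) := Z.degLE_of_mem_I (hI (h β hd)) (-1)
      have h2 := h1.restrict (fib_subset S ρ j) (fun s hs t ht hst =>
        mem_fib.mpr ⟨ht, hst ▸ (mem_fib.mp hs).2⟩)
      exact h2 _ (by omega)
    · have h0 : coeff (γ - β) (sh (fib S ρ j) ρ
          (coeff β (sh S (fun s => if ρ s = j then i else ρ s) ξ))) = 0 := by
        by_contra hne
        have h1 := support_subset_of_supported (sh_mem_supported (fib S ρ j) ρ _)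
          (mem_support_iff.mpr hne)
        have h2 : (γ - β).support ⊆ {j} := by
          refine h1.trans fun k hk => ?_
          obtain ⟨s, hs, rfl⟩ := mem_image.mp hk
          exact mem_singleton.mpr (mem_fib.mp hs).2
        have h3 : (γ - β).degree = (γ - β) j := by
          conv_lhs => rw [Finsupp.support_subset_singleton.mp h2]
          exact Finsupp.degree_single _ _
        have h4 : (γ - β).degree + β.degree = γ.degree := by
          rw [← map_add, tsub_add_cancel_of_le hβ]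
        have h5 : (γ - β) j ≤ γ j := by simp
        omega
      have : coeff (γ - β) ((sh (fib S ρ j) ρ : P X →+* MvPolynomial ℕ (P X))
          (coeff β (sh S (fun s => if ρ s = j then i else ρ s) ξ))) = 0 := h0
      rw [this]
      exact zero_mem _
  · exact zero_mem _

theorem Dl_dvd (hρ : Z.Pure S ρ) {e k : ℕ} {ξ : P X} (h : Z.F S e k ξ) (φ : P X →ₗ[ℚ] ℚ)
    (hφ : ∀ f ∈ Z.I S ρ, φ f = 0) :
    Q.Dl S ρ ρ ∣ homogeneousComponent (Q.al S ρ + e) (cmap φ (sh S ρ ξ)) := by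
  rw [Dl_eq]
  apply Finset.prod_dvd_of_isRelPrime
  · rintro ⟨i, j⟩ hp ⟨i', j'⟩ hq hne
    exact (isRelPrime_sub (mem_filter.mp hp).2 (mem_filter.mp hq).2 hne).pow
  · rintro ⟨i, j⟩ hp
    obtain ⟨hp, hij⟩ := mem_filter.mp hp
    obtain ⟨hi, hj⟩ := mem_product.mp hp
    have hij' : i ≠ j := ne_of_lt hij
    refine sub_pow_dvd hij' fun γ hγ => ?_
    rw [← hc_aeval _ (tv_hom i j 1), coeff_homogeneousComponent]
    split_ifs with hd
    · rw [← cmap_aeval, coeff_cmap]
      apply hφ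
      refine shear_coeff_mem hρ ?_ γ hd hγ
      have h1 := (h _ (pure_comp hρ (fun k => if k = j then i else k))).1
      have h2 := al_merge hρ hij' hi hj
      refine h1.mono le_rfl (le_of_eq ?_)
      dsimp only at h2 ⊢
      omega
    · rfl

end Crest.Agent.R59.StepAux
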