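import Crest.Agent.R59.CohaBound
import Crest.Agent.R59.CohaTensor
import Crest.Agent.R59.CohaStepAux2

/-! # Polynomial COHA: one step down in the filtration -/

set_option autoImplicit false
set_option linter.unusedSectionVars false

namespace Crest.Agent.R59
open MvPolynomial Finset StepAux

variable {C X : Type} [Fintype C] [DecidableEq C] [DecidableEq X] {Q : Quiv C X} {Z : Stab Q}
  {S : Finset X}

theorem StepAux.top_span {ρ : X → ℕ} {e : ℕ} {j : ℕ →₀ ℕ} (hj : j.degree = e)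
    (hjs : j.support ⊆ S.image ρ) {w : P X} (hw : w ∈ Submodule.span ℚ (Z.Terms S ρ 0)) :
    w * ∏ i ∈ S.image ρ, pb (fib S ρ i) ^ j i ∈ Submodule.span ℚ (Z.Terms S ρ e) ∧
    ∀ α : ℕ →₀ ℕ, α.degree = Q.al S ρ + e →
      coeff α (sh S ρ (Q.Kl S ρ * (w * ∏ i ∈ S.image ρ, pb (fib S ρ i) ^ j i))) -
        coeff α (Q.Dl S ρ ρ * monomial j 1) • w ∈ Z.I S ρ := by
  have hsum : ∑ i ∈ S.image ρ, j i = e := by
    rw [← hj, Finsupp.degree_apply]
    exact (Finset.sum_subset hjs (fun i _ hi => Finsupp.notMem_support_iff.mp hi)).symm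
  have hmon : (∏ i ∈ S.image ρ, (MvPolynomial.X i : MvPolynomial ℕ ℚ) ^ j i) = monomial j 1 := by
    rw [monomial_eq, map_one, one_mul, Finsupp.prod]
    exact (Finset.prod_subset hjs (fun i _ hi => by
      rw [Finsupp.notMem_support_iff.mp hi, pow_zero])).symm
  induction hw using Submodule.span_induction with
  | mem w hw =>
    obtain ⟨u, j0, hu, hj0, rfl⟩ := hw
    have h0 : ∏ i ∈ S.image ρ, (u i * pb (fib S ρ i) ^ j0 i) = ∏ i ∈ S.image ρ, u i :=
      Finset.prod_congr rfl fun i hi => by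
        rw [(Finset.sum_eq_zero_iff.mp hj0) i hi, pow_zero, mul_one]
    rw [h0, ← Finset.prod_mul_distrib]
    refine ⟨Submodule.subset_span ⟨u, j, hu, hsum, rfl⟩, fun α hα => ?_⟩
    have := Stab.top (Z := Z) (S := S) (π := ρ) (ρ := ρ) (fun _ _ _ _ => Iff.rfl) (γ := id)
      (fun _ _ => rfl) (j := j) hu α (by rw [hα, hsum])
    simp only [id] at this
    rwa [hmon] at this
  | zero => simp
  | add x y _ _ hx hy =>
    refine ⟨by rw [add_mul]; exact add_mem hx.1 hy.1, fun α hα => ?_⟩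
    have := add_mem (hx.2 α hα) (hy.2 α hα)
    rw [add_mul, mul_add, map_add, coeff_add, smul_add]
    convert this using 1
    ring
  | smul c x _ hx =>
    refine ⟨by rw [smul_mul_assoc]; exact Submodule.smul_mem _ c hx.1, fun α hα => ?_⟩
    have := Submodule.smul_of_tower_mem _ c (hx.2 α hα)
    rw [smul_mul_assoc, mul_smul_comm, map_smul, coeff_smul, smul_comm _ c, ← smul_sub]
    exact this

theorem StepAux.top_poly {ρ : X → ℕ} {e : ℕ} {g : MvPolynomial ℕ ℚ}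
    (hg : ∀ j ∈ g.support, j.degree = e ∧ j.support ⊆ S.image ρ)
    {w : P X} (hw : w ∈ Submodule.span ℚ (Z.Terms S ρ 0)) :
    ∃ η ∈ Submodule.span ℚ (Z.Terms S ρ e), ∀ α : ℕ →₀ ℕ, α.degree = Q.al S ρ + e →
      coeff α (sh S ρ (Q.Kl S ρ * η)) - coeff α (Q.Dl S ρ ρ * g) • w ∈ Z.I S ρ := by
  refine ⟨∑ j ∈ g.support, coeff j g • (w * ∏ i ∈ S.image ρ, pb (fib S ρ i) ^ j i),
    Submodule.sum_mem _ fun j hj =>
      Submodule.smul_mem _ _ (top_span (hg j hj).1 (hg j hj).2 hw).1, fun α hα => ?_⟩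
  have h1 : coeff α (Q.Dl S ρ ρ * g) =
      ∑ j ∈ g.support, coeff j g * coeff α (Q.Dl S ρ ρ * monomial j 1) := by
    conv_lhs => rw [g.as_sum, Finset.mul_sum, coeff_sum]
    refine Finset.sum_congr rfl fun j _ => ?_
    rw [← smul_eq_mul (coeff j g), ← coeff_smul, ← mul_smul_comm, smul_monomial, smul_eq_mul,
      mul_one]
  rw [h1, Finset.mul_sum, map_sum, coeff_sum, Finset.sum_smul, ← Finset.sum_sub_distrib]
  refine Ideal.sum_mem _ fun j hj => ?_
  rw [mul_smul_comm, map_smul, coeff_smul, mul_smul, ← smul_sub]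
  exact Submodule.smul_of_tower_mem _ _ ((top_span (hg j hj).1 (hg j hj).2 hw).2 α hα)

theorem Stab.step {e k : ℕ} {ξ : P X} (hξ : ξ ∈ supported ℚ (S : Set X)) (h : Z.F S e k ξ)
    {ρ : X → ℕ} (hρ : Z.Pure S ρ) (hk : (S.image ρ).card = k) :
    ∃ η ∈ Submodule.span ℚ (Z.Terms S ρ e),
      DegLE (Z.I S ρ) S ρ (ξ - Q.Kl S ρ * η) (Q.al S ρ + e - 1) := by
  classical
  have hc : ∀ α ∈ (sh S ρ ξ).support.filter (fun α => α.degree = Q.al S ρ + e),
      coeff α (sh S ρ ξ) ∈ Submodule.span ℚ (Z.Terms S ρ 0) ⊔ (Z.I S ρ).restrictScalars ℚ := by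
    intro α hα
    have hα' := (mem_filter.mp hα).2
    refine Stab.tensor_V hρ (coeff_sh_mem_supported S ρ hξ α) fun ρ' hρ' hr => ⟨?_, fun hlt => ?_⟩
    · refine ((h ρ' hρ').1.coeff_sh hr α).mono le_rfl (le_of_eq ?_)
      rw [hα']; push_cast; ring
    · refine (((h ρ' hρ').2 (hk ▸ hlt)).coeff_sh hr α).mono le_rfl (le_of_eq ?_)
      rw [hα']; push_cast; ring
  obtain ⟨n, w, φ, hw, hφ, hexp⟩ := exists_expand _ _ _ _ hc
  have hq : ∀ m, ∃ g, homogeneousComponent (Q.al S ρ + e) (cmap (φ m) (sh S ρ ξ)) =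
      Q.Dl S ρ ρ * g ∧ ∀ j ∈ g.support, j.degree = e ∧ j.support ⊆ S.image ρ := by
    intro m
    refine exists_quot (S.image ρ) ?_ (Dl_mem_supported Q S ρ)
      (homogeneousComponent_isHomogeneous _ _) (Q.Dl_isHomogeneous S ρ ρ)
      (Dl_dvd hρ h (φ m) (hφ m))
    refine supported_of_support_subset fun j hj => ?_
    rw [support_homogeneousComponent, mem_filter, mem_support_iff, coeff_cmap] at hj
    refine support_subset_of_supported (sh_mem_supported S ρ ξ) (mem_support_iff.mpr ?_)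
    intro h0
    exact hj.1 (by rw [h0, map_zero])
  choose g hg hgs using hq
  have hη := fun m => top_poly (Q := Q) (hgs m) (hw m)
  choose η hη hηtop using hη
  have hηs : ∑ m, η m ∈ Submodule.span ℚ (Z.Terms S ρ e) := Submodule.sum_mem _ fun m _ => hη m
  refine ⟨∑ m, η m, hηs, fun α hα => ?_⟩
  by_cases hd : α.degree = Q.al S ρ + e
  · have h1 : coeff α (sh S ρ ξ) - ∑ m, φ m (coeff α (sh S ρ ξ)) • w m ∈ Z.I S ρ := by
      by_cases hs : α ∈ (sh S ρ ξ).support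
      · exact hexp α (mem_filter.mpr ⟨hs, hd⟩)
      · rw [notMem_support_iff.mp hs]; simp
    have h2 : ∑ m, (coeff α (sh S ρ (Q.Kl S ρ * η m)) - φ m (coeff α (sh S ρ ξ)) • w m) ∈
        Z.I S ρ := by
      refine Ideal.sum_mem _ fun m _ => ?_
      have := hηtop m α hd
      rwa [← hg m, coeff_homogeneousComponent, if_pos hd, coeff_cmap] at this
    have h3 := sub_mem h1 h2
    rw [Finset.sum_sub_distrib] at h3
    rw [map_sub, coeff_sub, Finset.mul_sum, map_sum, coeff_sum]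
    convert h3 using 1
    ring
  · have h1 : DegLE (Z.I S ρ) S ρ (ξ - Q.Kl S ρ * ∑ m, η m) (Q.al S ρ + e) :=
      (h ρ hρ).1.sub (DegLE.of_span _ (fun η hη => (Stab.F_term hρ hη ρ hρ).1) hηs)
    exact h1 α (by omega)

theorem StepAux.F_span {ρ : X → ℕ} (hρ : Z.Pure S ρ) {e : ℕ} {η : P X}
    (hη : η ∈ Submodule.span ℚ (Z.Terms S ρ e)) :
    Z.F S e (S.image ρ).card (Q.Kl S ρ * η) := fun ρ' hρ' =>
  ⟨DegLE.of_span _ (fun _ hη => (Stab.F_term hρ hη ρ' hρ').1) hη,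
    fun hk => DegLE.of_span _ (fun _ hη => (Stab.F_term hρ hη ρ' hρ').2 hk) hη⟩

/-- the kernel of a labelling -/
def StepAux.ker (S : Finset X) (ρ : X → ℕ) : Finset (X × X) :=
  (S ×ˢ S).filter (fun p => ρ p.1 = ρ p.2)

theorem StepAux.sameKer_of_ker {π ρ : X → ℕ} (h : ker S π = ker S ρ) : SameKer S π ρ := by
  intro s hs t ht
  have := Finset.ext_iff.mp h (s, t)
  simpa [ker, hs, ht] using this

theorem Stab.step_all {e k : ℕ} {ξ : P X} (hξ : ξ ∈ supported ℚ (S : Set X))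
    (h : Z.F S e (k + 1) ξ) :
    ∃ ζ ∈ Submodule.span ℚ {f | ∃ (ρ : X → ℕ) (η : P X), Z.Pure S ρ ∧ (S.image ρ).card = k + 1 ∧
      η ∈ Z.Terms S ρ e ∧ f = Q.Kl S ρ * η}, Z.F S e k (ξ - ζ) := by
  classical
  set W := Submodule.span ℚ {f | ∃ (ρ : X → ℕ) (η : P X), Z.Pure S ρ ∧
    (S.image ρ).card = k + 1 ∧ η ∈ Z.Terms S ρ e ∧ f = Q.Kl S ρ * η} with hW
  have hWs : ∀ ζ ∈ W, ζ ∈ supported ℚ (S : Set X) := by
    intro ζ hζ
    have : W ≤ (supported ℚ (S : Set X)).toSubmodule := by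
      refine Submodule.span_le.mpr ?_
      rintro f ⟨ρ, η, _, _, hη, rfl⟩
      exact Subalgebra.mul_mem _ (Q.Kl_mem_supported S ρ) (Stab.Terms.mem_supported hη)
    exact this hζ
  have key : ∀ T : Finset (Finset (X × X)), ∃ ζ ∈ W, Z.F S e (k + 1) (ξ - ζ) ∧
      ∀ ρ : X → ℕ, Z.Pure S ρ → (S.image ρ).card = k + 1 → ker S ρ ∈ T →
        DegLE (Z.I S ρ) S ρ (ξ - ζ) (Q.al S ρ + e - 1) := by
    intro T
    induction T using Finset.induction_on with
    | empty => exact ⟨0, zero_mem _, by simpa using h, fun ρ _ _ hT => absurd hT (by simp)⟩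
    | insert K T _ ih =>
      obtain ⟨ζ, hζ, hF, hT⟩ := ih
      by_cases hK : ∃ ρ : X → ℕ, Z.Pure S ρ ∧ (S.image ρ).card = k + 1 ∧ ker S ρ = K
      · obtain ⟨π, hπ, hπk, hπK⟩ := hK
        obtain ⟨η, hη, hd⟩ := Stab.step (sub_mem hξ (hWs ζ hζ)) hF hπ hπk
        have hmem : Q.Kl S π * η ∈ W := by
          have : Submodule.span ℚ (Z.Terms S π e) ≤ W.comap (LinearMap.mulLeft ℚ (Q.Kl S π)) := by
            refine Submodule.span_le.mpr fun η hη => ?_
            exact Submodule.subset_span ⟨π, η, hπ, hπk, hη, rfl⟩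
          exact this hη
        refine ⟨ζ + Q.Kl S π * η, add_mem hζ hmem, ?_, fun ρ hρ hρk hρT => ?_⟩
        · rw [← sub_sub]
          exact hF.sub (hπk ▸ F_span hπ hη)
        · rw [← sub_sub]
          by_cases hs : SameKer S π ρ
          · rw [← Z.al_congr hπ.anti hρ.anti hs]
            exact Z.degLE_congr hs hd
          · have hρT' : ker S ρ ∈ T := by
              rcases mem_insert.mp hρT with h1 | h1
              · exact absurd (sameKer_of_ker (hπK.trans h1.symm)) hs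
              · exact h1
            refine (hT ρ hρ hρk hρT').sub (DegLE.of_span _ (fun η hη => ?_) hη)
            exact Stab.bound_of_not_sameKer hπ.anti hρ.anti (Stab.Phi_eq_of_pure hρ hπ).le hη
              (by omega) hs
      · refine ⟨ζ, hζ, hF, fun ρ hρ hρk hρT => ?_⟩
        rcases mem_insert.mp hρT with h1 | h1
        · exact absurd ⟨ρ, hρ, hρk, h1⟩ hK
        · exact hT ρ hρ hρk h1
  obtain ⟨ζ, hζ, hF, hT⟩ := key (S ×ˢ S).powerset
  refine ⟨ζ, hζ, fun ρ hρ => ⟨(hF ρ hρ).1, fun hk => ?_⟩⟩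
  by_cases hρk : (S.image ρ).card = k + 1
  · exact hT ρ hρ hρk (mem_powerset.mpr (filter_subset _ _))
  · exact (hF ρ hρ).2 (by omega)

end Crest.Agent.R59
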