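import Crest.Agent.R59.CohaBasic

/-! # Polynomial COHA: auxiliary algebra for the step lemma -/

set_option autoImplicit false

namespace Crest.Agent.R59.StepAux
open MvPolynomial Finset

section cmap
variable {R : Type} [CommRing R] [Algebra ℚ R]

/-- coefficientwise application of a linear functional -/
noncomputable def cmap (φ : R →ₗ[ℚ] ℚ) (p : MvPolynomial ℕ R) : MvPolynomial ℕ ℚ :=
  ∑ α ∈ p.support, monomial α (φ (coeff α p))

theorem coeff_cmap (φ : R →ₗ[ℚ] ℚ) (p : MvPolynomial ℕ R) (α : ℕ →₀ ℕ) :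
    coeff α (cmap φ p) = φ (coeff α p) := by
  classical
  unfold cmap
  rw [coeff_sum]
  simp only [coeff_monomial]
  rw [Finset.sum_ite_eq' p.support α]
  split_ifs with h
  · rfl
  · rw [notMem_support_iff.mp h, map_zero]

theorem cmap_add (φ : R →ₗ[ℚ] ℚ) (p q : MvPolynomial ℕ R) :
    cmap φ (p + q) = cmap φ p + cmap φ q := by
  ext α
  simp [coeff_cmap]

theorem cmap_C_mul_map (φ : R →ₗ[ℚ] ℚ) (r : R) (q : MvPolynomial ℕ ℚ) :
    cmap φ (C r * map (algebraMap ℚ R) q) = C (φ r) * q := by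
  ext α
  rw [coeff_cmap, coeff_C_mul, coeff_map, coeff_C_mul, mul_comm r, ← Algebra.smul_def, map_smul,
    smul_eq_mul, mul_comm]

theorem cmap_monomial (φ : R →ₗ[ℚ] ℚ) (α : ℕ →₀ ℕ) (r : R) :
    cmap φ (monomial α r) = monomial α (φ r) := by
  classical
  ext β
  rw [coeff_cmap, coeff_monomial, coeff_monomial]
  split_ifs <;> simp

theorem cmap_aeval (φ : R →ₗ[ℚ] ℚ) (θ : ℕ → MvPolynomial ℕ ℚ) (p : MvPolynomial ℕ R) :
    cmap φ (aeval (fun j => map (algebraMap ℚ R) (θ j)) p) = aeval θ (cmap φ p) := by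
  induction p using MvPolynomial.induction_on' with
  | monomial α r =>
    rw [cmap_monomial, aeval_monomial, aeval_monomial, algebraMap_eq, algebraMap_eq,
      ← cmap_C_mul_map]
    congr 2
    simp [Finsupp.prod, map_prod, map_pow]
  | add p q hp hq => rw [map_add, cmap_add, cmap_add, map_add, hp, hq]

end cmap

theorem hc_aeval (θ : ℕ → MvPolynomial ℕ ℚ) (hθ : ∀ j, (θ j).IsHomogeneous 1) (n : ℕ)
    (p : MvPolynomial ℕ ℚ) :
    homogeneousComponent n (aeval θ p) = aeval θ (homogeneousComponent n p) := by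
  induction p using MvPolynomial.induction_on' with
  | monomial d c =>
    have h1 : (monomial d c : MvPolynomial ℕ ℚ).IsHomogeneous d.degree :=
      isHomogeneous_monomial c rfl
    have h2 := h1.aeval θ hθ
    rw [one_mul] at h2
    rw [homogeneousComponent_of_mem h1, homogeneousComponent_of_mem h2]
    split_ifs <;> simp
  | add p q hp hq => rw [map_add, map_add, map_add, map_add, hp, hq]

theorem hc_mul {d : MvPolynomial ℕ ℚ} {n : ℕ} (hd : d.IsHomogeneous n) (e : ℕ)
    (g : MvPolynomial ℕ ℚ) :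
    homogeneousComponent (n + e) (d * g) = d * homogeneousComponent e g := by
  induction g using MvPolynomial.induction_on' with
  | monomial j c =>
    have h1 : (monomial j c : MvPolynomial ℕ ℚ).IsHomogeneous j.degree :=
      isHomogeneous_monomial c rfl
    have h2 := hd.mul h1
    rw [homogeneousComponent_of_mem h1, homogeneousComponent_of_mem h2]
    by_cases h : e = j.degree
    · simp [h]
    · rw [if_neg h, if_neg (by omega), mul_zero]
  | add p q hp hq => simp [mul_add, map_add, hp, hq]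

theorem support_subset_of_supported {R : Type} [CommRing R] {T : Finset ℕ}
    {p : MvPolynomial ℕ R} (hp : p ∈ supported R (T : Set ℕ)) {j : ℕ →₀ ℕ}
    (hj : j ∈ p.support) : j.support ⊆ T := by
  intro i hi
  have := mem_supported.mp hp
  exact this ((mem_vars_iff_mem_support i).mpr ⟨j, hj, hi⟩)

theorem supported_of_support_subset {R : Type} [CommRing R] {T : Finset ℕ}
    {p : MvPolynomial ℕ R} (h : ∀ j ∈ p.support, j.support ⊆ T) :
    p ∈ supported R (T : Set ℕ) := by
  rw [mem_supported]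
  intro i hi
  obtain ⟨j, hj, hi⟩ := (mem_vars_iff_mem_support i).mp hi
  exact h j hj hi

theorem exists_quot (T : Finset ℕ) {f d : MvPolynomial ℕ ℚ} {n e : ℕ}
    (hf : f ∈ supported ℚ (T : Set ℕ)) (hd : d ∈ supported ℚ (T : Set ℕ))
    (hfh : f.IsHomogeneous (n + e)) (hdh : d.IsHomogeneous n) (h : d ∣ f) :
    ∃ g, f = d * g ∧ ∀ j ∈ g.support, j.degree = e ∧ j.support ⊆ T := by
  classical
  obtain ⟨g0, hg0⟩ := h
  let κ : MvPolynomial ℕ ℚ →ₐ[ℚ] MvPolynomial ℕ ℚ := aeval (fun j => if j ∈ T then X j else 0)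
  have hκ : ∀ p ∈ supported ℚ (T : Set ℕ), κ p = p := by
    intro p hp
    rw [supported_eq_adjoin_X] at hp
    induction hp using Algebra.adjoin_induction with
    | mem x hx =>
      obtain ⟨j, hj, rfl⟩ := hx
      simp only [κ, aeval_X]
      rw [if_pos (by exact_mod_cast hj)]
    | algebraMap r => exact κ.commutes r
    | add x y _ _ hx hy => rw [map_add, hx, hy]
    | mul x y _ _ hx hy => rw [map_mul, hx, hy]
  have hκ' : ∀ p, κ p ∈ supported ℚ (T : Set ℕ) := by
    intro p
    induction p using MvPolynomial.induction_on with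
    | C a => rw [← algebraMap_eq, κ.commutes]; exact Subalgebra.algebraMap_mem _ _
    | add p q hp hq => rw [map_add]; exact add_mem hp hq
    | mul_X p i hp =>
      rw [map_mul]
      refine mul_mem hp ?_
      simp only [κ, aeval_X]
      split_ifs with hi
      · exact X_mem_supported.mpr (by exact_mod_cast hi)
      · exact zero_mem _
  have h1 : f = d * κ g0 := by
    conv_lhs => rw [← hκ f hf, hg0, map_mul, hκ d hd]
  refine ⟨homogeneousComponent e (κ g0), ?_, fun j hj => ?_⟩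
  · rw [← hc_mul hdh, ← h1, homogeneousComponent_eq_self hfh]
  · rw [support_homogeneousComponent, mem_filter] at hj
    exact ⟨hj.2, support_subset_of_supported (hκ' g0) hj.1⟩

/-- the substitution `t_j ↦ t_j + c t_i` -/
noncomputable def tv (i j : ℕ) (c : ℚ) : ℕ → MvPolynomial ℕ ℚ :=
  fun k => if k = j then X j + C c * X i else X k

theorem tv_hom (i j : ℕ) (c : ℚ) (k : ℕ) : (tv i j c k).IsHomogeneous 1 := by
  unfold tv
  split_ifs
  · exact (isHomogeneous_X _ _).add (isHomogeneous_C_mul_X _ _)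
  · exact isHomogeneous_X _ _

theorem tv_comp {i j : ℕ} (h : i ≠ j) (c : ℚ) (p : MvPolynomial ℕ ℚ) :
    aeval (tv i j (-c)) (aeval (tv i j c) p) = p := by
  have : (aeval (tv i j (-c)) : MvPolynomial ℕ ℚ →ₐ[ℚ] MvPolynomial ℕ ℚ).comp
      (aeval (tv i j c)) = AlgHom.id ℚ _ := by
    apply algHom_ext
    intro k
    by_cases hk : k = j
    · subst hk
      simp [tv, h]
    · simp [tv, hk]
  exact DFunLike.congr_fun this p

/-- the shear automorphism -/
noncomputable def shear {i j : ℕ} (h : i ≠ j) : MvPolynomial ℕ ℚ ≃ₐ[ℚ] MvPolynomial ℕ ℚ :=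
  AlgEquiv.ofAlgHom (aeval (tv i j (-1))) (aeval (tv i j 1))
    (AlgHom.ext fun p => tv_comp h 1 p)
    (AlgHom.ext fun p => by simpa using tv_comp h (-1) p)

theorem prime_sub {i j : ℕ} (h : i ≠ j) : Prime (X j - X i : MvPolynomial ℕ ℚ) := by
  have h1 : shear h (X j) = X j - X i := by
    simp [shear, tv, sub_eq_add_neg]
  rw [← h1]
  exact (MulEquiv.prime_iff (shear h)).mpr X_prime

theorem isRelPrime_sub {i j i' j' : ℕ} (h : i < j) (h' : i' < j') (hne : (i, j) ≠ (i', j')) :
    IsRelPrime (X j - X i : MvPolynomial ℕ ℚ) (X j' - X i') := by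
  rw [(prime_sub h.ne).irreducible.isRelPrime_iff_not_dvd]
  intro hd
  have key : ∀ k : ℕ, k ≠ i → k ≠ j → (k = i' ∨ k = j') → False := by
    intro k hi hj hk
    have := map_dvd (eval (fun l => if l = k then (1 : ℚ) else 0)) hd
    simp only [map_sub, eval_X, if_neg hi.symm, if_neg hj.symm, sub_self, zero_dvd_iff] at this
    rcases hk with rfl | rfl
    · rw [if_neg h'.ne', if_pos rfl] at this; norm_num at this
    · rw [if_neg h'.ne, if_pos rfl] at this; norm_num at this
  by_cases h1 : i' = i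
  · subst h1
    exact key j' h'.ne' (fun h2 => hne (by rw [h2])) (Or.inr rfl)
  · by_cases h2 : i' = j
    · subst h2
      exact key j' (by omega) h'.ne' (Or.inr rfl)
    · exact key i' h1 h2 (Or.inl rfl)

theorem sub_pow_dvd {i j : ℕ} (h : i ≠ j) {a : ℕ} {f : MvPolynomial ℕ ℚ}
    (hf : ∀ γ : ℕ →₀ ℕ, γ j < a → coeff γ (aeval (tv i j 1) f) = 0) :
    (X j - X i : MvPolynomial ℕ ℚ) ^ a ∣ f := by
  have h1 : (X j : MvPolynomial ℕ ℚ) ^ a ∣ aeval (tv i j 1) f := by
    rw [X_pow_eq_monomial, monomial_one_dvd_iff_modMonomial_eq_zero]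
    ext γ
    by_cases hγ : Finsupp.single j a ≤ γ
    · rw [coeff_modMonomial_of_le _ hγ, coeff_zero]
    · rw [coeff_modMonomial_of_not_le _ hγ, coeff_zero]
      apply hf
      rwa [Finsupp.single_le_iff, not_le] at hγ
  have h2 := map_dvd (aeval (tv i j (-1)) : MvPolynomial ℕ ℚ →ₐ[ℚ] MvPolynomial ℕ ℚ) h1
  rw [tv_comp h, map_pow] at h2
  simpa [tv, sub_eq_add_neg] using h2

/-- finitely many vectors of `W ⊔ I` expand modulo `I` in a finite family of `W` -/
theorem exists_expand {V A : Type} [AddCommGroup V] [Module ℚ V] (W I : Submodule ℚ V)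
    (s : Finset A) (c : A → V) (hc : ∀ α ∈ s, c α ∈ W ⊔ I) :
    ∃ (n : ℕ) (w : Fin n → V) (φ : Fin n → V →ₗ[ℚ] ℚ), (∀ m, w m ∈ W) ∧
      (∀ m, ∀ f ∈ I, φ m f = 0) ∧ ∀ α ∈ s, c α - ∑ m, φ m (c α) • w m ∈ I := by
  classical
  let U : Submodule ℚ (V ⧸ I) := Submodule.span ℚ (↑(s.image (fun α => I.mkQ (c α))) : Set (V ⧸ I))
  have : FiniteDimensional ℚ U := FiniteDimensional.span_finset ℚ _
  have hU : U ≤ W.map I.mkQ := by
    refine Submodule.span_le.mpr ?_
    intro x hx
    obtain ⟨α, hα, rfl⟩ := mem_image.mp (Finset.mem_coe.mp hx)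
    obtain ⟨y, hy, z, hz, hyz⟩ := Submodule.mem_sup.mp (hc α hα)
    refine ⟨y, hy, ?_⟩
    rw [← hyz, map_add, Submodule.mkQ_apply I z, (Submodule.Quotient.mk_eq_zero I).mpr hz, add_zero]
  let b := Module.finBasis ℚ U
  have hw : ∀ m, ∃ w ∈ W, I.mkQ w = (b m : V ⧸ I) := fun m => hU (b m).2
  choose w hwW hw using hw
  have hψ : ∀ m, ∃ ψ : (V ⧸ I) →ₗ[ℚ] ℚ, ψ.comp U.subtype = b.coord m :=
    fun m => (b.coord m).exists_extend
  choose ψ hψ using hψ
  refine ⟨_, w, fun m => (ψ m).comp I.mkQ, hwW, fun m f hf => ?_, fun α hα => ?_⟩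
  · rw [LinearMap.comp_apply, Submodule.mkQ_apply, (Submodule.Quotient.mk_eq_zero I).mpr hf,
      map_zero]
  · rw [← Submodule.Quotient.mk_eq_zero, ← Submodule.mkQ_apply, map_sub, map_sum, sub_eq_zero]
    have hmem : I.mkQ (c α) ∈ U :=
      Submodule.subset_span (Finset.mem_coe.mpr (mem_image_of_mem _ hα))
    have h1 := b.sum_repr ⟨_, hmem⟩
    have h2 := congrArg (Subtype.val : U → V ⧸ I) h1
    simp only [AddSubmonoidClass.coe_finsetSum, SetLike.val_smul] at h2
    rw [← h2]
    refine Finset.sum_congr rfl fun m _ => ?_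
    rw [map_smul, hw m, LinearMap.comp_apply]
    congr 1
    have := DFunLike.congr_fun (hψ m) ⟨_, hmem⟩
    simpa using this.symm

end Crest.Agent.R59.StepAux
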