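import Crest.Agent.R59.Fact

/-! # Power series in one monomial, wall factors, rays -/

set_option autoImplicit false

namespace Crest.Agent.R59
open Finset Pointwise

variable {L : Type} [AddCommGroup L]

/-- `p` is a rational multiple of `n` -/
def Par (n p : L) : Prop := ∃ a b : ℤ, a ≠ 0 ∧ a • p = b • n

open Classical in
/-- the function `k • n ↦ coeff k φ` -/
noncomputable def rayFun (n : L) (φ : PowerSeries K) : L → K :=
  fun p => if h : ∃ k : ℕ, p = k • n then PowerSeries.coeff (Classical.choose h) φ else 0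

theorem nsmul_inj_of_ne {δ : L →+ ℤ} {n : L} (hn : δ n ≠ 0) {k l : ℕ} (h : k • n = l • n) :
    k = l := by
  have := congrArg δ h
  rw [map_nsmul, map_nsmul, nsmul_eq_mul, nsmul_eq_mul] at this
  exact_mod_cast mul_right_cancel₀ hn this

theorem omega_antisymm {ω : L →+ L →+ ℤ} (hω : ∀ p, ω p p = 0) (p r : L) : ω p r = -ω r p := by
  have := hω (p + r)
  simp only [map_add, AddMonoidHom.add_apply, hω] at this
  omega

theorem rayFun_nsmul {δ : L →+ ℤ} {n : L} (hn : δ n ≠ 0) (φ : PowerSeries K) (k : ℕ) :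
    rayFun n φ (k • n) = PowerSeries.coeff k φ := by
  have h : ∃ l : ℕ, k • n = l • n := ⟨k, rfl⟩
  rw [rayFun, dif_pos h, ← nsmul_inj_of_ne hn (Classical.choose_spec h)]

theorem rayFun_ne_zero {n p : L} {φ : PowerSeries K} (h : rayFun n φ p ≠ 0) : ∃ k : ℕ, p = k • n := by
  by_contra hc
  exact h (by rw [rayFun, dif_neg hc])

theorem isNov_rayFun {δ : L →+ ℤ} {n : L} (hn : 0 < δ n) (φ : PowerSeries K) :
    IsNov δ (rayFun n φ) := by
  intro D
  refine ((Set.finite_Iic D.toNat).image fun k : ℕ => k • n).subset fun p hp => ?_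
  obtain ⟨k, rfl⟩ := rayFun_ne_zero hp.1
  refine ⟨k, ?_, rfl⟩
  have h := hp.2
  rw [map_nsmul, nsmul_eq_mul] at h
  have : (k : ℤ) ≤ k * δ n := le_mul_of_one_le_right (Int.natCast_nonneg k) hn
  rw [Set.mem_Iic]
  omega

theorem Par.refl (n : L) : Par n n := ⟨1, 1, one_ne_zero, rfl⟩

theorem par_zero (n : L) : Par n 0 := ⟨1, 0, one_ne_zero, by simp⟩

theorem Par.add {n p r : L} (h : Par n p) (h' : Par n r) : Par n (p + r) := by
  obtain ⟨a, b, ha, e⟩ := h
  obtain ⟨a', b', ha', e'⟩ := h'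
  refine ⟨a * a', a' * b + a * b', mul_ne_zero ha ha', ?_⟩
  rw [smul_add, add_smul, mul_smul a' b, mul_smul a b', ← e, ← e', ← mul_smul, ← mul_smul,
    mul_comm a' a]

theorem Par.nsmul {n p : L} (h : Par n p) (k : ℕ) : Par n (k • p) := by
  induction k with
  | zero => rw [zero_smul]; exact par_zero n
  | succ k ih => rw [succ_nsmul]; exact ih.add h

theorem Par.trans {m n p : L} (h : Par m n) (h' : Par n p) : Par m p := by
  obtain ⟨a, b, ha, e⟩ := h
  obtain ⟨a', b', ha', e'⟩ := h'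
  refine ⟨a * a', b' * b, mul_ne_zero ha ha', ?_⟩
  rw [mul_smul, e', mul_smul, ← e, smul_comm]

theorem Par.symm {δ : L →+ ℤ} {n p : L} (h : Par n p) (hp : δ p ≠ 0) : Par p n := by
  obtain ⟨a, b, ha, e⟩ := h
  refine ⟨b, a, ?_, e.symm⟩
  rintro rfl
  have := congrArg δ e
  rw [zero_smul, map_zero, map_zsmul, smul_eq_mul] at this
  exact mul_ne_zero ha hp this

theorem Par.map_eq_zero {n p : L} (h : Par n p) {f : L →+ ℤ} (hf : f n = 0) : f p = 0 := by
  obtain ⟨a, b, ha, e⟩ := h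
  have := congrArg f e
  rw [map_zsmul, map_zsmul, hf, smul_zero, smul_eq_mul] at this
  exact (mul_eq_zero.1 this).resolve_left ha

theorem Par.map_eq_zero_real {n p : L} (h : Par n p) {f : L →+ ℝ} (hf : f n = 0) : f p = 0 := by
  obtain ⟨a, b, ha, e⟩ := h
  have := congrArg f e
  rw [map_zsmul, map_zsmul, hf, smul_zero, zsmul_eq_mul] at this
  exact (mul_eq_zero.1 this).resolve_left (Int.cast_ne_zero.2 ha)

theorem Par.exists_nat {δ : L →+ ℤ} {n p : L} (h : Par n p) (hn : 0 < δ n) (hp : 0 < δ p) :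
    ∃ a b : ℕ, a ≠ 0 ∧ b ≠ 0 ∧ a • p = b • n := by
  have key : ∀ a b : ℤ, 0 < a → a • p = b • n → ∃ a b : ℕ, a ≠ 0 ∧ b ≠ 0 ∧ a • p = b • n := by
    intro a b ha e
    have h1 := congrArg δ e
    rw [map_zsmul, map_zsmul, smul_eq_mul, smul_eq_mul] at h1
    have hb : 0 < b := (mul_pos_iff_of_pos_right hn).1 (h1 ▸ mul_pos ha hp)
    lift a to ℕ using ha.le
    lift b to ℕ using hb.le
    exact ⟨a, b, by omega, by omega, by simpa only [natCast_zsmul] using e⟩
  obtain ⟨a, b, ha, e⟩ := h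
  rcases ha.lt_or_gt with ha | ha
  · exact key (-a) (-b) (by omega) (by rw [neg_smul, neg_smul, e])
  · exact key a b ha e

/-- parallel elements of positive degree have linear forms of the same sign -/
theorem Par.sign_eq {δ : L →+ ℤ} {n p : L} (h : Par n p) (hn : 0 < δ n) (hp : 0 < δ p)
    (f : L →+ ℤ) : SignType.sign (f p) = SignType.sign (f n) := by
  obtain ⟨a, b, ha, hb, e⟩ := h.exists_nat hn hp
  have h1 := congrArg (fun x => SignType.sign (f x)) e
  simp only [map_nsmul, nsmul_eq_mul, sign_mul] at h1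
  rwa [sign_pos (by omega : (0 : ℤ) < a), sign_pos (by omega : (0 : ℤ) < b), one_mul,
    one_mul] at h1

theorem Par.sg_eq {δ : L →+ ℤ} {n p : L} (h : Par n p) (hn : 0 < δ n) (hp : 0 < δ p)
    (σ : Tri L) : σ.sg p = σ.sg n := by
  obtain ⟨a, b, ha, hb, e⟩ := h.exists_nat hn hp
  rw [← σ.sg_nsmul p ha, e, σ.sg_nsmul n hb]

namespace Nov
variable {ω : L →+ L →+ ℤ} {δ δ' : L →+ ℤ}

/-- `φ(z^n)` (junk value `0` if `δ n ≤ 0`) -/
noncomputable def ev (n : L) (φ : PowerSeries K) : Nov ω δ :=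
  if hn : 0 < δ n then ⟨rayFun n φ, isNov_rayFun hn φ⟩ else 0

/-- the wall factor `E^±(v^i z^n)` -/
noncomputable def Efac (pr : L → Bool) (x : L × ℤ) : Nov ω δ :=
  ev x.1 (PowerSeries.rescale (v ^ x.2) (Eser (pr x.1)))

/-- ordered product of wall factors -/
noncomputable def prodE (pr : L → Bool) (l : List (L × ℤ)) : Nov ω δ := (l.map (Efac pr)).prod

/-- the initial wall `E⁻(v z^n)` -/
noncomputable def E0 (n : L) : Nov ω δ := ev n (PowerSeries.rescale v (Eser true))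

/-- all coefficients in `A` are positive -/
def PosOn (A : Set L) (F : Nov ω δ) : Prop := ∀ p ∈ A, F.co p ∈ Pos

variable {n : L} {φ ψ : PowerSeries K}

theorem co_ev (hn : 0 < δ n) (φ : PowerSeries K) : (ev n φ : Nov ω δ).co = rayFun n φ := by
  simp [ev, hn]

theorem ev_of_not_pos (hn : ¬ 0 < δ n) (φ : PowerSeries K) : (ev n φ : Nov ω δ) = 0 := by
  simp [ev, hn]

theorem co_ev_nsmul (hn : 0 < δ n) (φ : PowerSeries K) (k : ℕ) :
    (ev n φ : Nov ω δ).co (k • n) = PowerSeries.coeff k φ := by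
  rw [co_ev hn, rayFun_nsmul hn.ne']

theorem co_ev_ne_zero {p : L} (h : (ev n φ : Nov ω δ).co p ≠ 0) : ∃ k : ℕ, p = k • n := by
  by_cases hn : 0 < δ n
  · rw [co_ev hn] at h
    exact rayFun_ne_zero h
  · rw [ev_of_not_pos hn] at h
    exact absurd rfl h

theorem ev_eq (hn : 0 < δ n) {F : Nov ω δ} (h1 : ∀ k : ℕ, F.co (k • n) = PowerSeries.coeff k φ)
    (h2 : ∀ p, F.co p ≠ 0 → ∃ k : ℕ, p = k • n) : ev n φ = F := by
  refine ext' fun p => ?_
  by_cases h : ∃ k : ℕ, p = k • n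
  · obtain ⟨k, rfl⟩ := h
    rw [h1, co_ev_nsmul hn]
  · rw [not_not.1 (mt (h2 p) h), not_not.1 (mt co_ev_ne_zero h)]

theorem exists_co_sub_eq_zero (hn : 0 < δ n) (x : Nov ω δ) (p : L) :
    ∃ N : ℕ, ∀ k : ℕ, N ≤ k → x.co (p - k • n) = 0 := by
  obtain ⟨b, hb⟩ := x.nov.exists_lb
  refine ⟨(δ p - b).toNat + 1, fun k hk => ?_⟩
  by_contra h
  have h1 := hb _ h
  rw [map_sub, map_nsmul, nsmul_eq_mul] at h1
  have : (k : ℤ) ≤ k * δ n := le_mul_of_one_le_right (Int.natCast_nonneg k) hn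
  omega

theorem co_mul_ev' (hn : 0 < δ n) (x : Nov ω δ) (φ : PowerSeries K) (p : L) {N : ℕ}
    (hN : ∀ k : ℕ, N ≤ k → x.co (p - k • n) = 0 ∨ PowerSeries.coeff k φ = 0) :
    (x * ev n φ).co p = ∑ k ∈ range N,
      v ^ (ω (p - k • n) (k • n)) * x.co (p - k • n) * PowerSeries.coeff k φ := by
  classical
  rw [co_mul_eq_sum (S := (range N).image fun k : ℕ => p - k • n), Finset.sum_image]
  · refine Finset.sum_congr rfl fun k _ => ?_
    rw [sub_sub_cancel, co_ev_nsmul hn]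
  · intro k _ l _ h
    exact nsmul_inj_of_ne hn.ne' (sub_right_injective h)
  · intro r h1 h2
    obtain ⟨k, hk⟩ := co_ev_ne_zero h2
    have hr : r = p - k • n := by rw [← hk, sub_sub_cancel]
    refine mem_image.2 ⟨k, mem_range.2 (not_le.1 fun h => ?_), hr.symm⟩
    rcases hN k h with h' | h'
    · exact h1 (by rw [hr, h'])
    · exact h2 (by rw [hk, co_ev_nsmul hn, h'])

theorem co_ev_mul (hn : 0 < δ n) (x : Nov ω δ) (φ : PowerSeries K) (p : L) {N : ℕ}
    (hN : ∀ k : ℕ, N ≤ k → x.co (p - k • n) = 0 ∨ PowerSeries.coeff k φ = 0) :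
    (ev n φ * x).co p = ∑ k ∈ range N,
      v ^ (ω (k • n) (p - k • n)) * PowerSeries.coeff k φ * x.co (p - k • n) := by
  classical
  rw [co_mul_eq_sum (S := (range N).image fun k : ℕ => k • n), Finset.sum_image]
  · refine Finset.sum_congr rfl fun k _ => ?_
    rw [co_ev_nsmul hn]
  · intro k _ l _ h
    exact nsmul_inj_of_ne hn.ne' h
  · intro r h1 h2
    obtain ⟨k, rfl⟩ := co_ev_ne_zero h1
    refine mem_image.2 ⟨k, mem_range.2 (not_le.1 fun h => ?_), rfl⟩
    rcases hN k h with h' | h'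
    · exact h2 h'
    · exact h1 (by rw [co_ev_nsmul hn, h'])

theorem ev_one (hn : 0 < δ n) : (ev n 1 : Nov ω δ) = 1 := by
  refine ev_eq hn (fun k => ?_) (fun p hp => ⟨0, ?_⟩)
  · rw [PowerSeries.coeff_one]
    split_ifs with hk
    · rw [hk, zero_smul, co_one_zero]
    · exact co_one_of_ne fun h => hk (nsmul_inj_of_ne hn.ne' (h.trans (zero_smul ℕ n).symm))
  · rw [zero_smul]
    by_contra h
    exact hp (co_one_of_ne h)

theorem ev_add (n : L) (φ ψ : PowerSeries K) : (ev n (φ + ψ) : Nov ω δ) = ev n φ + ev n ψ := by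
  by_cases hn : 0 < δ n
  · refine ev_eq hn (fun k => ?_) (fun p hp => ?_)
    · rw [co_add, co_ev_nsmul hn, co_ev_nsmul hn, map_add]
    · by_cases h : (ev n φ : Nov ω δ).co p = 0
      · rw [co_add, h, zero_add] at hp
        exact co_ev_ne_zero hp
      · exact co_ev_ne_zero h
  · simp only [ev_of_not_pos hn, add_zero]

theorem ev_smul (n : L) (c : K) (φ : PowerSeries K) : (ev n (c • φ) : Nov ω δ) = c • ev n φ := by
  by_cases hn : 0 < δ n
  · refine ev_eq hn (fun k => ?_) (fun p hp => ?_)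
    · rw [co_smul, co_ev_nsmul hn, map_smul, smul_eq_mul]
    · rw [co_smul] at hp
      exact co_ev_ne_zero (right_ne_zero_of_mul hp)
  · simp only [ev_of_not_pos hn, smul_zero]

theorem ev_mul (hω : ∀ p, ω p p = 0) (n : L) (φ ψ : PowerSeries K) :
    (ev n (φ * ψ) : Nov ω δ) = ev n φ * ev n ψ := by
  by_cases hn : 0 < δ n
  · refine ev_eq hn (fun k => ?_) (fun p hp => ?_)
    · rw [co_ev_mul hn _ _ _ (N := k + 1), PowerSeries.coeff_mul,
        Finset.Nat.sum_antidiagonal_eq_sum_range_succ_mk]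
      · refine Finset.sum_congr rfl fun j hj => ?_
        have hjk : j ≤ k := Nat.lt_succ_iff.1 (mem_range.1 hj)
        have e : k • n - j • n = (k - j) • n := by
          rw [sub_eq_iff_eq_add, ← add_smul, Nat.sub_add_cancel hjk]
        rw [e, co_ev_nsmul hn]
        simp only [map_nsmul, AddMonoidHom.nsmul_apply, hω, smul_zero, zpow_zero, one_mul]
      · intro j hj
        left
        by_contra h
        obtain ⟨i, hi⟩ := co_ev_ne_zero h
        rw [sub_eq_iff_eq_add, ← add_smul] at hi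
        have := nsmul_inj_of_ne hn.ne' hi
        omega
    · obtain ⟨r, h1, h2⟩ := co_mul_ne_zero hp
      obtain ⟨i, rfl⟩ := co_ev_ne_zero h1
      obtain ⟨j, hj⟩ := co_ev_ne_zero h2
      exact ⟨j + i, by rw [add_smul, ← hj, sub_add_cancel]⟩
  · simp only [ev_of_not_pos hn, mul_zero]

theorem ev_X (hn : 0 < δ n) : (ev n PowerSeries.X : Nov ω δ) = single n 1 := by
  refine ev_eq hn (fun k => ?_) (fun p hp => ⟨1, ?_⟩)
  · rw [PowerSeries.coeff_X]
    split_ifs with hk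
    · rw [hk, one_smul, co_single_self]
    · exact co_single_of_ne (fun h => hk (nsmul_inj_of_ne hn.ne' (h.trans (one_smul ℕ n).symm))) _
  · rw [one_smul]
    by_contra h
    exact hp (co_single_of_ne h _)

theorem supp_ev {M : AddSubmonoid L} (h : n ∈ M) (φ : PowerSeries K) :
    Supp (ev n φ : Nov ω δ) M := by
  intro p hp
  obtain ⟨k, rfl⟩ := co_ev_ne_zero hp
  exact M.nsmul_mem h k

theorem isUni_ev (hn : 0 < δ n) (hφ : PowerSeries.constantCoeff φ = 1) :
    IsUni (ev n φ : Nov ω δ) := by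
  refine ⟨?_, fun p hp h => ?_⟩
  · have := co_ev_nsmul (ω := ω) hn φ 0
    rwa [zero_smul, PowerSeries.coeff_zero_eq_constantCoeff_apply, hφ] at this
  · obtain ⟨k, rfl⟩ := co_ev_ne_zero h
    have hk : k ≠ 0 := by
      rintro rfl
      exact hp (zero_smul ℕ n)
    rw [map_nsmul, nsmul_eq_mul]
    exact mul_pos (by omega) hn

theorem sg_ev (σ : Tri L) (n : L) (φ : PowerSeries K) : Sg σ (σ.sg n) (ev n φ : Nov ω δ) := by
  intro p hp h
  obtain ⟨k, rfl⟩ := co_ev_ne_zero h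
  refine σ.sg_nsmul n ?_
  rintro rfl
  exact hp (zero_smul ℕ n)

theorem rel_ev {T : L ≃+ L} (hn : 0 < δ n) (hn' : 0 < δ' (T n)) (φ : PowerSeries K) :
    Rel T (ev n φ : Nov ω δ) (ev (T n) φ : Nov ω δ') := by
  intro p
  by_cases h : ∃ k : ℕ, p = k • n
  · obtain ⟨k, rfl⟩ := h
    rw [map_nsmul, co_ev_nsmul hn, co_ev_nsmul hn']
  · rw [not_not.1 (mt co_ev_ne_zero h)]
    by_contra h'
    obtain ⟨k, hk⟩ := co_ev_ne_zero h'
    exact h ⟨k, T.injective (by rw [hk, map_nsmul])⟩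

/-- commutation with elements on which `ω n` is constant -/
theorem ev_mul_comm (hω : ∀ p, ω p p = 0) {x : Nov ω δ} {w : ℤ} (hx : Supp x {p | ω n p = w})
    (φ : PowerSeries K) : ev n φ * x = x * ev n (PowerSeries.rescale (v ^ (2 * w)) φ) := by
  by_cases hn : 0 < δ n
  · refine ext' fun p => ?_
    obtain ⟨N, hN⟩ := exists_co_sub_eq_zero hn x p
    rw [co_ev_mul hn _ _ _ (N := N) fun k hk => Or.inl (hN k hk),
      co_mul_ev' hn _ _ _ (N := N) fun k hk => Or.inl (hN k hk)]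
    refine Finset.sum_congr rfl fun k _ => ?_
    by_cases h : x.co (p - k • n) = 0
    · rw [h, mul_zero, mul_zero, zero_mul]
    · have h1 : ω n (p - k • n) = w := hx _ h
      have h2 : ω (k • n) (p - k • n) = k * w := by
        rw [map_nsmul, AddMonoidHom.nsmul_apply, h1, nsmul_eq_mul]
      have h3 : v ^ ((k : ℤ) * w) = v ^ (-(k * w)) * (v ^ (2 * w)) ^ k := by
        rw [← zpow_natCast, ← zpow_mul, ← zpow_add₀ v_ne_zero]
        congr 1
        ring
      rw [omega_antisymm hω (p - k • n), h2, PowerSeries.coeff_rescale, h3]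
      ring
  · simp only [ev_of_not_pos hn, mul_zero, zero_mul]

theorem co_mul_ev (hn : 0 < δ n) (x : Nov ω δ) (φ : PowerSeries K) (p : L) {N : ℕ}
    (hN : ∀ k : ℕ, N ≤ k → x.co (p - k • n) = 0 ∨ PowerSeries.coeff k φ = 0) :
    (x * ev n φ).co p = ∑ k ∈ range N,
      v ^ (ω (p - k • n) (k • n)) * x.co (p - k • n) * PowerSeries.coeff k φ :=
  co_mul_ev' hn x φ p hN

theorem constantCoeff_rescale_Eser (a : K) (b : Bool) :
    PowerSeries.constantCoeff (PowerSeries.rescale a (Eser b)) = 1 := by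
  rw [← PowerSeries.coeff_zero_eq_constantCoeff_apply, PowerSeries.coeff_rescale, pow_zero, one_mul,
    PowerSeries.coeff_zero_eq_constantCoeff_apply, constantCoeff_Eser]

theorem isUni_Efac (pr : L → Bool) {x : L × ℤ} (hx : 0 < δ x.1) : IsUni (Efac pr x : Nov ω δ) :=
  isUni_ev hx (constantCoeff_rescale_Eser _ _)

theorem isUni_E0 (hn : 0 < δ n) : IsUni (E0 n : Nov ω δ) :=
  isUni_ev hn (constantCoeff_rescale_Eser _ _)

theorem E0_eq_Efac {pr : L → Bool} (h : pr n = true) : (E0 n : Nov ω δ) = Efac pr (n, 1) := by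
  simp [E0, Efac, h]

theorem isUni_prodE (pr : L → Bool) {l : List (L × ℤ)} (hl : ∀ x ∈ l, 0 < δ x.1) :
    IsUni (prodE pr l : Nov ω δ) := by
  refine IsUni.list_prod fun y hy => ?_
  obtain ⟨x, hx, rfl⟩ := List.mem_map.1 hy
  exact isUni_Efac pr (hl x hx)

theorem supp_prodE (pr : L → Bool) {M : AddSubmonoid L} {l : List (L × ℤ)} (hl : ∀ x ∈ l, x.1 ∈ M) :
    Supp (prodE pr l : Nov ω δ) M := by
  refine Supp.list_prod fun y hy => ?_
  obtain ⟨x, hx, rfl⟩ := List.mem_map.1 hy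
  exact supp_ev (hl x hx) _

theorem sg_prodE (pr : L → Bool) {σ : Tri L} {s : SignType} {l : List (L × ℤ)}
    (hl : ∀ x ∈ l, 0 < δ x.1 ∧ σ.sg x.1 = s) : Sg σ s (prodE pr l : Nov ω δ) := by
  refine Sg.list_prod fun y hy => ?_
  obtain ⟨x, hx, rfl⟩ := List.mem_map.1 hy
  exact ⟨isUni_Efac pr (hl x hx).1, (hl x hx).2 ▸ sg_ev σ x.1 _⟩

theorem prodE_append (pr : L → Bool) (l l' : List (L × ℤ)) :
    (prodE pr (l ++ l') : Nov ω δ) = prodE pr l * prodE pr l' := by simp [prodE]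

theorem prodE_nil (pr : L → Bool) : (prodE pr [] : Nov ω δ) = 1 := rfl

theorem prodE_cons (pr : L → Bool) (x : L × ℤ) (l : List (L × ℤ)) :
    (prodE pr (x :: l) : Nov ω δ) = Efac pr x * prodE pr l := by simp [prodE]

/-- only the part of `F` with the same `f`-value contributes -/
theorem co_conj_res {f : L →+ ℤ} {a b : Nov ω δ} (ha : Supp a {p | f p = 0})
    (hb : Supp b {p | f p = 0}) (F : Nov ω δ) (p : L) :
    (a * F * b).co p = (a * res {r | f r = f p} F * b).co p := by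
  have e : F = res {r | f r = f p} F + res {r | f r ≠ f p} F := by
    refine ext' fun r => ?_
    by_cases h : f r = f p
    · rw [co_add, co_res_of_mem (by exact h), co_res_of_not_mem (by simpa using h), add_zero]
    · rw [co_add, co_res_of_not_mem (by exact h), co_res_of_mem (by exact h), zero_add]
  conv_lhs => rw [e, mul_add, add_mul, co_add]
  rw [add_eq_left]
  by_contra h
  obtain ⟨r, h1, h2⟩ := co_mul_ne_zero h
  obtain ⟨s, h3, h4⟩ := co_mul_ne_zero h1
  have a1 : f s = 0 := ha _ h3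
  have a2 : f (p - r) = 0 := hb _ h2
  refine h4 (co_res_of_not_mem ?_)
  rw [map_sub] at a2
  simp only [Set.mem_ofPred_eq, map_sub, ne_eq, not_not]
  omega

theorem supp_res (A : Set L) (F : Nov ω δ) : Supp (res A F) A := fun _ hp =>
  not_not.1 fun h => hp (co_res_of_not_mem h)

theorem PosOn.res {A : Set L} {F : Nov ω δ} (hF : PosOn A F) (B : Set L) : PosOn A (res B F) := by
  intro p hp
  by_cases h : p ∈ B
  · rw [co_res_of_mem h]; exact hF p hp
  · rw [co_res_of_not_mem h]; exact zero_mem _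

theorem sub_nsmul_mem {A : Set L} (hA : ∀ p ∈ A, p - n ∈ A) {p : L} (hp : p ∈ A) (k : ℕ) :
    p - k • n ∈ A := by
  induction k with
  | zero => simpa using hp
  | succ k ih => rw [succ_nsmul, ← sub_sub]; exact hA _ ih

theorem supp_ev_ker (hω : ∀ p, ω p p = 0) (n : L) (φ : PowerSeries K) :
    Supp (ev n φ : Nov ω δ) (AddMonoidHom.mker (ω n)) :=
  supp_ev (AddMonoidHom.mem_mker.2 (hω n)) φ

theorem posOn_conj_Efac (hω : ∀ p, ω p p = 0) (pr : L → Bool) {x : L × ℤ} {A : Set L}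
    (hn : 0 < δ x.1) (h0 : ∀ p ∈ A, 0 ≤ ω p x.1) (hA : ∀ p ∈ A, p - x.1 ∈ A) {F : Nov ω δ}
    (hF : PosOn A F) : PosOn A (Efac pr x * F * inv (Efac pr x)) := by
  obtain ⟨n, i⟩ := x
  intro p hp
  have hU : IsUni (Efac pr (n, i) : Nov ω δ) := isUni_Efac pr hn
  have hS : Supp (Efac pr (n, i) : Nov ω δ) (AddMonoidHom.mker (ω n)) := supp_ev_ker hω n _
  rw [co_conj_res (f := ω n) hS (hU.supp_inv hS)]
  obtain ⟨c, hc⟩ := Int.eq_ofNat_of_zero_le (h0 p hp)
  obtain ⟨ρ, hρ, e⟩ := exists_pos_ratio (pr n) i c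
  have h1 : Efac pr (n, i) * res {r | ω n r = ω n p} F =
      res {r | ω n r = ω n p} F * ev n ρ * Efac pr (n, i) := by
    rw [Efac, ev_mul_comm hω (supp_res _ F), PowerSeries.rescale_rescale, ← zpow_add₀ v_ne_zero,
      mul_assoc, ← ev_mul hω, ← e, omega_antisymm hω n p, hc, mul_neg, ← sub_eq_add_neg]
  obtain ⟨N, hN⟩ := exists_co_sub_eq_zero hn (res {r | ω n r = ω n p} F) p
  rw [h1, mul_assoc, hU.mul_inv, mul_one, co_mul_ev hn _ _ _ fun k hk => Or.inl (hN k hk)]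
  exact sum_mem fun k _ => mul_mem (mul_mem (v_zpow_mem_Pos _)
    (hF.res _ _ (sub_nsmul_mem hA hp k))) (hρ k)

theorem posOn_inv_conj_Efac (hω : ∀ p, ω p p = 0) (pr : L → Bool) {x : L × ℤ} {A : Set L}
    (hn : 0 < δ x.1) (h0 : ∀ p ∈ A, ω p x.1 ≤ 0) (hA : ∀ p ∈ A, p - x.1 ∈ A) {F : Nov ω δ}
    (hF : PosOn A F) : PosOn A (inv (Efac pr x) * F * Efac pr x) := by
  obtain ⟨n, i⟩ := x
  intro p hp
  have hU : IsUni (Efac pr (n, i) : Nov ω δ) := isUni_Efac pr hn
  have hS : Supp (Efac pr (n, i) : Nov ω δ) (AddMonoidHom.mker (ω n)) := supp_ev_ker hω n _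
  rw [co_conj_res (f := ω n) (hU.supp_inv hS) hS]
  obtain ⟨c, hc⟩ := Int.eq_ofNat_of_zero_le (a := ω n p) (by
    have := h0 p hp
    rw [omega_antisymm hω] at this
    exact neg_nonpos.1 this)
  obtain ⟨ρ, hρ, e⟩ := exists_pos_ratio (pr n) i c
  have h1 : res {r | ω n r = ω n p} F * Efac pr (n, i) =
      Efac pr (n, i) * (ev n ρ * res {r | ω n r = ω n p} F) := by
    rw [Efac, ← mul_assoc, ← ev_mul hω, mul_comm _ ρ, ← e, ev_mul_comm hω (supp_res _ F),
      PowerSeries.rescale_rescale, ← zpow_add₀ v_ne_zero, hc, sub_add_cancel]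
  obtain ⟨N, hN⟩ := exists_co_sub_eq_zero hn (res {r | ω n r = ω n p} F) p
  rw [mul_assoc, h1, ← mul_assoc, hU.inv_mul, one_mul,
    co_ev_mul hn _ _ _ fun k hk => Or.inl (hN k hk)]
  exact sum_mem fun k _ => mul_mem (mul_mem (v_zpow_mem_Pos _) (hρ k))
    (hF.res _ _ (sub_nsmul_mem hA hp k))

/-- conjugation by wall factors is positive in the right direction -/
theorem posOn_conj_prodE (hω : ∀ p, ω p p = 0) (pr : L → Bool) {l : List (L × ℤ)} {A : Set L}
    (hl : ∀ x ∈ l, 0 < δ x.1 ∧ (∀ p ∈ A, 0 ≤ ω p x.1) ∧ ∀ p ∈ A, p - x.1 ∈ A) {F : Nov ω δ}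
    (hF : PosOn A F) : PosOn A (prodE pr l * F * inv (prodE pr l)) := by
  induction l with
  | nil => rwa [prodE_nil, inv_one, one_mul, mul_one]
  | cons x l ih =>
    have hx := hl x List.mem_cons_self
    have hl' := fun y hy => hl y (List.mem_cons_of_mem x hy)
    have := posOn_conj_Efac hω pr hx.1 hx.2.1 hx.2.2 (ih hl')
    rw [prodE_cons, (isUni_Efac pr hx.1).inv_mul_rev (isUni_prodE pr fun y hy => (hl' y hy).1)]
    simpa only [mul_assoc] using this

theorem posOn_inv_conj_prodE (hω : ∀ p, ω p p = 0) (pr : L → Bool) {l : List (L × ℤ)} {A : Set L}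
    (hl : ∀ x ∈ l, 0 < δ x.1 ∧ (∀ p ∈ A, ω p x.1 ≤ 0) ∧ ∀ p ∈ A, p - x.1 ∈ A) {F : Nov ω δ}
    (hF : PosOn A F) : PosOn A (inv (prodE pr l) * F * prodE pr l) := by
  induction l generalizing F with
  | nil => rwa [prodE_nil, inv_one, one_mul, mul_one]
  | cons x l ih =>
    have hx := hl x List.mem_cons_self
    have hl' := fun y hy => hl y (List.mem_cons_of_mem x hy)
    have := ih hl' (posOn_inv_conj_Efac hω pr hx.1 hx.2.1 hx.2.2 hF)
    rw [prodE_cons, (isUni_Efac pr hx.1).inv_mul_rev (isUni_prodE pr fun y hy => (hl' y hy).1)]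
    simpa only [mul_assoc] using this

theorem co_mul_comm_of_orth (hω : ∀ p, ω p p = 0) {r : L} {x : Nov ω δ}
    (hx : Supp x {p | ω r p = 0}) (y : Nov ω δ) : (x * y).co r = (y * x).co r := by
  rw [co_mul, co_mul, tmul, tmul, ← finsum_comp_equiv (Equiv.subLeft r)]
  refine finsum_congr fun s => ?_
  rw [Equiv.subLeft_apply, sub_sub_cancel]
  by_cases h : x.co (r - s) = 0
  · rw [h, mul_zero, zero_mul, mul_zero]
  · have h1 : ω r (r - s) = 0 := hx _ h
    rw [map_sub, hω, zero_sub, neg_eq_zero] at h1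
    have h2 : ω (r - s) s = 0 := by rw [map_sub, AddMonoidHom.sub_apply, h1, hω, sub_zero]
    rw [omega_antisymm hω s, h2, neg_zero]
    ring

/-- the coefficient of `z^r` is invariant under conjugation by elements orthogonal to `r` -/
theorem co_conj_of_orth (hω : ∀ p, ω p p = 0) {r : L} {h : Nov ω δ} (hh : IsUni h)
    (ho : Supp h {p | ω r p = 0}) (F : Nov ω δ) : (inv h * F * h).co r = F.co r := by
  have h1 : Supp (inv h) (AddMonoidHom.mker (ω r)) := hh.supp_inv (M := AddMonoidHom.mker (ω r)) ho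
  rw [mul_assoc, co_mul_comm_of_orth hω h1, mul_assoc, hh.mul_inv, mul_one]

end Nov

/-- small generic perturbation of a real linear form -/
theorem exists_generic_perturb [Countable L] (θ ψ : L →+ ℝ) (Γ : Set L) (hΓ : Γ.Finite) :
    ∃ ε : ℝ, 0 < ε ∧ (∀ p, θ p + ε * ψ p = 0 ↔ θ p = 0 ∧ ψ p = 0) ∧
      ∀ p ∈ Γ, θ p ≠ 0 → SignType.sign (θ p + ε * ψ p) = SignType.sign (θ p) := by
  have h1 : ∀ᶠ ε in nhds (0 : ℝ),
      ∀ p ∈ Γ, θ p ≠ 0 → SignType.sign (θ p + ε * ψ p) = SignType.sign (θ p) := by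
    rw [Filter.eventually_all_finite hΓ]
    intro p _
    have ht : Filter.Tendsto (fun ε : ℝ => θ p + ε * ψ p) (nhds 0) (nhds (θ p)) := by
      have : Continuous fun ε : ℝ => θ p + ε * ψ p := by fun_prop
      simpa using this.tendsto 0
    rcases lt_trichotomy (θ p) 0 with h | h | h
    · filter_upwards [ht.eventually (gt_mem_nhds h)] with ε hε _
      rw [sign_neg hε, sign_neg h]
    · exact Filter.Eventually.of_forall fun _ h' => absurd h h'
    · filter_upwards [ht.eventually (lt_mem_nhds h)] with ε hε _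
      rw [sign_pos hε, sign_pos h]
  obtain ⟨ε₀, hε₀, h2⟩ := Metric.eventually_nhds_iff.1 h1
  obtain ⟨ε, hε, h3⟩ := ((Set.countable_range fun p => -θ p / ψ p).dense_compl ℝ).inter_open_nonempty
    (Set.Ioo 0 ε₀) isOpen_Ioo (Set.nonempty_Ioo.2 hε₀)
  refine ⟨ε, hε.1, fun p => ⟨fun h => ?_, fun h => by rw [h.1, h.2, mul_zero, add_zero]⟩,
    h2 (by rw [Real.dist_eq, sub_zero, abs_of_pos hε.1]; exact hε.2)⟩
  by_cases hψ : ψ p = 0
  · rw [hψ, mul_zero, add_zero] at h
    exact ⟨h, hψ⟩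
  · refine absurd ⟨p, ?_⟩ h3
    rw [div_eq_iff hψ]
    linarith

/-- an injective real linear form close to a given one -/
theorem exists_injective_near {ι : Type} [Fintype ι] (θ : (ι → ℤ) →+ ℝ) (Γ : Set (ι → ℤ))
    (hΓ : Γ.Finite) : ∃ θ' : (ι → ℤ) →+ ℝ, Function.Injective θ' ∧
      ∀ p ∈ Γ, θ p ≠ 0 → SignType.sign (θ' p) = SignType.sign (θ p) := by
  classical
  have key : ∀ s : Finset ι, ∃ θ' : (ι → ℤ) →+ ℝ, (∀ p, θ' p = 0 → ∀ i ∈ s, p i = 0) ∧
      ∀ p ∈ Γ, θ p ≠ 0 → SignType.sign (θ' p) = SignType.sign (θ p) := by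
    intro s
    induction s using Finset.induction_on with
    | empty => exact ⟨θ, by simp, fun _ _ _ => rfl⟩
    | insert i s _ ih =>
      obtain ⟨θ', h1, h2⟩ := ih
      let ψ : (ι → ℤ) →+ ℝ := (Int.castAddHom ℝ).comp (Pi.evalAddMonoidHom (fun _ => ℤ) i)
      obtain ⟨ε, -, h3, h4⟩ := exists_generic_perturb θ' ψ Γ hΓ
      refine ⟨θ' + ε • ψ, fun p hp j hj => ?_, fun p hp h0 => ?_⟩
      · obtain ⟨a, b⟩ := (h3 p).1 hp
        rcases mem_insert.1 hj with rfl | hj
        · exact Int.cast_eq_zero.1 b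
        · exact h1 p a j hj
      · rw [← h2 p hp h0]
        refine h4 p hp fun h => h0 ?_
        rw [← sign_eq_zero_iff, ← h2 p hp h0, h, sign_zero]
  obtain ⟨θ', h1, h2⟩ := key univ
  exact ⟨θ', (injective_iff_map_eq_zero θ').2 fun p hp => funext fun i => h1 p hp i (mem_univ i),
    h2⟩

end Crest.Agent.R59
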