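import Crest.Agent.R59.Nov

/-! # Supports, congruences, unipotent elements, trichotomies and the factorisation
`g = g₊ g₀ g₋` -/

set_option autoImplicit false

namespace Crest.Agent.R59
open Finset Pointwise

variable {L : Type} [AddCommGroup L]

/-- a decomposition of `L` into a positive, a zero and a negative part -/
structure Tri (L : Type) [AddCommGroup L] where
  /-- the sign -/
  sg : L → SignType
  sg_zero : sg 0 = 0
  add_same : ∀ p r, sg p = sg r → sg (p + r) = sg p
  add_zero : ∀ p r, sg p = 0 → sg (p + r) = sg r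

namespace Tri

theorem sign_add_same {R : Type} [AddCommGroup R] [LinearOrder R] [IsOrderedAddMonoid R] {a b : R}
    (h : SignType.sign a = SignType.sign b) : SignType.sign (a + b) = SignType.sign a := by
  rcases lt_trichotomy a 0 with ha | rfl | ha
  · rw [sign_neg ha] at h ⊢
    exact sign_neg (add_neg ha (sign_eq_neg_one_iff.1 h.symm))
  · rw [zero_add, h]
  · rw [sign_pos ha] at h ⊢
    exact sign_pos (add_pos ha (sign_eq_one_iff.1 h.symm))

/-- sign of a real linear form -/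
noncomputable def ofR (θ : L →+ ℝ) : Tri L where
  sg p := SignType.sign (θ p)
  sg_zero := by simp
  add_same p r h := by rw [map_add, sign_add_same h]
  add_zero p r h := by rw [map_add, sign_eq_zero_iff.1 h, zero_add]

/-- sign of an integral linear form -/
noncomputable def ofZ (θ : L →+ ℤ) : Tri L where
  sg p := SignType.sign (θ p)
  sg_zero := by simp
  add_same p r h := by rw [map_add, sign_add_same h]
  add_zero p r h := by rw [map_add, sign_eq_zero_iff.1 h, zero_add]

/-- lexicographic refinement -/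
def lex (σ τ : Tri L) : Tri L where
  sg p := if σ.sg p = 0 then τ.sg p else σ.sg p
  sg_zero := by simp [σ.sg_zero, τ.sg_zero]
  add_same p r h := by
    by_cases hp : σ.sg p = 0 <;> by_cases hr : σ.sg r = 0
    · rw [if_pos hp, if_pos hr] at h
      rw [σ.add_zero p r hp, if_pos hr, if_pos hp, τ.add_same p r h]
    · rw [if_pos hp, if_neg hr] at h
      rw [σ.add_zero p r hp, if_neg hr, if_pos hp, h]
    · rw [add_comm, σ.add_zero r p hr, if_neg hp, if_neg hp]
    · rw [if_neg hp, if_neg hr] at h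
      rw [σ.add_same p r h, if_neg hp, if_neg hp]
  add_zero p r h := by
    by_cases hp : σ.sg p = 0
    · rw [if_pos hp] at h
      rw [σ.add_zero p r hp, τ.add_zero p r h]
    · rw [if_neg hp] at h
      exact absurd h hp

/-- opposite -/
def neg (σ : Tri L) : Tri L where
  sg p := -σ.sg p
  sg_zero := by simp [σ.sg_zero]
  add_same p r h := by rw [σ.add_same p r (neg_inj.1 h)]
  add_zero p r h := by rw [σ.add_zero p r (SignType.neg_eq_zero_iff.1 h)]

/-- pull back -/
def comap (σ : Tri L) (T : L →+ L) : Tri L where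
  sg p := σ.sg (T p)
  sg_zero := by simp [σ.sg_zero]
  add_same p r h := by rw [map_add, σ.add_same _ _ h]
  add_zero p r h := by rw [map_add, σ.add_zero _ _ h]

theorem sg_neg (σ : Tri L) (p : L) : σ.sg (-p) = -σ.sg p := by
  have h1 := σ.add_zero p (-p)
  have h2 := σ.add_zero (-p) p
  have h3 := σ.add_same p (-p)
  rw [add_neg_cancel, σ.sg_zero] at h1 h3
  rw [neg_add_cancel, σ.sg_zero] at h2
  revert h1 h2 h3
  generalize σ.sg p = a
  generalize σ.sg (-p) = b
  revert a b
  decide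

theorem sg_nsmul (σ : Tri L) (p : L) {k : ℕ} (hk : k ≠ 0) : σ.sg (k • p) = σ.sg p := by
  induction k with
  | zero => exact absurd rfl hk
  | succ k ih =>
    by_cases h : k = 0
    · simp [h]
    · rw [succ_nsmul, σ.add_same _ _ (ih h), ih h]

end Tri

namespace Nov
variable {ω : L →+ L →+ ℤ} {δ δ' : L →+ ℤ}

/-- support condition -/
def Supp (F : Nov ω δ) (A : Set L) : Prop := ∀ p, F.co p ≠ 0 → p ∈ A

/-- equality of the coefficients outside `U` -/
def Cong (U : Set L) (F G : Nov ω δ) : Prop := ∀ p, p ∉ U → F.co p = G.co p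

/-- `1 +` terms of positive degree -/
def IsUni (g : Nov ω δ) : Prop := g.co 0 = 1 ∧ ∀ p, p ≠ 0 → g.co p ≠ 0 → 0 < δ p

/-- all nonconstant terms have sign `s` -/
def Sg (σ : Tri L) (s : SignType) (g : Nov ω δ) : Prop := ∀ p, p ≠ 0 → g.co p ≠ 0 → σ.sg p = s

/-- inverse -/
noncomputable def inv (g : Nov ω δ) : Nov ω δ := Ring.inverse g

/-- `U` is an upper set for the monoid `M` -/
def Upper (M : AddSubmonoid L) (U : Set L) : Prop := ∀ p ∈ U, ∀ m ∈ M, p + m ∈ U

/-- `y` is the transport of `x` along `T` -/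
def Rel (T : L ≃+ L) (x : Nov ω δ) (y : Nov ω δ') : Prop := ∀ p, y.co (T p) = x.co p

/-- restriction of the coefficients to a set -/
noncomputable def res (A : Set L) (F : Nov ω δ) : Nov ω δ :=
  ⟨A.indicator F.co, F.nov.of_support_subset fun _ hp h => hp (Set.indicator_apply_eq_zero.2 fun _ => h)⟩

section supp
variable {F G H F' G' : Nov ω δ} {A B U : Set L} {M : AddSubmonoid L}

theorem co_res_of_mem {p : L} (h : p ∈ A) : (res A F).co p = F.co p := Set.indicator_of_mem h _
theorem co_res_of_not_mem {p : L} (h : p ∉ A) : (res A F).co p = 0 := Set.indicator_of_notMem h _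

theorem Supp.mono (h : Supp F A) (hA : A ⊆ B) : Supp F B := fun p hp => hA (h p hp)
theorem Supp.mul (h : Supp F A) (h' : Supp G B) : Supp (F * G) (A + B) := fun p hp => by
  obtain ⟨r, h1, h2⟩ := co_mul_ne_zero hp
  exact ⟨r, h r h1, p - r, h' _ h2, by simp⟩
theorem Supp.mul_of_mem (h : Supp F M) (h' : Supp G M) : Supp (F * G) M :=
  (h.mul h').mono (by rintro _ ⟨a, ha, b, hb, rfl⟩; exact M.add_mem ha hb)
theorem Supp.add (h : Supp F A) (h' : Supp G A) : Supp (F + G) A := fun p hp => by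
  by_cases h0 : F.co p = 0
  · exact h' p fun h1 => hp (by simp [h0, h1])
  · exact h p h0
theorem Supp.sub (h : Supp F A) (h' : Supp G A) : Supp (F - G) A := fun p hp => by
  by_cases h0 : F.co p = 0
  · exact h' p fun h1 => hp (by simp [h0, h1])
  · exact h p h0
theorem Supp.smul (h : Supp F A) (c : K) : Supp (c • F) A := fun p hp =>
  h p fun h0 => hp (by simp [h0])
theorem supp_one : Supp (1 : Nov ω δ) M := fun p hp => by
  obtain rfl : p = 0 := by_contra fun h => hp (co_one_of_ne h)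
  exact M.zero_mem
theorem supp_single (p : L) (c : K) : Supp (single p c : Nov ω δ) {p} := fun _ hr =>
  by_contra fun h => hr (co_single_of_ne h c)
theorem Supp.list_prod {l : List (Nov ω δ)} (h : ∀ x ∈ l, Supp x M) : Supp l.prod M := by
  induction l with
  | nil => exact supp_one
  | cons x l ih =>
    rw [List.prod_cons]
    exact (h x (by simp)).mul_of_mem (ih fun y hy => h y (by simp [hy]))
theorem supp_zero : Supp (0 : Nov ω δ) A := fun _ hp => absurd rfl hp
theorem Supp.sum {ι : Type*} {s : Finset ι} {f : ι → Nov ω δ} (h : ∀ i ∈ s, Supp (f i) A) :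
    Supp (∑ i ∈ s, f i) A :=
  Finset.sum_induction f (fun x => Supp x A) (fun _ _ => Supp.add) supp_zero h
theorem Supp.pow (h : Supp F M) (k : ℕ) : Supp (F ^ k) M := by
  induction k with
  | zero => rw [pow_zero]; exact supp_one
  | succ k ih => rw [pow_succ]; exact ih.mul_of_mem h

theorem Cong.refl (U : Set L) (F : Nov ω δ) : Cong U F F := fun _ _ => rfl
theorem Cong.symm (h : Cong U F G) : Cong U G F := fun p hp => (h p hp).symm
theorem Cong.trans (h : Cong U F G) (h' : Cong U G H) : Cong U F H :=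
  fun p hp => (h p hp).trans (h' p hp)
theorem Cong.mono (h : Cong A F G) (hA : A ⊆ B) : Cong B F G := fun p hp => h p fun h' => hp (hA h')
theorem cong_iff_supp : Cong U F G ↔ Supp (F - G) U :=
  ⟨fun h p hp => by_contra fun hU => hp (by rw [co_sub, h p hU, sub_self]),
    fun h p hU => by_contra fun hp => hU (h p (by rwa [co_sub, sub_ne_zero]))⟩
theorem Cong.mul_right (h : Cong U F G) (hH : Supp H B) : Cong (U + B) (F * H) (G * H) := by
  rw [cong_iff_supp, ← sub_mul]
  exact (cong_iff_supp.1 h).mul hH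
theorem Cong.mul_left (h : Cong U F G) (hH : Supp H B) : Cong (U + B) (H * F) (H * G) := by
  rw [cong_iff_supp, ← mul_sub, add_comm]
  exact hH.mul (cong_iff_supp.1 h)
theorem Upper.add_subset (hU : Upper M U) : U + (M : Set L) ⊆ U := by
  rintro _ ⟨a, ha, b, hb, rfl⟩
  exact hU a ha b hb
theorem Cong.mul (hU : Upper M U) (h : Cong U F F') (h' : Cong U G G') (hF : Supp F M)
    (hG : Supp G' M) : Cong U (F * G) (F' * G') :=
  ((h'.mul_left hF).mono hU.add_subset).trans ((h.mul_right hG).mono hU.add_subset)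
theorem Cong.list_prod (hU : Upper M U) {l l' : List (Nov ω δ)}
    (h : List.Forall₂ (Cong U) l l') (hl : ∀ x ∈ l, Supp x M) (hl' : ∀ x ∈ l', Supp x M) :
    Cong U l.prod l'.prod := by
  induction h with
  | nil => exact Cong.refl _ _
  | cons h _ ih =>
    rw [List.prod_cons, List.prod_cons]
    exact Cong.mul hU h (ih (fun y hy => hl y (by simp [hy])) fun y hy => hl' y (by simp [hy]))
      (hl _ (by simp)) (Supp.list_prod fun y hy => hl' y (by simp [hy]))

theorem upper_lt (hM : ∀ m ∈ M, 0 ≤ δ m) (D : ℤ) : Upper M {p | D < δ p} := fun p hp m hm => by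
  have := hM m hm
  simp only [Set.mem_ofPred_eq, map_add] at hp ⊢
  omega

/-- elements which agree below every level are equal -/
theorem eq_of_cong (h : ∀ D : ℤ, Cong {p | D < δ p} F G) : F = G :=
  ext' fun p => h (δ p) p (lt_irrefl (δ p))

/-- limits of compatible approximations -/
theorem exists_lim (hA : ∀ D : ℤ, {p | p ∈ A ∧ δ p ≤ D}.Finite) {Φ : ℤ → Nov ω δ}
    (hΦ : ∀ D, Supp (Φ D) A) (hc : ∀ D D', D ≤ D' → Cong {p | D < δ p} (Φ D') (Φ D)) :
    ∃ G : Nov ω δ, Supp G A ∧ ∀ D, Cong {p | D < δ p} G (Φ D) :=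
  ⟨⟨fun p => (Φ (δ p)).co p, fun D => (hA D).subset fun p hp => ⟨hΦ _ p hp.1, hp.2⟩⟩,
    fun p hp => hΦ _ p hp, fun D p hp => (hc (δ p) D (not_lt.1 hp) p (lt_irrefl (δ p))).symm⟩

theorem eq_zero_or_pos_of_mem_closure {S : Set L} (hS : ∀ s ∈ S, s ≠ 0 → 0 < δ s) {p : L}
    (hp : p ∈ AddSubmonoid.closure S) : p = 0 ∨ 0 < δ p := by
  induction hp using AddSubmonoid.closure_induction with
  | mem x hx => exact (eq_or_ne x 0).imp_right (hS x hx)
  | zero => exact Or.inl rfl
  | add x y _ _ hx hy =>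
    rcases hx with rfl | hx
    · rwa [zero_add]
    · rcases hy with rfl | hy
      · exact Or.inr (by rwa [add_zero])
      · exact Or.inr (by rw [map_add]; exact add_pos hx hy)

/-- the monoid generated by a set of positive degree with finite levels has finite levels -/
theorem finite_closure_of {S : Set L} (hS : ∀ s ∈ S, s ≠ 0 → 0 < δ s)
    (hfin : ∀ D : ℤ, {s | s ∈ S ∧ δ s ≤ D}.Finite) (D : ℤ) :
    {p | p ∈ AddSubmonoid.closure S ∧ δ p ≤ D}.Finite := by
  have dec : ∀ p ∈ AddSubmonoid.closure S,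
      p = 0 ∨ ∃ s ∈ S, s ≠ 0 ∧ p - s ∈ AddSubmonoid.closure S := by
    intro p hp
    induction hp using AddSubmonoid.closure_induction_left with
    | zero => exact Or.inl rfl
    | add_left x hx y hy ih =>
      by_cases h : x = 0
      · rwa [h, zero_add]
      · exact Or.inr ⟨x, hx, h, by rwa [add_sub_cancel_left]⟩
  have key : ∀ n : ℕ, {p | p ∈ AddSubmonoid.closure S ∧ δ p ≤ n}.Finite := by
    intro n
    induction n with
    | zero =>
      refine (Set.finite_singleton 0).subset fun p hp => ?_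
      exact (eq_zero_or_pos_of_mem_closure hS hp.1).resolve_right (by simpa using hp.2)
    | succ n ih =>
      refine ((Set.finite_singleton 0).union ((hfin (n + 1)).add ih)).subset fun p hp => ?_
      refine (dec p hp.1).imp id fun ⟨s, hs, h0, h1⟩ => ?_
      have a1 := hS s hs h0
      have a2 : 0 ≤ δ (p - s) := by
        rcases eq_zero_or_pos_of_mem_closure hS h1 with h | h
        · rw [h, map_zero]
        · exact h.le
      have a3 := hp.2
      rw [map_sub] at a2
      push_cast at a3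
      exact ⟨s, ⟨hs, by omega⟩, p - s, ⟨h1, by rw [map_sub]; omega⟩, by simp⟩
  exact (key D.toNat).subset fun p hp => ⟨hp.1, hp.2.trans (Int.self_le_toNat D)⟩

end supp

section uni
variable {g h g' : Nov ω δ} {M : AddSubmonoid L} {U : Set L} {σ : Tri L} {s : SignType}

/-- the elements of non-negative degree -/
def nonnegM (δ : L →+ ℤ) : AddSubmonoid L where
  carrier := {p | 0 ≤ δ p}
  add_mem' ha hb := by
    simp only [Set.mem_ofPred_eq, map_add] at ha hb ⊢
    omega
  zero_mem' := by simp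

theorem upper_nonnegM (D : ℤ) : Upper (nonnegM δ) {p | D < δ p} := upper_lt (fun _ h => h) D

/-- zero and the elements of sign `s` -/
def sgM (σ : Tri L) (s : SignType) : AddSubmonoid L where
  carrier := {p | p = 0 ∨ σ.sg p = s}
  add_mem' := by
    rintro a b (rfl | ha) hb
    · rwa [zero_add]
    · rcases hb with rfl | hb
      · exact Or.inr (by rwa [add_zero])
      · exact Or.inr ((σ.add_same a b (ha.trans hb.symm)).trans ha)
  zero_mem' := Or.inl rfl

theorem sg_iff_supp : Sg σ s g ↔ Supp g (sgM σ s) :=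
  ⟨fun h p hp => (eq_or_ne p 0).imp_right fun h0 => h p h0 hp,
    fun h p h0 hp => (h p hp).resolve_left h0⟩

theorem isUni_iff_cong : IsUni g ↔ Cong {p | 0 < δ p} g 1 := by
  refine ⟨fun h p hp => ?_, fun h => ⟨(h 0 (by simp)).trans co_one_zero, fun p h0 hp => ?_⟩⟩
  · by_cases h0 : p = 0
    · rw [h0, h.1, co_one_zero]
    · rw [co_one_of_ne h0]
      exact by_contra fun h1 => hp (h.2 p h0 h1)
  · exact by_contra fun h1 => hp ((h p h1).trans (co_one_of_ne h0))

theorem IsUni.supp_nonnegM (hg : IsUni g) : Supp g (nonnegM δ) := fun p hp => by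
  by_cases h0 : p = 0
  · rw [h0]; exact (nonnegM δ).zero_mem
  · exact (hg.2 p h0 hp).le

theorem supp_pow_of_pos {x : Nov ω δ} (hx : Supp x {p | 0 < δ p}) (k : ℕ) :
    Supp (x ^ k) {p | (k : ℤ) ≤ δ p} := by
  induction k with
  | zero => rw [pow_zero]; exact supp_one (M := nonnegM δ)
  | succ k ih =>
    rw [pow_succ]
    refine (ih.mul hx).mono ?_
    rintro _ ⟨a, ha, b, hb, rfl⟩
    simp only [Set.mem_ofPred_eq, map_add, Nat.cast_add, Nat.cast_one] at ha hb ⊢
    omega

/-- the geometric series -/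
theorem IsUni.exists_inv (hg : IsUni g) : ∃ G : Nov ω δ,
    Supp G (AddSubmonoid.closure (Function.support g.co)) ∧ g * G = 1 ∧ G * g = 1 := by
  have h1 : Supp g (AddSubmonoid.closure (Function.support g.co)) := fun _ hp =>
    AddSubmonoid.subset_closure hp
  have h2 := supp_pow_of_pos (cong_iff_supp.1 (isUni_iff_cong.1 hg).symm)
  obtain ⟨G, hG, hc⟩ := exists_lim (finite_closure_of (fun s hs h0 => hg.2 s h0 hs) g.nov)
    (Φ := fun D => ∑ k ∈ range (D.toNat + 1), (1 - g) ^ k)
    (fun D => Supp.sum fun k _ => (supp_one.sub h1).pow k) (fun D D' h => by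
      rw [cong_iff_supp, ← sum_Ico_eq_sub _ (by omega)]
      refine Supp.sum fun k hk => (h2 k).mono fun p hp => ?_
      have := (mem_Ico.1 hk).1
      simp only [Set.mem_ofPred_eq] at hp ⊢
      omega)
  have h3 : ∀ D : ℤ, Cong {p | D < δ p} (1 - (1 - g) ^ (D.toNat + 1)) 1 := fun D => by
    refine Cong.symm (cong_iff_supp.2 ?_)
    rw [sub_sub_cancel]
    refine (h2 _).mono fun p hp => ?_
    simp only [Set.mem_ofPred_eq] at hp ⊢
    omega
  refine ⟨G, hG, eq_of_cong fun D => ?_, eq_of_cong fun D => ?_⟩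
  · refine (((hc D).mul_left hg.supp_nonnegM).mono (upper_nonnegM D).add_subset).trans ?_
    have := mul_neg_geom_sum (1 - g) (D.toNat + 1)
    rw [sub_sub_cancel] at this
    rw [this]
    exact h3 D
  · refine (((hc D).mul_right hg.supp_nonnegM).mono (upper_nonnegM D).add_subset).trans ?_
    have := geom_sum_mul_neg (1 - g) (D.toNat + 1)
    rw [sub_sub_cancel] at this
    rw [this]
    exact h3 D

theorem isUni_one : IsUni (1 : Nov ω δ) := isUni_iff_cong.2 (Cong.refl _ _)
theorem IsUni.mul (hg : IsUni g) (hh : IsUni h) : IsUni (g * h) := by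
  have := Cong.mul (upper_nonnegM 0) (isUni_iff_cong.1 hg) (isUni_iff_cong.1 hh) hg.supp_nonnegM
    supp_one
  rw [one_mul] at this
  exact isUni_iff_cong.2 this
theorem IsUni.list_prod {l : List (Nov ω δ)} (h : ∀ x ∈ l, IsUni x) : IsUni l.prod :=
  List.prod_induction IsUni (fun _ _ => IsUni.mul) isUni_one h
theorem IsUni.isUnit (hg : IsUni g) : IsUnit g := by
  obtain ⟨G, -, h1, h2⟩ := hg.exists_inv
  exact ⟨⟨g, G, h1, h2⟩, rfl⟩
theorem IsUni.mul_inv (hg : IsUni g) : g * inv g = 1 := Ring.mul_inverse_cancel _ hg.isUnit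
theorem IsUni.inv_mul (hg : IsUni g) : inv g * g = 1 := Ring.inverse_mul_cancel _ hg.isUnit
theorem IsUni.supp_inv' (hg : IsUni g) (h : Supp g M) : Supp (Nov.inv g) M := by
  obtain ⟨G, h0, h1, -⟩ := hg.exists_inv
  rw [← mul_one (Nov.inv g), ← h1, ← mul_assoc, hg.inv_mul, one_mul]
  exact h0.mono (AddSubmonoid.closure_le.2 h)
theorem IsUni.inv (hg : IsUni g) : IsUni (inv g) := by
  have := ((isUni_iff_cong.1 hg).mul_left (hg.supp_inv' hg.supp_nonnegM)).mono
    (upper_nonnegM 0).add_subset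
  rw [hg.inv_mul, mul_one] at this
  exact isUni_iff_cong.2 this.symm
theorem inv_one : inv (1 : Nov ω δ) = 1 := Ring.inverse_one _
theorem IsUni.inv_mul_rev (hg : IsUni g) (hh : IsUni h) : Nov.inv (g * h) = Nov.inv h * Nov.inv g := by
  obtain ⟨a, rfl⟩ := hg.isUnit
  obtain ⟨b, rfl⟩ := hh.isUnit
  simp only [Nov.inv, ← Units.val_mul, Ring.inverse_unit, mul_inv_rev]
theorem IsUni.supp_inv (hg : IsUni g) (h : Supp g M) : Supp (Nov.inv g) M := hg.supp_inv' h
theorem IsUni.sg_inv (hg : IsUni g) (h : Sg σ s g) : Sg σ s (Nov.inv g) :=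
  sg_iff_supp.2 (hg.supp_inv (sg_iff_supp.1 h))
theorem Sg.mul (hg : IsUni g) (hh : IsUni h) (h1 : Sg σ s g) (h2 : Sg σ s h) : Sg σ s (g * h) :=
  have _ := hg
  have _ := hh
  sg_iff_supp.2 ((sg_iff_supp.1 h1).mul_of_mem (sg_iff_supp.1 h2))
theorem sg_one : Sg σ s (1 : Nov ω δ) := sg_iff_supp.2 supp_one
theorem Sg.list_prod {l : List (Nov ω δ)} (h : ∀ x ∈ l, IsUni x ∧ Sg σ s x) : Sg σ s l.prod :=
  sg_iff_supp.2 (Supp.list_prod fun x hx => sg_iff_supp.1 (h x hx).2)
theorem Cong.inv (hU : Upper M U) (hg : IsUni g) (hg' : IsUni g') (h : Supp g M) (h' : Supp g' M)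
    (hc : Cong U g g') : Cong U (Nov.inv g) (Nov.inv g') := by
  have := (((hc.mul_left (hg.supp_inv h)).mono hU.add_subset).mul_right (hg'.supp_inv h')).mono
    hU.add_subset
  rw [hg.inv_mul, one_mul, mul_assoc, hg'.mul_inv, mul_one] at this
  exact this.symm
theorem IsUni.supp_closure (g : Nov ω δ) :
    Supp g (AddSubmonoid.closure (Function.support g.co)) := fun _ hp => AddSubmonoid.subset_closure hp

/-- the monoid generated by the support of a unipotent element has finite levels -/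
theorem IsUni.finite_closure (hg : IsUni g) (D : ℤ) :
    {p | p ∈ AddSubmonoid.closure (Function.support g.co) ∧ δ p ≤ D}.Finite :=
  finite_closure_of (fun s hs h0 => hg.2 s h0 hs) g.nov D

theorem IsUni.pos_of_mem_closure (hg : IsUni g) {p : L}
    (hp : p ∈ AddSubmonoid.closure (Function.support g.co)) (h0 : p ≠ 0) : 0 < δ p :=
  (eq_zero_or_pos_of_mem_closure (fun s hs h0 => hg.2 s h0 hs) hp).resolve_left h0

/-- a finitely generated monoid with generators of positive degree has finite levels -/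
theorem finite_closure_range {ι : Type} [Finite ι] {e : ι → L} (he : ∀ i, 0 < δ (e i)) (D : ℤ) :
    {p | p ∈ AddSubmonoid.closure (Set.range e) ∧ δ p ≤ D}.Finite :=
  finite_closure_of (by rintro _ ⟨i, rfl⟩ _; exact he i)
    (fun _ => (Set.finite_range e).subset fun _ h => h.1) D

theorem pos_of_mem_closure_range {ι : Type} {e : ι → L} (he : ∀ i, 0 < δ (e i)) {p : L}
    (hp : p ∈ AddSubmonoid.closure (Set.range e)) (h0 : p ≠ 0) : 0 < δ p :=
  (eq_zero_or_pos_of_mem_closure (by rintro _ ⟨i, rfl⟩ _; exact he i) hp).resolve_left h0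

end uni

/-- the factorisation `g = g₊ g₀ g₋` -/
structure IsFact (σ : Tri L) (g a b c : Nov ω δ) : Prop where
  uni_p : IsUni a
  uni_0 : IsUni b
  uni_m : IsUni c
  sg_p : Sg σ 1 a
  sg_0 : Sg σ 0 b
  sg_m : Sg σ (-1) c
  eq : g = a * b * c

section core
variable {σ τ : Tri L} {g g' a b c a' b' c' d x : Nov ω δ} {M : AddSubmonoid L} {U : Set L} {p : L}

/-- the positive cone -/
def posM (δ : L →+ ℤ) : AddSubmonoid L where
  carrier := {m | m = 0 ∨ 0 < δ m}
  zero_mem' := Or.inl rfl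
  add_mem' := by
    rintro m m' (rfl | hm) (rfl | hm')
    · exact Or.inl (add_zero _)
    · exact Or.inr (by rwa [zero_add])
    · exact Or.inr (by rwa [add_zero])
    · exact Or.inr (by rw [map_add]; omega)

theorem mem_posM {m : L} : m ∈ posM δ ↔ m = 0 ∨ 0 < δ m := Iff.rfl

theorem IsUni.supp_posM (hg : IsUni g) : Supp g (posM δ) := fun p hp => by
  by_cases h : p = 0
  · exact Or.inl h
  · exact Or.inr (hg.2 p h hp)

theorem IsUni.supp_inf (hg : IsUni g) (h : Supp g M) : Supp g (M ⊓ posM δ : AddSubmonoid L) :=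
  fun p hp => ⟨h p hp, hg.supp_posM p hp⟩

theorem supp_top (g : Nov ω δ) : Supp g (⊤ : AddSubmonoid L) := fun _ _ => trivial

theorem upper_empty : Upper M ∅ := fun _ h => h.elim

theorem eq_of_cong_empty (h : Cong ∅ g g') : g = g' := ext' fun p => h p id

theorem co_mul_top_left (hp : ∀ r ∈ U, p - r ∈ M → r = p) (hd : Supp d U) (hx : IsUni x)
    (hxM : Supp x M) : (d * x).co p = d.co p := by
  rw [co_mul_eq_sum (S := {p}) _ _ fun r h1 h2 =>
    Finset.mem_singleton.2 (hp r (hd r h1) (hxM _ h2))]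
  simp [hx.1]

theorem co_mul_top_right (hp : ∀ r ∈ U, p - r ∈ M → r = p) (hd : Supp d U) (hx : IsUni x)
    (hxM : Supp x M) : (x * d).co p = d.co p := by
  rw [co_mul_eq_sum (S := {0}) _ _ fun r h1 h2 => Finset.mem_singleton.2 (by
    have := hp _ (hd _ h2) (by rw [sub_sub_cancel]; exact hxM r h1)
    exact sub_eq_self.1 this)]
  simp [hx.1]

/-- the key lemma: the top coefficient of a triple product -/
theorem co_triple (hU : Upper M U) (hp : ∀ r ∈ U, p - r ∈ M → r = p) (ha' : IsUni a')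
    (hb : IsUni b) (hb' : IsUni b') (hc : IsUni c) (sa' : Supp a' M) (sb : Supp b M)
    (sb' : Supp b' M) (sc : Supp c M) (ca : Cong U a a') (cb : Cong U b b') (cc : Cong U c c') :
    (a * b * c).co p - (a' * b' * c').co p =
      (a.co p - a'.co p) + (b.co p - b'.co p) + (c.co p - c'.co p) := by
  have e : a * b * c - a' * b' * c' =
      (a - a') * (b * c) + a' * ((b - b') * c) + a' * b' * (c - c') := by noncomm_ring
  have h1 : Supp ((b - b') * c) U := ((cong_iff_supp.1 cb).mul sc).mono (by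
    rintro _ ⟨r, hr, m, hm, rfl⟩
    exact hU r hr m hm)
  rw [← co_sub, e, co_add, co_add,
    co_mul_top_left hp (cong_iff_supp.1 ca) (hb.mul hc) (sb.mul_of_mem sc),
    co_mul_top_right hp h1 ha' sa', co_mul_top_left hp (cong_iff_supp.1 cb) hc sc,
    co_mul_top_right hp (cong_iff_supp.1 cc) (ha'.mul hb') (sa'.mul_of_mem sb'),
    co_sub, co_sub, co_sub]

theorem Sg.co_eq_zero {s : SignType} (h : Sg σ s a) (h0 : p ≠ 0) (hs : σ.sg p ≠ s) : a.co p = 0 := by
  by_contra h1
  exact hs (h p h0 h1)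

theorem IsUni.co_eq_of_nonpos (ha : IsUni a) (ha' : IsUni a') (hp : δ p ≤ 0) :
    a.co p = a'.co p := by
  by_cases h0 : p = 0
  · rw [h0, ha.1, ha'.1]
  · have h : ∀ {a : Nov ω δ}, IsUni a → a.co p = 0 := fun ha => by
      by_contra h1
      exact absurd (ha.2 p h0 h1) (not_lt.2 hp)
    rw [h ha, h ha']

/-- uniqueness and locality of the factorisation -/
theorem IsFact.cong_core (h : IsFact σ g a b c) (h' : IsFact τ g' a' b' c') (hU : Upper M U)
    (sa : Supp a M) (sb : Supp b M) (sc : Supp c M) (sa' : Supp a' M) (sb' : Supp b' M)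
    (sc' : Supp c' M) (hσ : ∀ p ∈ M, p ∉ U → σ.sg p = τ.sg p)
    (hco : ∀ p, p ∉ U → g.co p = g'.co p ∨
      (a.co p = a'.co p ∧ b.co p = b'.co p ∧ c.co p = c'.co p)) :
    Cong U a a' ∧ Cong U b b' ∧ Cong U c c' := by
  have key : ∀ D : ℕ, ∀ p, p ∉ U → δ p ≤ D →
      a.co p = a'.co p ∧ b.co p = b'.co p ∧ c.co p = c'.co p := by
    intro D
    induction D with
    | zero =>
      intro p _ hp
      exact ⟨h.uni_p.co_eq_of_nonpos h'.uni_p hp, h.uni_0.co_eq_of_nonpos h'.uni_0 hp,
        h.uni_m.co_eq_of_nonpos h'.uni_m hp⟩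
    | succ D ih =>
      intro p hpU hp
      by_cases hD : δ p ≤ D
      · exact ih p hpU hD
      rcases hco p hpU with hg | hg
      swap
      · exact hg
      have hp0 : p ≠ 0 := by
        rintro rfl
        exact hD (by simp)
      by_cases hpM : p ∈ M
      swap
      · have z : ∀ {x : Nov ω δ}, Supp x M → x.co p = 0 := fun hx => by
          by_contra h1
          exact hpM (hx p h1)
        rw [z sa, z sb, z sc, z sa', z sb', z sc']
        exact ⟨rfl, rfl, rfl⟩
      have hU' : Upper (M ⊓ posM δ) (U ∪ {r | (D : ℤ) < δ r}) := by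
        rintro r (hr | hr) m hm
        · exact Or.inl (hU r hr m hm.1)
        · refine Or.inr ?_
          rcases mem_posM.1 hm.2 with rfl | hm
          · rwa [add_zero]
          · rw [Set.mem_ofPred_eq, map_add]
            rw [Set.mem_ofPred_eq] at hr
            omega
      have hp' : ∀ r ∈ U ∪ {r | (D : ℤ) < δ r}, p - r ∈ M ⊓ posM δ → r = p := by
        rintro r (hr | hr) hm
        · exact absurd (by simpa using hU r hr _ hm.1) hpU
        · rcases mem_posM.1 hm.2 with hm | hm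
          · exact (sub_eq_zero.1 hm).symm
          · rw [Set.mem_ofPred_eq] at hr
            rw [map_sub] at hm
            push_cast at hp
            omega
      have hi : ∀ r, r ∉ U ∪ {r | (D : ℤ) < δ r} →
          a.co r = a'.co r ∧ b.co r = b'.co r ∧ c.co r = c'.co r := fun r hr =>
        ih r (fun h1 => hr (Or.inl h1)) (not_lt.1 fun h1 => hr (Or.inr h1))
      have h3 := co_triple hU' hp' h'.uni_p h.uni_0 h'.uni_0 h.uni_m (h'.uni_p.supp_inf sa')
        (h.uni_0.supp_inf sb) (h'.uni_0.supp_inf sb') (h.uni_m.supp_inf sc)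
        (fun r hr => (hi r hr).1) (fun r hr => (hi r hr).2.1) (fun r hr => (hi r hr).2.2)
      rw [← h.eq, ← h'.eq, hg, sub_self] at h3
      have hs := hσ p hpM hpU
      have z : ∀ {s : SignType} {x x' : Nov ω δ}, Sg σ s x → Sg τ s x' → σ.sg p ≠ s →
          x.co p = x'.co p := fun hx hx' hne => by
        rw [hx.co_eq_zero hp0 hne, hx'.co_eq_zero hp0 (hs ▸ hne)]
      rcases hsg : σ.sg p with _ | _ | _
      · have e1 := z h.sg_p h'.sg_p (by rw [hsg]; decide)
        have e2 := z h.sg_m h'.sg_m (by rw [hsg]; decide)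
        exact ⟨e1, by linear_combination - h3 - e1 - e2, e2⟩
      · have e1 := z h.sg_p h'.sg_p (by rw [hsg]; decide)
        have e2 := z h.sg_0 h'.sg_0 (by rw [hsg]; decide)
        exact ⟨e1, e2, by linear_combination - h3 - e1 - e2⟩
      · have e1 := z h.sg_0 h'.sg_0 (by rw [hsg]; decide)
        have e2 := z h.sg_m h'.sg_m (by rw [hsg]; decide)
        exact ⟨by linear_combination - h3 - e1 - e2, e1, e2⟩
  have key' : ∀ p, p ∉ U → a.co p = a'.co p ∧ b.co p = b'.co p ∧ c.co p = c'.co p :=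
    fun p hp => key (δ p).toNat p hp (Int.self_le_toNat _)
  exact ⟨fun p hp => (key' p hp).1, fun p hp => (key' p hp).2.1, fun p hp => (key' p hp).2.2⟩

theorem exists_approx (σ : Tri L) (hg : IsUni g) (hM : Supp g M) (D : ℕ) :
    ∃ t : Nov ω δ × Nov ω δ × Nov ω δ, IsFact σ (t.1 * t.2.1 * t.2.2) t.1 t.2.1 t.2.2 ∧
      Supp t.1 M ∧ Supp t.2.1 M ∧ Supp t.2.2 M ∧
      Cong {p | (D : ℤ) < δ p} g (t.1 * t.2.1 * t.2.2) := by
  induction D with
  | zero =>
    refine ⟨(1, 1, 1), ⟨isUni_one, isUni_one, isUni_one, sg_one, sg_one, sg_one, rfl⟩, supp_one,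
      supp_one, supp_one, fun p hp => ?_⟩
    exact hg.co_eq_of_nonpos ((isUni_one.mul isUni_one).mul isUni_one) (not_lt.1 hp)
  | succ D ih =>
    obtain ⟨⟨a, b, c⟩, h, sa, sb, sc, hc⟩ := ih
    dsimp only at h sa sb sc hc
    set r := g - a * b * c with hr
    have r1 : Supp r {p | (D : ℤ) < δ p} := cong_iff_supp.1 hc
    have r2 : Supp r M := hM.sub ((sa.mul_of_mem sb).mul_of_mem sc)
    have r3 : ∀ (A : Set L) (p : L), (res A r).co p ≠ 0 → p ∈ A ∧ r.co p ≠ 0 := fun A p hp => by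
      by_cases hA : p ∈ A
      · exact ⟨hA, by rwa [co_res_of_mem hA] at hp⟩
      · exact absurd (co_res_of_not_mem hA) hp
    have u1 : ∀ (A : Set L) {x : Nov ω δ}, Cong {p | (D : ℤ) < δ p} (x + res A r) x :=
      fun A x p hp => by
        rw [co_add, add_eq_left]
        by_contra h1
        exact hp (r1 p (r3 A p h1).2)
    have u2 : ∀ (A : Set L) {x : Nov ω δ}, IsUni x → IsUni (x + res A r) := fun A x hx => by
      refine ⟨by rw [u1 A 0 (by simp), hx.1], fun p hp0 hp => ?_⟩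
      by_contra h1
      rw [u1 A p (by simp only [Set.mem_ofPred_eq]; omega)] at hp
      exact h1 (hx.2 p hp0 hp)
    have u3 : ∀ (s : SignType) {x : Nov ω δ}, Sg σ s x → Sg σ s (x + res {p | σ.sg p = s} r) :=
      fun s x hx p hp0 hp => by
        by_contra h1
        exact hp (by rw [co_add, hx.co_eq_zero hp0 h1, co_res_of_not_mem (A := {p | σ.sg p = s}) h1,
          add_zero])
    have u4 : ∀ (A : Set L) {x : Nov ω δ}, Supp x M → Supp (x + res A r) M := fun A x hx =>
      hx.add fun p hp => r2 p (r3 A p hp).2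
    refine ⟨(a + res {p | σ.sg p = 1} r, b + res {p | σ.sg p = 0} r, c + res {p | σ.sg p = -1} r),
      ⟨u2 _ h.uni_p, u2 _ h.uni_0, u2 _ h.uni_m, u3 _ h.sg_p, u3 _ h.sg_0, u3 _ h.sg_m, rfl⟩,
      u4 _ sa, u4 _ sb, u4 _ sc, fun p hp => ?_⟩
    dsimp only
    have hp' : ∀ r ∈ {p | (D : ℤ) < δ p}, p - r ∈ posM δ → r = p := by
      intro r hr hm
      rcases mem_posM.1 hm with hm | hm
      · exact (sub_eq_zero.1 hm).symm
      · rw [Set.mem_ofPred_eq] at hr hp
        rw [map_sub] at hm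
        push_cast at hp
        omega
    have h3 := co_triple (upper_lt (M := posM δ) (fun m hm => by
        rcases mem_posM.1 hm with rfl | hm
        · simp
        · exact hm.le) D) hp' h.uni_p (u2 _ h.uni_0) h.uni_0
      (u2 _ h.uni_m) h.uni_p.supp_posM (u2 _ h.uni_0).supp_posM h.uni_0.supp_posM
      (u2 _ h.uni_m).supp_posM (u1 {p | σ.sg p = 1}) (u1 {p | σ.sg p = 0}) (u1 {p | σ.sg p = -1})
    have h4 : (res {p | σ.sg p = 1} r).co p + (res {p | σ.sg p = 0} r).co p +
        (res {p | σ.sg p = -1} r).co p = r.co p := by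
      rcases hsg : σ.sg p with _ | _ | _
      all_goals simp [res, Set.indicator, hsg]
    simp only [co_add] at h3
    rw [hr, co_sub, ← hr] at h4
    linear_combination - h3 - h4

end core

theorem exists_isFact (σ : Tri L) {g : Nov ω δ} (hg : IsUni g) :
    ∃ t : Nov ω δ × Nov ω δ × Nov ω δ, IsFact σ g t.1 t.2.1 t.2.2 := by
  choose t ht sa sb sc hc using exists_approx σ hg (IsUni.supp_closure g)
  have hup : ∀ D : ℤ, Upper (posM δ) {p | D < δ p} := upper_lt fun m hm => by
    rcases mem_posM.1 hm with rfl | hm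
    · simp
    · exact hm.le
  have hst : ∀ D D' : ℕ, D ≤ D' → Cong {p | (D : ℤ) < δ p} (t D).1 (t D').1 ∧
      Cong {p | (D : ℤ) < δ p} (t D).2.1 (t D').2.1 ∧
      Cong {p | (D : ℤ) < δ p} (t D).2.2 (t D').2.2 := fun D D' hD =>
    (ht D).cong_core (ht D') (hup D) (ht D).uni_p.supp_posM (ht D).uni_0.supp_posM
      (ht D).uni_m.supp_posM (ht D').uni_p.supp_posM (ht D').uni_0.supp_posM
      (ht D').uni_m.supp_posM (fun _ _ _ => rfl) fun p hp => Or.inl (by
        rw [← hc D p hp, ← hc D' p (by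
          simp only [Set.mem_ofPred_eq] at hp ⊢
          omega)])
  have lim : ∀ (x : ℕ → Nov ω δ) (s : SignType), (∀ D, IsUni (x D)) → (∀ D, Sg σ s (x D)) →
      (∀ D, Supp (x D) (AddSubmonoid.closure (Function.support g.co))) →
      (∀ D D' : ℕ, D ≤ D' → Cong {p | (D : ℤ) < δ p} (x D) (x D')) →
      ∃ y : Nov ω δ, IsUni y ∧ Sg σ s y ∧ ∀ D : ℕ, Cong {p | (D : ℤ) < δ p} (x D) y := by
    intro x s h1 h2 h3 h4
    refine ⟨⟨fun p => (x (δ p).toNat).co p, fun D =>
      (hg.finite_closure D).subset fun p hp => ⟨h3 _ p hp.1, hp.2⟩⟩,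
      ⟨(h1 _).1, fun p => (h1 _).2 p⟩, fun p => h2 _ p, fun D p hp => ?_⟩
    simp only [Set.mem_ofPred_eq] at hp
    exact (h4 (δ p).toNat D (by omega) p (by simp only [Set.mem_ofPred_eq]; omega)).symm
  obtain ⟨a, ua, ga, ca⟩ := lim (fun D => (t D).1) 1 (fun D => (ht D).uni_p)
    (fun D => (ht D).sg_p) sa fun D D' h => (hst D D' h).1
  obtain ⟨b, ub, gb, cb⟩ := lim (fun D => (t D).2.1) 0 (fun D => (ht D).uni_0)
    (fun D => (ht D).sg_0) sb fun D D' h => (hst D D' h).2.1
  obtain ⟨c, uc, gc, cc⟩ := lim (fun D => (t D).2.2) (-1) (fun D => (ht D).uni_m)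
    (fun D => (ht D).sg_m) sc fun D D' h => (hst D D' h).2.2
  refine ⟨(a, b, c), ua, ub, uc, ga, gb, gc, ext' fun p => ?_⟩
  have hp : p ∉ {r | (((δ p).toNat : ℕ) : ℤ) < δ r} := by
    simp only [Set.mem_ofPred_eq]; omega
  rw [hc _ p hp]
  exact Cong.mul (hup _) (Cong.mul (hup _) (ca _) (cb _) (ht _).uni_p.supp_posM ub.supp_posM)
    (cc _) ((ht _).uni_p.mul (ht _).uni_0).supp_posM uc.supp_posM p hp

open Classical in
/-- the factors (junk value `1` if `g` is not unipotent) -/
noncomputable def fact (σ : Tri L) (g : Nov ω δ) : Nov ω δ × Nov ω δ × Nov ω δ :=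
  if hg : IsUni g then Classical.choose (exists_isFact σ hg) else (1, 1, 1)

/-- positive factor -/
noncomputable def fp (σ : Tri L) (g : Nov ω δ) : Nov ω δ := (fact σ g).1
/-- middle factor -/
noncomputable def f0 (σ : Tri L) (g : Nov ω δ) : Nov ω δ := (fact σ g).2.1
/-- negative factor -/
noncomputable def fm (σ : Tri L) (g : Nov ω δ) : Nov ω δ := (fact σ g).2.2

section fact
variable {σ τ : Tri L} {g g' a b c : Nov ω δ} {M : AddSubmonoid L} {U : Set L}

theorem isFact_fact (σ : Tri L) (hg : IsUni g) : IsFact σ g (fp σ g) (f0 σ g) (fm σ g) := by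
  simp only [fp, f0, fm, fact, dif_pos hg]
  exact Classical.choose_spec (exists_isFact σ hg)

theorem IsFact.isUni (h : IsFact σ g a b c) : IsUni g := by
  rw [h.eq]
  exact (h.uni_p.mul h.uni_0).mul h.uni_m

theorem IsFact.eq_fact (h : IsFact σ g a b c) : fp σ g = a ∧ f0 σ g = b ∧ fm σ g = c := by
  have := (isFact_fact σ h.isUni).cong_core h (upper_empty (M := ⊤)) (supp_top _) (supp_top _)
    (supp_top _) (supp_top _) (supp_top _) (supp_top _) (fun _ _ _ => rfl) fun _ _ => Or.inl rfl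
  exact ⟨eq_of_cong_empty this.1, eq_of_cong_empty this.2.1, eq_of_cong_empty this.2.2⟩

theorem IsFact.supp (h : IsFact σ g a b c) (hM : Supp g M) : Supp a M ∧ Supp b M ∧ Supp c M := by
  have r1 : ∀ (x : Nov ω δ) (p : L), (res M x).co p ≠ 0 → p ∈ M ∧ x.co p ≠ 0 := fun x p hp => by
    by_cases hA : p ∈ (M : Set L)
    · exact ⟨hA, by rwa [co_res_of_mem hA] at hp⟩
    · exact absurd (co_res_of_not_mem hA) hp
  have r2 : ∀ x : Nov ω δ, Supp (res M x) M := fun x p hp => (r1 x p hp).1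
  have r3 : ∀ {x : Nov ω δ}, IsUni x → IsUni (res M x) := fun hx =>
    ⟨by rw [co_res_of_mem M.zero_mem, hx.1], fun p h0 hp => hx.2 p h0 (r1 _ p hp).2⟩
  have r4 : ∀ {s : SignType} {x : Nov ω δ}, Sg σ s x → Sg σ s (res M x) := fun hx p h0 hp =>
    hx p h0 (r1 _ p hp).2
  have h' : IsFact σ (res M a * res M b * res M c) (res M a) (res M b) (res M c) :=
    ⟨r3 h.uni_p, r3 h.uni_0, r3 h.uni_m, r4 h.sg_p, r4 h.sg_0, r4 h.sg_m, rfl⟩
  have := h.cong_core h' (upper_empty (M := ⊤)) (supp_top _) (supp_top _)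
    (supp_top _) (supp_top _) (supp_top _) (supp_top _) (fun _ _ _ => rfl) fun p _ => by
      by_cases hp : p ∈ (M : Set L)
      · exact Or.inr ⟨(co_res_of_mem hp).symm, (co_res_of_mem hp).symm, (co_res_of_mem hp).symm⟩
      · have z : ∀ {x : Nov ω δ}, Supp x M → x.co p = 0 := fun hx => by
          by_contra h1
          exact hp (hx p h1)
        exact Or.inl (by rw [z hM, z (((r2 a).mul_of_mem (r2 b)).mul_of_mem (r2 c))])
  rw [eq_of_cong_empty this.1, eq_of_cong_empty this.2.1, eq_of_cong_empty this.2.2]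
  exact ⟨r2 a, r2 b, r2 c⟩

theorem supp_fact (σ : Tri L) (hg : IsUni g) (h : Supp g M) :
    Supp (fp σ g) M ∧ Supp (f0 σ g) M ∧ Supp (fm σ g) M := (isFact_fact σ hg).supp h

/-- refinement -/
theorem fact_lex (σ τ : Tri L) (hg : IsUni g) :
    fp (σ.lex τ) g = fp σ g * fp τ (f0 σ g) ∧ f0 (σ.lex τ) g = f0 τ (f0 σ g) ∧
      fm (σ.lex τ) g = fm τ (f0 σ g) * fm σ g := by
  have h := isFact_fact σ hg
  have h' := isFact_fact τ h.uni_0
  let Z : AddSubmonoid L :=
    { carrier := {p | σ.sg p = 0}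
      zero_mem' := σ.sg_zero
      add_mem' := fun {p r} hp hr => (σ.add_zero p r hp).trans hr }
  have hZ : Supp (f0 σ g) Z := fun p hp => by
    by_cases h0 : p = 0
    · rw [h0]; exact Z.zero_mem
    · exact h.sg_0 p h0 hp
  obtain ⟨s1, s2, s3⟩ := h'.supp hZ
  have l1 : ∀ {s : SignType} {x : Nov ω δ}, s ≠ 0 → Sg σ s x → Sg (σ.lex τ) s x :=
    fun hs hx p h0 hp => by
      have := hx p h0 hp
      simp only [Tri.lex]
      rw [if_neg (this ▸ hs), this]
  have l2 : ∀ {s : SignType} {x : Nov ω δ}, Supp x Z → Sg τ s x → Sg (σ.lex τ) s x :=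
    fun hs hx p h0 hp => by
      simp only [Tri.lex]
      rw [if_pos (show σ.sg p = 0 from hs p hp), hx p h0 hp]
  refine IsFact.eq_fact ⟨h.uni_p.mul h'.uni_p, h'.uni_0, h'.uni_m.mul h.uni_m,
    Sg.mul h.uni_p h'.uni_p (l1 (by decide) h.sg_p) (l2 s1 h'.sg_p), l2 s2 h'.sg_0,
    Sg.mul h'.uni_m h.uni_m (l2 s3 h'.sg_m) (l1 (by decide) h.sg_m), ?_⟩
  conv_lhs => rw [h.eq, h'.eq]
  simp only [mul_assoc]

/-- locality -/
theorem fact_cong (hU : Upper M U) (hg : IsUni g) (hg' : IsUni g') (h : Supp g M) (h' : Supp g' M)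
    (hc : Cong U g g') (hσ : ∀ p ∈ M, p ∉ U → σ.sg p = τ.sg p) :
    Cong U (fp σ g) (fp τ g') ∧ Cong U (f0 σ g) (f0 τ g') ∧ Cong U (fm σ g) (fm τ g') :=
  (isFact_fact σ hg).cong_core (isFact_fact τ hg') hU (supp_fact σ hg h).1 (supp_fact σ hg h).2.1
    (supp_fact σ hg h).2.2 (supp_fact τ hg' h').1 (supp_fact τ hg' h').2.1
    (supp_fact τ hg' h').2.2 hσ fun p hp => Or.inl (hc p hp)

theorem fact_congr (hg : IsUni g) (h : Supp g M) (hσ : ∀ p ∈ M, σ.sg p = τ.sg p) :
    fp σ g = fp τ g ∧ f0 σ g = f0 τ g ∧ fm σ g = fm τ g := by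
  have := fact_cong upper_empty hg hg h h (Cong.refl _ _) fun p hp _ => hσ p hp
  exact ⟨eq_of_cong_empty this.1, eq_of_cong_empty this.2.1, eq_of_cong_empty this.2.2⟩

theorem fact_mul_left (ha : IsUni a) (hs : Sg σ 1 a) (hg : IsUni g) :
    fp σ (a * g) = a * fp σ g ∧ f0 σ (a * g) = f0 σ g ∧ fm σ (a * g) = fm σ g := by
  have h := isFact_fact σ hg
  refine IsFact.eq_fact ⟨ha.mul h.uni_p, h.uni_0, h.uni_m, Sg.mul ha h.uni_p hs h.sg_p, h.sg_0,
    h.sg_m, ?_⟩
  conv_lhs => rw [h.eq]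
  simp only [mul_assoc]

theorem fact_mul_right (hc : IsUni c) (hs : Sg σ (-1) c) (hg : IsUni g) :
    fp σ (g * c) = fp σ g ∧ f0 σ (g * c) = f0 σ g ∧ fm σ (g * c) = fm σ g * c := by
  have h := isFact_fact σ hg
  refine IsFact.eq_fact ⟨h.uni_p, h.uni_0, h.uni_m.mul hc, h.sg_p, h.sg_0,
    Sg.mul h.uni_m hc h.sg_m hs, ?_⟩
  conv_lhs => rw [h.eq]
  simp only [mul_assoc]

/-- perturbation at the top: if `g, g'` agree on the proper divisors of `n` in `M` -/
theorem f0_co_top (hM : ∀ m ∈ M, m ≠ 0 → 0 < δ m) (hg : IsUni g) (hg' : IsUni g') (h : Supp g M)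
    (h' : Supp g' M) {n : L} (hn : σ.sg n = 0)
    (hc : ∀ p ∈ M, n - p ∈ M → p ≠ n → g.co p = g'.co p) :
    (f0 σ g).co n - (f0 σ g').co n = g.co n - g'.co n := by
  have hU : Upper M {p | ¬(n - p ∈ M ∧ p ≠ n)} := by
    rintro p hp m hm ⟨h1, h2⟩
    have h3 : n - p ∈ M := by
      have := M.add_mem h1 hm
      rwa [show n - (p + m) + m = n - p by abel] at this
    have h4 : p = n := by
      by_contra h4
      exact hp ⟨h3, h4⟩
    subst h4
    have h5 : m ≠ 0 := by
      rintro rfl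
      exact h2 (add_zero _)
    have h6 := hM _ h1 (by
      rw [show p - (p + m) = -m by abel]
      exact neg_ne_zero.2 h5)
    have h7 := hM m hm h5
    rw [map_sub, map_add] at h6
    omega
  have hcg : Cong {p | ¬(n - p ∈ M ∧ p ≠ n)} g g' := by
    intro p hp
    simp only [Set.mem_ofPred_eq, not_not] at hp
    by_cases hpM : p ∈ M
    · exact hc p hpM hp.1 hp.2
    · have z : ∀ {x : Nov ω δ}, Supp x M → x.co p = 0 := fun hx => by
        by_contra h1
        exact hpM (hx p h1)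
      rw [z h, z h']
  obtain ⟨c1, c2, c3⟩ := fact_cong (σ := σ) (τ := σ) hU hg hg' h h' hcg fun _ _ _ => rfl
  have f := isFact_fact σ hg
  have f' := isFact_fact σ hg'
  have h3 := co_triple (p := n) hU (fun r hr hm => by
      by_contra h1
      exact hr ⟨hm, h1⟩) f'.uni_p f.uni_0 f'.uni_0 f.uni_m (f'.supp h').1 (f.supp h).2.1
    (f'.supp h').2.1 (f.supp h).2.2 c1 c2 c3
  have z : ∀ {s : SignType} {x x' : Nov ω δ}, s ≠ 0 → IsUni x → IsUni x' → Sg σ s x → Sg σ s x' →
      x.co n = x'.co n := fun hs u u' hx hx' => by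
    by_cases h0 : n = 0
    · rw [h0, u.1, u'.1]
    · rw [hx.co_eq_zero h0 (hn ▸ hs.symm), hx'.co_eq_zero h0 (hn ▸ hs.symm)]
  rw [← f.eq, ← f'.eq, z (by decide) f.uni_p f'.uni_p f.sg_p f'.sg_p,
    z (by decide) f.uni_m f'.uni_m f.sg_m f'.sg_m] at h3
  linear_combination - h3

end fact

section rel
variable {T : L ≃+ L} {x x' : Nov ω δ} {y y' : Nov ω δ'}

theorem Rel.co_eq (h : Rel T x y) (p : L) : y.co p = x.co (T.symm p) := by
  rw [← h, T.apply_symm_apply]
theorem Rel.unique (h : Rel T x y) (h' : Rel T x y') : y = y' :=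
  ext' fun p => by rw [h.co_eq, h'.co_eq]
theorem Rel.unique_left (h : Rel T x y) (h' : Rel T x' y) : x = x' :=
  ext' fun p => by rw [← h, ← h']
theorem Rel.symm (h : Rel T x y) : Rel T.symm y x := fun p => (h.co_eq p).symm
theorem rel_one : Rel T (1 : Nov ω δ) (1 : Nov ω δ') := fun p => by
  by_cases h : p = 0
  · rw [h, map_zero, co_one_zero, co_one_zero]
  · rw [co_one_of_ne h, co_one_of_ne (by simpa using h)]
theorem Rel.add (h : Rel T x y) (h' : Rel T x' y') : Rel T (x + x') (y + y') := fun p => by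
  rw [co_add, co_add, h, h']
theorem Rel.mul (hT : ∀ p r, ω (T p) (T r) = ω p r) (h : Rel T x y) (h' : Rel T x' y') :
    Rel T (x * x') (y * y') := fun p => by
  rw [co_mul, co_mul, tmul, tmul, ← finsum_comp_equiv T.toEquiv]
  refine finsum_congr fun r => ?_
  rw [AddEquiv.toEquiv_eq_coe, EquivLike.coe_coe, ← map_sub, hT, h, h']
theorem exists_rel (T : L ≃+ L) (x : Nov ω δ) (h : IsNov δ' (fun p => x.co (T.symm p))) :
    ∃ y : Nov ω δ', Rel T x y := ⟨⟨_, h⟩, fun p => by simp⟩
theorem Rel.supp_comap (h : Rel T x y) :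
    Supp x ((AddSubmonoid.closure (Function.support y.co)).comap T.toAddMonoidHom) :=
  fun p hp => AddSubmonoid.subset_closure (show y.co (T p) ≠ 0 by rwa [h])
theorem exists_rel_of_supp (hy : IsUni y) (hx' : IsUni x')
    (hs : Supp x' ((AddSubmonoid.closure (Function.support y.co)).comap T.toAddMonoidHom)) :
    ∃ w : Nov ω δ', Rel T x' w ∧ IsUni w := by
  have key : ∀ p, x'.co (T.symm p) ≠ 0 → p ∈ AddSubmonoid.closure (Function.support y.co) :=
    fun p hp => by simpa using hs _ hp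
  obtain ⟨w, hw⟩ := exists_rel (δ' := δ') T x' fun D =>
    (hy.finite_closure D).subset fun p hp => ⟨key p hp.1, hp.2⟩
  refine ⟨w, hw, by rw [hw.co_eq, map_zero, hx'.1], fun p h0 hp => ?_⟩
  rw [hw.co_eq] at hp
  exact hy.pos_of_mem_closure (key p hp) h0
theorem Rel.inv (hT : ∀ p r, ω (T p) (T r) = ω p r) (h : Rel T x y) (hx : IsUni x) (hy : IsUni y) :
    Rel T (Nov.inv x) (Nov.inv y) := by
  obtain ⟨w, hw, -⟩ := exists_rel_of_supp hy hx.inv (hx.supp_inv h.supp_comap)
  have h1 := h.mul hT hw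
  rw [hx.mul_inv] at h1
  have h2 : Nov.inv y = w := by
    rw [← mul_one (Nov.inv y), rel_one.unique h1, ← mul_assoc, hy.inv_mul, one_mul]
  rwa [h2]
theorem Rel.sg {σ : Tri L} {s : SignType} (h : Rel T x y) (hs : Sg (σ.comap T.toAddMonoidHom) s x) :
    Sg σ s y := fun p h0 hp => by
  rw [h.co_eq] at hp
  simpa [Tri.comap] using hs _ (by simpa using h0) hp
theorem Rel.fact (hT : ∀ p r, ω (T p) (T r) = ω p r) (h : Rel T x y) (hx : IsUni x) (hy : IsUni y)
    (σ : Tri L) :
    Rel T (fp (σ.comap T.toAddMonoidHom) x) (fp σ y) ∧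
      Rel T (f0 (σ.comap T.toAddMonoidHom) x) (f0 σ y) ∧
      Rel T (fm (σ.comap T.toAddMonoidHom) x) (fm σ y) := by
  have f := isFact_fact (σ.comap T.toAddMonoidHom) hx
  obtain ⟨s1, s2, s3⟩ := f.supp h.supp_comap
  obtain ⟨a, ra, ua⟩ := exists_rel_of_supp hy f.uni_p s1
  obtain ⟨b, rb, ub⟩ := exists_rel_of_supp hy f.uni_0 s2
  obtain ⟨c, rc, uc⟩ := exists_rel_of_supp hy f.uni_m s3
  have h1 := (ra.mul hT rb).mul hT rc
  rw [← f.eq] at h1
  obtain ⟨e1, e2, e3⟩ := IsFact.eq_fact (σ := σ)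
    ⟨ua, ub, uc, ra.sg f.sg_p, rb.sg f.sg_0, rc.sg f.sg_m, h.unique h1⟩
  rw [e1, e2, e3]
  exact ⟨ra, rb, rc⟩

end rel

end Nov

end Crest.Agent.R59
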