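import Crest.Agent.R59.GraphDefs

/-! # Colourings and descent-free permutations as coefficients in the quantum torus -/

set_option autoImplicit false

namespace Crest.Agent.R59
open Finset Nov Crest.CombinatoricsR.UnitInterval

namespace GraphCount

theorem prod_single {L : Type} [AddCommGroup L] {ω : L →+ L →+ ℤ} {δ : L →+ ℤ} (N : ℕ)
    (p : Fin N → L) :
    (List.ofFn fun j => (single (p j) 1 : Nov ω δ)).prod =
      single (∑ j, p j) (v ^ (∑ i, ∑ j, if i < j then ω (p i) (p j) else 0)) := by
  induction N with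
  | zero => simp [one_def]
  | succ N ih =>
    rw [List.ofFn_succ, List.prod_cons, ih, single_mul_single, Fin.sum_univ_succ, mul_one,
      ← zpow_add₀ v_ne_zero]
    congr 2
    simp only [Fin.sum_univ_succ, if_false, Fin.succ_pos, if_true,
      Fin.not_lt_zero, Fin.succ_lt_succ_iff, zero_add, map_sum]

theorem prod_sum_ofFn {R α : Type*} [Semiring R] [Fintype α] (N : ℕ) (F : Fin N → α → R) :
    (List.ofFn fun j => ∑ s, F j s).prod =
      ∑ g : Fin N → α, (List.ofFn fun j => F j (g j)).prod := by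
  induction N with
  | zero => simp
  | succ N ih =>
    rw [List.ofFn_succ, List.prod_cons, ih, sum_mul_sum, ← Fintype.sum_prod_type']
    refine Fintype.sum_equiv (Fin.consEquiv fun _ => α) _ _ fun x => ?_
    rw [List.ofFn_succ, List.prod_cons]
    rfl

theorem prod_ite_ofFn {R : Type*} [Semiring R] (N : ℕ) (P : Fin N → Prop) [DecidablePred P]
    (x : Fin N → R) :
    (List.ofFn fun j => if P j then x j else 0).prod =
      if ∀ j, P j then (List.ofFn x).prod else 0 := by
  split_ifs with hP
  · simp [hP]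
  · push Not at hP
    obtain ⟨j, hj⟩ := hP
    apply List.prod_eq_zero
    rw [List.mem_ofFn]
    exact ⟨j, by simp [hj]⟩

variable {n : ℕ} {h : Fin n → ℕ}

theorem sum_Wt {N : ℕ} (h : Fin n → ℕ) (f : Fin n → Fin N)
    (hf : ∀ a b : Fin n, IsEdge h a b → f a ≠ f b) :
    (nE h : ℤ) + (∑ a, ∑ c, if f a < f c then Wt h a c else 0) = 2 * (ascents h f : ℤ) := by
  have e1 : (nE h : ℤ) = ∑ a, ∑ c, if a < c ∧ IsEdge h a c then 1 else 0 := by
    rw [nE, card_filter, ← Fintype.sum_prod_type']
    push_cast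
    rfl
  have e2 : (ascents h f : ℤ) =
      ∑ a, ∑ c, if a < c ∧ IsEdge h a c ∧ f a < f c then 1 else 0 := by
    rw [ascents, card_filter, ← Fintype.sum_prod_type']
    push_cast
    rfl
  have e3 : (∑ a, ∑ c, if f a < f c then Wt h a c else 0) =
      (∑ a, ∑ c, if a < c ∧ IsEdge h a c ∧ f a < f c then (1 : ℤ) else 0) -
        ∑ a, ∑ c, if a < c ∧ IsEdge h a c ∧ f c < f a then (1 : ℤ) else 0 := by
    rw [sum_comm (f := fun a c => if a < c ∧ IsEdge h a c ∧ f c < f a then (1 : ℤ) else 0),
      ← sum_sub_distrib]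
    refine sum_congr rfl fun a _ => ?_
    rw [← sum_sub_distrib]
    refine sum_congr rfl fun c _ => ?_
    unfold Wt
    simp only [isEdge_symm (a := c) (c := a)]
    by_cases he : IsEdge h a c
    · have hne : a ≠ c := fun e => not_isEdge_self h a (e ▸ he)
      rcases lt_or_gt_of_ne hne with hl | hl
      · simp [he, hl, not_lt.2 hl.le]
      · by_cases hfl : f a < f c <;> simp [he, hl, not_lt.2 hl.le, hfl]
    · simp [he]
  rw [e1, e2, e3, two_mul, add_sub_left_comm, ← sum_sub_distrib]
  congr 1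
  refine sum_congr rfl fun a _ => ?_
  rw [← sum_sub_distrib]
  refine sum_congr rfl fun c _ => ?_
  by_cases he : IsEdge h a c
  · rcases lt_or_gt_of_ne (hf a c he) with hl | hl <;> by_cases hac : a < c <;>
      simp [he, hl, not_lt.2 hl.le, hac]
  · simp [he]

theorem aeval_X_pow_eq (k : ℕ) :
    Polynomial.aeval (v ^ 2) ((Polynomial.X : Polynomial ℤ) ^ k) = v ^ (2 * (k : ℤ)) := by
  rw [map_pow, Polynomial.aeval_X, ← pow_mul, ← zpow_natCast]
  push_cast
  rfl

theorem ex_apply (a c : Fin n) : ex a (some c) = if c = a then 1 else 0 := by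
  simp [ex, Pi.single_apply]

theorem full_apply (c : Fin n) : full n (some c) = 1 := by
  simp [full, Finset.sum_apply, ex_apply]

/-- elements above `a` in the poset -/
def up (h : Fin n → ℕ) (a : Fin n) : Finset (Fin n) := univ.filter fun c => a < c ∧ ¬ IsEdge h a c

theorem mem_up {a c : Fin n} : c ∈ up h a ↔ a < c ∧ ¬ IsEdge h a c := by simp [up]

theorem up_closed (a : Fin n) : ∀ b ∈ up h a, ∀ c, b < c → c ∈ up h a := by
  intro b hb c hbc
  rw [mem_up] at hb ⊢
  refine ⟨hb.1.trans hbc, fun he => hb.2 ?_⟩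
  rcases he with he | he
  · exact Or.inl ⟨hb.1, by have := Fin.lt_def.1 hbc; omega⟩
  · exact absurd (hb.1.trans hbc) (not_lt.2 he.1.le)

/-- independent sets inside `P` -/
noncomputable def HP (h : Fin n → ℕ) (P : Finset (Fin n)) (k : ℕ) : Tor h :=
  ∑ S ∈ (powersetCard k P).filter (Indep h), single (∑ a ∈ S, ex a) 1

theorem HP_zero (P : Finset (Fin n)) : HP h P 0 = 1 := by
  have : Indep h ∅ := fun a ha => absurd ha (notMem_empty a)
  simp [HP, filter_singleton, this, one_def]

theorem HP_succ {P : Finset (Fin n)} (hP : ∀ b ∈ P, ∀ c, b < c → c ∈ P) (k : ℕ) :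
    HP h P (k + 1) = ∑ a ∈ P, single (ex a) 1 * HP h (up h a) k := by
  unfold HP
  simp_rw [mul_sum]
  rw [sum_sigma']
  symm
  have hnot : ∀ a : Fin n, ∀ S ⊆ up h a, a ∉ S := fun a S hS ha =>
    lt_irrefl a (mem_up.1 (hS ha)).1
  refine sum_bij (fun x _ => insert x.1 x.2) ?_ ?_ ?_ ?_
  · rintro ⟨a, S⟩ hx
    simp only [mem_sigma, mem_filter, mem_powersetCard] at hx ⊢
    obtain ⟨ha, ⟨hS, hc⟩, hI⟩ := hx
    refine ⟨⟨?_, by rw [card_insert_of_notMem (hnot a S hS), hc]⟩, ?_⟩
    · intro c hc
      rcases mem_insert.1 hc with rfl | hc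
      · exact ha
      · exact hP a ha c (mem_up.1 (hS hc)).1
    · intro b hb c hc
      rcases mem_insert.1 hb with hb' | hb' <;> rcases mem_insert.1 hc with hc' | hc'
      · rw [hb', hc']; exact not_isEdge_self h _
      · rw [hb']; exact (mem_up.1 (hS hc')).2
      · rw [hc']; exact fun he => (mem_up.1 (hS hb')).2 (isEdge_symm.1 he)
      · exact hI b hb' c hc'
  · rintro ⟨a, S⟩ hx ⟨a', S'⟩ hx' hh
    simp only [mem_sigma, mem_filter, mem_powersetCard] at hx hx' hh
    have hS := hx.2.1.1
    have hS' := hx'.2.1.1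
    have haa : a = a' := by
      by_contra hne
      have h1 : a ∈ insert a' S' := hh ▸ mem_insert_self a S
      have h2 : a' ∈ insert a S := hh.symm ▸ mem_insert_self a' S'
      have h3 := (mem_up.1 (hS' ((mem_insert.1 h1).resolve_left hne))).1
      have h4 := (mem_up.1 (hS ((mem_insert.1 h2).resolve_left (Ne.symm hne)))).1
      exact lt_asymm h3 h4
    subst haa
    have : S = S' := by
      rw [← erase_insert (hnot a S hS), hh, erase_insert (hnot a S' hS')]
    rw [this]
  · intro S hS
    simp only [mem_filter, mem_powersetCard] at hS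
    obtain ⟨⟨hSP, hc⟩, hI⟩ := hS
    have hne : S.Nonempty := card_pos.1 (by omega)
    have hm := S.min'_mem hne
    refine ⟨⟨S.min' hne, S.erase (S.min' hne)⟩, ?_, insert_erase hm⟩
    simp only [mem_sigma, mem_filter, mem_powersetCard]
    refine ⟨hSP hm, ⟨fun c hc' => ?_, by rw [card_erase_of_mem hm, hc]; rfl⟩, ?_⟩
    · have hcS := mem_of_mem_erase hc'
      exact mem_up.2 ⟨lt_of_le_of_ne (S.min'_le c hcS) (ne_of_mem_erase hc').symm,
        hI _ hm c hcS⟩
    · exact fun b hb c hc' => hI b (mem_of_mem_erase hb) c (mem_of_mem_erase hc')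
  · rintro ⟨a, S⟩ hx
    simp only [mem_sigma, mem_filter, mem_powersetCard] at hx
    have hS := hx.2.1.1
    have h0 : om h (ex a) (∑ c ∈ S, ex c) = 0 := by
      rw [map_sum]
      refine sum_eq_zero fun c hc => ?_
      rw [om_ex_ex, Wt, if_neg (mem_up.1 (hS hc)).2]
    rw [single_mul_single, sum_insert (hnot a S hS), h0]
    simp

/-- words without ascent whose first letter lies in `Q` -/
noncomputable def WP (h : Fin n → ℕ) (Q : Finset (Fin n)) (m : ℕ) : Tor h :=
  ∑ w ∈ (univ : Finset (Fin m → Fin n)).filter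
      (fun w => (∀ i j : Fin m, j.val = i.val + 1 → w i < w j → IsEdge h (w i) (w j)) ∧
        ∀ i : Fin m, i.val = 0 → w i ∈ Q),
    (List.ofFn fun i => (single (ex (w i)) 1 : Tor h)).prod

theorem WP_univ (m : ℕ) : WP h univ m = Wd h m := by
  simp [WP, Wd]

theorem WP_zero (Q : Finset (Fin n)) : WP h Q 0 = 1 := by
  simp [WP]

theorem WP_succ (Q : Finset (Fin n)) (m : ℕ) :
    WP h Q (m + 1) = ∑ a ∈ Q, single (ex a) 1 * WP h (up h a)ᶜ m := by
  unfold WP
  simp_rw [mul_sum, sum_filter]
  have hQ : ∀ g : Fin n → (Fin m → Fin n) → Tor h,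
      ∑ a ∈ Q, ∑ w, g a w = ∑ a, ∑ w, if a ∈ Q then g a w else 0 := by
    intro g
    rw [← sum_ite_mem_eq]
    refine sum_congr rfl fun a _ => ?_
    split_ifs <;> simp
  rw [hQ, ← Fintype.sum_equiv (Fin.consEquiv fun _ => Fin n) _ _ fun _ => rfl,
    Fintype.sum_prod_type]
  refine sum_congr rfl fun a _ => ?_
  refine sum_congr rfl fun w _ => ?_
  rw [← ite_and]
  refine if_congr ?_ ?_ rfl
  · constructor
    · rintro ⟨h1, h2⟩
      refine ⟨h2 0 rfl, fun i j hij => h1 i.succ j.succ (by simp [hij]), fun i hi => ?_⟩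
      have := h1 0 i.succ (by simp [hi])
      rw [mem_compl, mem_up]
      exact fun hh => hh.2 (this hh.1)
    · rintro ⟨h1, h2, h3⟩
      constructor
      · intro i j hij
        rcases Fin.eq_zero_or_eq_succ j with rfl | ⟨j, rfl⟩
        · simp at hij
        rcases Fin.eq_zero_or_eq_succ i with rfl | ⟨i, rfl⟩
        · have := h3 j (by simpa using hij)
          rw [mem_compl, mem_up] at this
          intro hlt
          by_contra hc
          exact this ⟨hlt, hc⟩
        · exact h2 i j (by simpa using hij)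
      · intro i hi
        rcases Fin.eq_zero_or_eq_succ i with rfl | ⟨i, rfl⟩
        · exact h1
        · simp at hi
  · rw [List.ofFn_succ, List.prod_cons]
    rfl

theorem alt_sum (m : ℕ) : ∀ P : Finset (Fin n), (∀ b ∈ P, ∀ c, b < c → c ∈ P) →
    ∑ k ∈ range (m + 1), (-1) ^ k * HP h P k * Wd h (m - k) = WP h Pᶜ m := by
  induction m with
  | zero => intro P _; simp [HP_zero, WP_zero, ← WP_univ]
  | succ m ih =>
    intro P hP
    rw [sum_range_succ', HP_zero, pow_zero, one_mul, one_mul, Nat.sub_zero, ← WP_univ (m + 1),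
      WP_succ, WP_succ, ← sum_add_sum_compl P]
    have : ∑ k ∈ range (m + 1), (-1) ^ (k + 1) * HP h P (k + 1) * Wd h (m + 1 - (k + 1)) =
        -∑ a ∈ P, single (ex a) 1 * WP h (up h a)ᶜ m := by
      simp_rw [← fun a => ih (up h a) (up_closed a), mul_sum, HP_succ hP, mul_sum, sum_mul]
      rw [sum_comm, ← sum_neg_distrib]
      refine sum_congr rfl fun a _ => ?_
      rw [← sum_neg_distrib]
      refine sum_congr rfl fun k _ => ?_
      rw [Nat.add_sub_add_right, pow_succ]
      rcases neg_one_pow_eq_or (Tor h) k with e | e <;> rw [e] <;> noncomm_ring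
    rw [this]
    abel

end GraphCount

open GraphCount

variable {n : ℕ} {h : Fin n → ℕ}

theorem co_prod_Ham (h : Fin n → ℕ) (N : ℕ) (β : Fin N →₀ ℕ) :
    v ^ (nE h : ℤ) * ((List.ofFn fun j => Ham h (β j)).prod).co (full n) =
      Polynomial.aeval (v ^ 2) (MvPolynomial.coeff β (chromaticQSym h N)) := by
  classical
  unfold Ham chromaticQSym
  have hH : ∀ k, ∑ S ∈ (powersetCard k univ).filter (Indep h), (single (∑ a ∈ S, ex a) 1 : Tor h) =
      ∑ S : Finset (Fin n), if S.card = k ∧ Indep h S then single (∑ a ∈ S, ex a) 1 else 0 := by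
    intro k
    rw [← sum_filter]
    refine sum_congr ?_ fun _ _ => rfl
    ext S
    simp
  simp_rw [hH]
  rw [prod_sum_ofFn]
  simp_rw [prod_ite_ofFn, prod_single]
  rw [co_sum, mul_sum, MvPolynomial.coeff_sum, map_sum]
  have hL : ∀ S : Fin N → Finset (Fin n), v ^ (nE h : ℤ) *
      (if ∀ j, (S j).card = β j ∧ Indep h (S j) then (single (∑ j, ∑ a ∈ S j, ex a)
        (v ^ (∑ i, ∑ j, if i < j then om h (∑ a ∈ S i, ex a) (∑ a ∈ S j, ex a) else 0)) : Tor h)
        else 0).co (full n) =
      if (∀ j, (S j).card = β j ∧ Indep h (S j)) ∧ full n = ∑ j, ∑ a ∈ S j, ex a then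
        v ^ ((nE h : ℤ) +
          ∑ i, ∑ j, if i < j then om h (∑ a ∈ S i, ex a) (∑ a ∈ S j, ex a) else 0) else 0 := by
    intro S
    by_cases h1 : ∀ j, (S j).card = β j ∧ Indep h (S j)
    · rw [if_pos h1, co_single]
      by_cases h2 : full n = ∑ j, ∑ a ∈ S j, ex a
      · rw [if_pos h2, if_pos ⟨h1, h2⟩, zpow_add₀ v_ne_zero]
      · rw [if_neg h2, if_neg (fun hh => h2 hh.2), mul_zero]
    · rw [if_neg h1, if_neg (fun hh => h1 hh.1), co_zero, mul_zero]
  have hR : ∀ f : Fin n → Fin N, Polynomial.aeval (v ^ 2) (MvPolynomial.coeff β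
      (MvPolynomial.C ((Polynomial.X : Polynomial ℤ) ^ ascents h f) *
        ∏ a : Fin n, MvPolynomial.X (f a))) =
      if ∀ j, (univ.filter fun a => f a = j).card = β j then v ^ (2 * (ascents h f : ℤ))
        else 0 := by
    intro f
    have e1 : (∏ a : Fin n, MvPolynomial.X (f a) : MvPolynomial (Fin N) (Polynomial ℤ)) =
        MvPolynomial.monomial (∑ a, Finsupp.single (f a) 1) 1 := by
      rw [MvPolynomial.monomial_sum_one]
      rfl
    have e2 : (∑ a, Finsupp.single (f a) 1 = β) ↔
        ∀ j, (univ.filter fun a => f a = j).card = β j := by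
      rw [Finsupp.ext_iff]
      refine forall_congr' fun j => ?_
      rw [Finsupp.finsetSum_apply, card_filter]
      simp only [Finsupp.single_apply]
    rw [e1, MvPolynomial.C_mul_monomial, mul_one, MvPolynomial.coeff_monomial]
    by_cases h1 : ∑ a, Finsupp.single (f a) 1 = β
    · rw [if_pos h1, if_pos (e2.1 h1), aeval_X_pow_eq]
    · rw [if_neg h1, if_neg (fun hh => h1 (e2.2 hh)), map_zero]
  simp_rw [hL, hR]
  rw [← sum_filter, ← sum_filter, filter_filter]
  symm
  refine sum_bij (fun f _ => fun j => univ.filter fun a => f a = j) ?_ ?_ ?_ ?_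
  · intro f hf
    simp only [mem_filter, mem_univ, true_and] at hf ⊢
    refine ⟨fun j => ⟨hf.2 j, fun a ha c hc he => ?_⟩, ?_⟩
    · exact hf.1 a c he ((mem_filter.1 ha).2.trans (mem_filter.1 hc).2.symm)
    · rw [sum_fiberwise]; rfl
  · intro f _ g _ hfg
    funext a
    have h1 : a ∈ univ.filter fun b => f b = f a := by simp
    rw [congrFun hfg (f a)] at h1
    exact (mem_filter.1 h1).2.symm
  · intro S hS
    simp only [mem_filter, mem_univ, true_and] at hS
    have hone : ∀ a, ∃ j, univ.filter (fun j => a ∈ S j) = {j} := by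
      intro a
      rw [← card_eq_one]
      have h1 := congrFun hS.2 (some a)
      simp only [full_apply, Finset.sum_apply, ex_apply, sum_ite_eq] at h1
      rw [card_filter]
      exact_mod_cast h1.symm
    choose f hf using hone
    have hf' : ∀ a j, a ∈ S j ↔ f a = j := by
      intro a j
      have : j ∈ univ.filter (fun j => a ∈ S j) ↔ j ∈ ({f a} : Finset (Fin N)) := by rw [hf]
      simpa [eq_comm] using this
    have hSf : (fun j => univ.filter fun a => f a = j) = S := by
      funext j
      ext a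
      simp [hf']
    refine ⟨f, ?_, hSf⟩
    simp only [mem_filter, mem_univ, true_and]
    refine ⟨fun a c he hac => (hS.1 (f a)).2 a ((hf' _ _).2 rfl) c ((hf' _ _).2 hac.symm) he,
      fun j => ?_⟩
    rw [congrFun hSf j]
    exact (hS.1 j).1
  · intro f hf
    simp only [mem_filter, mem_univ, true_and] at hf
    rw [← sum_Wt h f hf.1]
    congr 2
    rw [← sum_fiberwise (s := univ) (g := f)]
    refine sum_congr rfl fun i _ => ?_
    simp_rw [← sum_fiberwise (s := univ) (g := f) (f := fun c => if f _ < f c then Wt h _ c else 0)]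
    rw [sum_comm]
    refine sum_congr rfl fun j _ => ?_
    by_cases hij : i < j
    · rw [if_pos hij, map_sum (om h), AddMonoidHom.finsetSum_apply]
      refine sum_congr rfl fun a ha => ?_
      rw [map_sum]
      refine sum_congr rfl fun c hc => ?_
      rw [(mem_filter.1 ha).2, (mem_filter.1 hc).2, if_pos hij, om_ex_ex]
    · rw [if_neg hij]
      refine sum_eq_zero fun a ha => sum_eq_zero fun c hc => ?_
      rw [(mem_filter.1 ha).2, (mem_filter.1 hc).2, if_neg hij]

theorem Wd_zero (h : Fin n → ℕ) : Wd h 0 = 1 := by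
  rw [← WP_univ, WP_zero]

theorem Ham_Wd (hh : IsHessenberg h) (m : ℕ) (hm : 0 < m) :
    ∑ k ∈ range (m + 1), (-1) ^ k * Ham h k * Wd h (m - k) = 0 := by
  obtain ⟨m, rfl⟩ : ∃ l, m = l + 1 := ⟨m - 1, by omega⟩
  have := alt_sum (h := h) (m + 1) univ (fun _ _ c _ => mem_univ c)
  rw [compl_univ, WP_succ, sum_empty] at this
  exact this

theorem co_Wd (h : Fin n → ℕ) :
    v ^ (nE h : ℤ) * (Wd h n).co (full n) =
      Polynomial.aeval (v ^ 2)
        (∑ σ ∈ descentSet h, (Polynomial.X : Polynomial ℤ) ^ ginv h σ) := by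
  classical
  unfold Wd
  simp_rw [prod_single]
  rw [co_sum, mul_sum, map_sum]
  simp_rw [co_single, mul_ite, mul_zero, ← zpow_add₀ v_ne_zero, aeval_X_pow_eq]
  rw [← sum_filter, filter_filter]
  symm
  refine sum_bij (fun σ _ => fun i => σ (Fin.rev i)) ?_ ?_ ?_ ?_
  · intro σ hσ
    simp only [descentSet, mem_filter, mem_univ, true_and] at hσ ⊢
    refine ⟨fun i j hij hlt => hσ (Fin.rev j) (Fin.rev i) ?_ hlt, ?_⟩
    · rw [Fin.val_rev, Fin.val_rev]
      have := j.2
      omega
    · exact (Fintype.sum_equiv (Fin.revPerm.trans σ) _ _ fun _ => rfl).symm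
  · intro σ _ τ _ hστ
    ext1 i
    have := congrFun hστ (Fin.rev i)
    simpa using this
  · intro w hw
    simp only [mem_filter, mem_univ, true_and] at hw
    have hsurj : Function.Surjective w := by
      intro a
      by_contra hc
      push Not at hc
      have h1 := congrFun hw.2 (some a)
      simp only [full_apply, Finset.sum_apply, ex_apply] at h1
      rw [sum_eq_zero fun i _ => if_neg (hc i).symm] at h1
      exact one_ne_zero h1
    have hbij : Function.Bijective w := Finite.surjective_iff_bijective.1 hsurj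
    refine ⟨Fin.revPerm.trans (Equiv.ofBijective w hbij), ?_, ?_⟩
    · simp only [descentSet, mem_filter, mem_univ, true_and]
      intro i j hij hlt
      refine hw.1 (Fin.rev j) (Fin.rev i) ?_ hlt
      rw [Fin.val_rev, Fin.val_rev]
      have := j.2
      omega
    · funext i
      simp
  · intro σ _
    let e : Equiv.Perm (Fin n) := Fin.revPerm.trans σ
    have he : ∀ i, e i = σ (Fin.rev i) := fun _ => rfl
    have h1 := sum_Wt h e.symm fun a b hab hh => not_isEdge_self h a (by
      rw [e.symm.injective hh] at hab ⊢; exact hab)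
    have h2 : ginv h σ = ascents h e.symm := by
      unfold ginv ascents
      refine card_bij (fun p _ => (σ p.2, σ p.1)) ?_ ?_ ?_
      · intro p hp
        simp only [mem_filter, mem_univ, true_and] at hp ⊢
        refine ⟨hp.2.1, isEdge_symm.1 hp.2.2, ?_⟩
        simpa [e] using hp.1
      · intro p _ q _ hpq
        simp only [Prod.mk.injEq, EmbeddingLike.apply_eq_iff_eq] at hpq
        exact Prod.ext hpq.2 hpq.1
      · intro p hp
        simp only [mem_filter, mem_univ, true_and] at hp
        refine ⟨(σ.symm p.2, σ.symm p.1), ?_, by simp⟩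
        simp only [mem_filter, mem_univ, true_and, Equiv.apply_symm_apply]
        refine ⟨?_, hp.1, isEdge_symm.1 hp.2.1⟩
        simpa [e] using hp.2.2
    rw [h2, ← h1]
    congr 2
    symm
    refine Fintype.sum_equiv e _ _ fun i => Fintype.sum_equiv e _ _ fun j => ?_
    rw [Equiv.symm_apply_apply, Equiv.symm_apply_apply, om_ex_ex, he, he]

end Crest.Agent.R59
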