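import Crest.Agent.R59.GraphDefs

/-! # Symmetric function identities (dual Cauchy identity, `e`-`h` recursion) -/

set_option autoImplicit false

namespace Crest.Agent.R59
open Finset MvPolynomial

namespace GSym

/-- sum of all monomials of degree `m` -/
noncomputable def hs (n m : ℕ) : MvPolynomial (Fin n) ℤ :=
  ∑ α ∈ finsuppAntidiag (univ : Finset (Fin n)) m, monomial α 1

/-- the multiset of values -/
def vals {n : ℕ} (α : Fin n →₀ ℕ) : Multiset ℕ := (univ : Finset (Fin n)).val.map α

/-- monomial symmetric polynomial -/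
noncomputable def ms (n : ℕ) (μ : Nat.Partition n) : MvPolynomial (Fin n) ℤ :=
  ∑ α ∈ (finsuppAntidiag (univ : Finset (Fin n)) n).filter
    (fun α => (vals α).filter (· ≠ 0) = μ.parts), monomial α 1

theorem coeff_sum_monomial {σ : Type*} [DecidableEq σ] (s : Finset (σ →₀ ℕ)) (α : σ →₀ ℕ) :
    coeff α (∑ β ∈ s, monomial β (1 : ℤ)) = if α ∈ s then 1 else 0 := by
  rw [coeff_sum]
  simp only [coeff_monomial]
  rw [Finset.sum_ite_eq']

theorem mem_anti {n m : ℕ} {α : Fin n →₀ ℕ} :
    α ∈ finsuppAntidiag (univ : Finset (Fin n)) m ↔ (vals α).sum = m := by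
  rw [mem_finsuppAntidiag, and_iff_left (subset_univ _)]
  rfl

theorem coeff_hs (n m : ℕ) (α : Fin n →₀ ℕ) :
    coeff α (hs n m) = if (vals α).sum = m then 1 else 0 := by
  rw [hs, coeff_sum_monomial]
  simp only [mem_anti]

theorem coeff_ms (n : ℕ) (μ : Nat.Partition n) (α : Fin n →₀ ℕ) :
    coeff α (ms n μ) = if (vals α).sum = n ∧ (vals α).filter (· ≠ 0) = μ.parts then 1 else 0 := by
  rw [ms, coeff_sum_monomial]
  simp only [mem_filter, mem_anti]

theorem vals_mapDomain {n : ℕ} (e : Equiv.Perm (Fin n)) (α : Fin n →₀ ℕ) :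
    vals (α.mapDomain e) = vals α := by
  have : (α.mapDomain e : Fin n → ℕ) = α ∘ e.symm := by
    funext a
    exact Finsupp.mapDomain_equiv_apply α a
  rw [vals, vals, this, ← Multiset.map_map, Multiset.map_univ_val_equiv]

theorem isSymmetric_of_vals {n : ℕ} {φ : MvPolynomial (Fin n) ℤ}
    (h : ∀ α β, vals α = vals β → coeff α φ = coeff β φ) : φ.IsSymmetric := by
  intro e
  ext α
  have : α = (α.mapDomain e.symm).mapDomain e := by
    rw [← Finsupp.mapDomain_comp, Equiv.self_comp_symm, Finsupp.mapDomain_id]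
  conv_lhs => rw [this, coeff_rename_mapDomain _ e.injective]
  exact h _ _ (vals_mapDomain _ _)

theorem hs_isSymmetric (n m : ℕ) : (hs n m).IsSymmetric :=
  isSymmetric_of_vals fun α β h => by rw [coeff_hs, coeff_hs, h]

theorem ms_isSymmetric (n : ℕ) (μ : Nat.Partition n) : (ms n μ).IsSymmetric :=
  isSymmetric_of_vals fun α β h => by rw [coeff_ms, coeff_ms, h]

theorem toSym_injective (n : ℕ) : Function.Injective (toSym n) := by
  intro p q h
  apply esymmAlgHom_fin_injective ℤ (le_refl n)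
  apply Subtype.ext
  rw [esymmAlgHom_apply, esymmAlgHom_apply]
  exact h

theorem exists_toSym {n : ℕ} {φ : MvPolynomial (Fin n) ℤ} (h : φ.IsSymmetric) :
    ∃ p, toSym n p = φ := by
  obtain ⟨p, hp⟩ := esymmAlgHom_fin_surjective ℤ (le_refl n) ⟨φ, h⟩
  refine ⟨p, ?_⟩
  have := congrArg Subtype.val hp
  rw [esymmAlgHom_apply] at this
  exact this

theorem toSym_Ee (n k : ℕ) : toSym n (Ee n k) = esymm (Fin n) ℤ k := by
  unfold Ee
  split_ifs with h0 hk
  · rw [map_one, h0, esymm_zero]
  · rw [toSym, aeval_X]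
    congr 1
    simp only
    omega
  · rw [map_zero, esymm, powersetCard_eq_empty.2 (by simp; omega), sum_empty]

theorem sum_coeff_ms {n : ℕ} (c : Nat.Partition n → ℤ) (α : Fin n →₀ ℕ) :
    ∑ μ, c μ * coeff α (ms n μ) =
      if h : (vals α).sum = n then c (Nat.Partition.ofSums n (vals α) h) else 0 := by
  split_ifs with h
  · rw [Finset.sum_eq_single (Nat.Partition.ofSums n (vals α) h)]
    · rw [coeff_ms, if_pos ⟨h, rfl⟩, mul_one]
    · intro μ _ hμ
      rw [coeff_ms, if_neg, mul_zero]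
      rintro ⟨-, h'⟩
      exact hμ (Nat.Partition.ext h'.symm)
    · simp
  · refine Finset.sum_eq_zero fun μ _ => ?_
    rw [coeff_ms, if_neg (fun h' => h h'.1), mul_zero]

theorem sum_ms (n : ℕ) : ∑ μ, ms n μ = hs n n := by
  ext α
  have := sum_coeff_ms (fun _ => 1) α
  simp only [one_mul] at this
  rw [coeff_sum, this, coeff_hs]
  split_ifs <;> rfl

/-! ### the dual Cauchy identity -/

section cauchy
variable {σ τ : Type} [Fintype σ] [DecidableEq σ] [Fintype τ] [DecidableEq τ]

/-- transpose of a `0/1` matrix -/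
def tr (T : τ → Finset σ) (a : σ) : Finset τ := univ.filter (fun j => a ∈ T j)

theorem tr_tr (T : τ → Finset σ) : tr (tr T) = T := by
  funext j
  ext a
  simp [tr]

theorem coeff_prod_esymm (α : σ →₀ ℕ) (β : τ → ℕ) :
    coeff α (∏ j, esymm σ ℤ (β j)) =
      ((univ.filter (fun T : τ → Finset σ =>
        (∀ j, (T j).card = β j) ∧ ∀ a, (tr T a).card = α a)).card : ℤ) := by
  simp only [esymm_eq_sum_monomial]
  rw [Finset.prod_univ_sum, coeff_sum]
  simp only [← monomial_sum_one, coeff_monomial]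
  rw [Finset.sum_boole]
  congr 2
  ext T
  simp only [mem_filter, Fintype.mem_piFinset, mem_powersetCard_univ, mem_univ, true_and]
  refine and_congr_right fun _ => ?_
  rw [Finsupp.ext_iff]
  refine forall_congr' fun a => ?_
  have : (∑ j, ∑ i ∈ T j, Finsupp.single i 1 : σ →₀ ℕ) a = (tr T a).card := by
    rw [Finsupp.finsetSum_apply, tr, Finset.card_filter]
    refine Finset.sum_congr rfl fun j _ => ?_
    rw [Finsupp.finsetSum_apply]
    simp only [Finsupp.single_apply]
    rw [Finset.sum_ite_eq']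
  rw [this]

theorem dual_cauchy (α : σ →₀ ℕ) (β : τ →₀ ℕ) :
    coeff α (∏ j, esymm σ ℤ (β j)) = coeff β (∏ a, esymm τ ℤ (α a)) := by
  rw [coeff_prod_esymm, coeff_prod_esymm]
  congr 1
  refine Finset.card_nbij' tr tr ?_ ?_ (fun T _ => tr_tr T) (fun T _ => tr_tr T)
  · intro T hT
    simp only [coe_filter, mem_univ, true_and, Set.mem_ofPred_eq] at hT ⊢
    rw [tr_tr]
    exact hT.symm
  · intro T hT
    simp only [coe_filter, mem_univ, true_and, Set.mem_ofPred_eq] at hT ⊢
    rw [tr_tr]
    exact hT.symm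

omit [DecidableEq σ] in
theorem esymm_isHomogeneous (k : ℕ) : (esymm σ ℤ k).IsHomogeneous k := by
  refine IsHomogeneous.sum _ _ _ fun t ht => ?_
  have := IsHomogeneous.prod t (fun i => (X i : MvPolynomial σ ℤ)) (fun _ => 1)
    (fun i _ => isHomogeneous_X ℤ i)
  rwa [Finset.sum_const, smul_eq_mul, mul_one, (mem_powersetCard.1 ht).2] at this

end cauchy

theorem prod_map_filter {M : Type*} [CommMonoid M] (f : ℕ → M) (hf : f 0 = 1) (s : Multiset ℕ) :
    ((s.filter (· ≠ 0)).map f).prod = (s.map f).prod := by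
  induction s using Multiset.induction_on with
  | empty => simp
  | cons a s ih =>
    by_cases ha : a = 0
    · rw [Multiset.filter_cons_of_neg _ (by simpa using ha), ih, Multiset.map_cons,
        Multiset.prod_cons, ha, hf, one_mul]
    · rw [Multiset.filter_cons_of_pos (p := (· ≠ 0)) _ ha, Multiset.map_cons, Multiset.prod_cons, ih,
        Multiset.map_cons, Multiset.prod_cons]

theorem prod_esymm_eq {n N : ℕ} (β : Fin N →₀ ℕ) (hβ : Finsupp.degree β = n) :
    ∏ j, esymm (Fin n) ℤ (β j) = ∑ μ, C (coeff β (esymmPart (Fin N) ℤ μ)) * ms n μ := by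
  ext α
  rw [coeff_sum]
  simp only [coeff_C_mul]
  rw [sum_coeff_ms]
  split_ifs with h
  · rw [dual_cauchy, esymmPart]
    congr 1
    change _ = (((vals α).filter (· ≠ 0)).map _).prod
    rw [prod_map_filter _ (esymm_zero _ _), vals, Multiset.map_map]
    rfl
  · have hh := IsHomogeneous.prod univ (fun j => esymm (Fin n) ℤ (β j)) (fun j => β j)
      (fun j _ => esymm_isHomogeneous (β j))
    refine hh.coeff_eq_zero ?_
    rw [Finsupp.degree_eq_sum] at hβ ⊢
    rw [hβ]
    exact h

/-! ### the `e`-`h` recursion -/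

theorem coeff_prod_geom (n m : ℕ) :
    PowerSeries.coeff m (∏ a : Fin n,
      PowerSeries.mk (fun k => (X a : MvPolynomial (Fin n) ℤ) ^ k)) = hs n m := by
  rw [PowerSeries.coeff_prod, hs]
  refine Finset.sum_congr rfl fun α _ => ?_
  simp only [PowerSeries.coeff_mk]
  rw [monomial_eq, C_1, one_mul, Finsupp.prod_fintype _ _ (fun _ => pow_zero _)]

theorem coeff_prod_lin (n k : ℕ) :
    PowerSeries.coeff k (∏ a : Fin n,
      (1 - PowerSeries.C (X a : MvPolynomial (Fin n) ℤ) * PowerSeries.X)) =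
      (-1) ^ k * esymm (Fin n) ℤ k := by
  have : ∀ a : Fin n, (1 - PowerSeries.C (X a : MvPolynomial (Fin n) ℤ) * PowerSeries.X) =
      1 + PowerSeries.C (-X a : MvPolynomial (Fin n) ℤ) * PowerSeries.X := by
    intro a
    rw [map_neg, neg_mul, sub_eq_add_neg]
  simp only [this]
  rw [Finset.prod_one_add, map_sum, esymm, Finset.mul_sum, powersetCard_eq_filter, Finset.sum_filter]
  refine Finset.sum_congr rfl fun t _ => ?_
  rw [Finset.prod_mul_distrib, Finset.prod_const, ← map_prod, PowerSeries.coeff_C_mul,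
    PowerSeries.coeff_X_pow, Finset.prod_neg]
  by_cases h : t.card = k
  · rw [if_pos h, if_pos h.symm, mul_one, h]
  · rw [if_neg h, if_neg (Ne.symm h), mul_zero]

theorem lin_mul_geom {R : Type*} [CommRing R] (r : R) :
    (1 - PowerSeries.C r * PowerSeries.X) * PowerSeries.mk (fun k => r ^ k) = 1 := by
  have := congrArg (PowerSeries.rescale r) (PowerSeries.mk_one_mul_one_sub_eq_one R)
  rw [map_mul, map_sub, map_one, PowerSeries.rescale_X, PowerSeries.rescale_mk] at this
  rw [mul_comm]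
  simpa using this

theorem e_h_rec (n m : ℕ) (hm : 0 < m) :
    ∑ k ∈ range (m + 1), (-1) ^ k * esymm (Fin n) ℤ k * hs n (m - k) = 0 := by
  have h1 : (∏ a : Fin n, (1 - PowerSeries.C (X a : MvPolynomial (Fin n) ℤ) * PowerSeries.X)) *
      ∏ a : Fin n, PowerSeries.mk (fun k => (X a : MvPolynomial (Fin n) ℤ) ^ k) = 1 := by
    rw [← Finset.prod_mul_distrib]
    exact Finset.prod_eq_one fun a _ => lin_mul_geom _
  have h2 := congrArg (PowerSeries.coeff m) h1
  rw [PowerSeries.coeff_mul, PowerSeries.coeff_one, if_neg hm.ne'] at h2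
  simp only [coeff_prod_geom, coeff_prod_lin] at h2
  rwa [Finset.Nat.sum_antidiagonal_eq_sum_range_succ
    (fun i j => (-1) ^ i * esymm (Fin n) ℤ i * hs n j)] at h2

theorem hs_zero (n : ℕ) : hs n 0 = 1 := by
  rw [hs, finsuppAntidiag_zero, sum_singleton]
  rfl

end GSym

open GSym in
theorem exists_monomial_polys (n : ℕ) :
    ∃ (M : Nat.Partition n → MvPolynomial (Fin n) ℤ) (hE : ℕ → MvPolynomial (Fin n) ℤ),
      (∀ μ α, 0 ≤ coeff α (toSym n (M μ))) ∧
      (∀ (N : ℕ) (β : Fin N →₀ ℕ), Finsupp.degree β = n →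
        ∏ j, Ee n (β j) = ∑ μ, C (coeff β (esymmPart (Fin N) ℤ μ)) * M μ) ∧
      hE 0 = 1 ∧ (∀ m, 0 < m → ∑ k ∈ range (m + 1), (-1) ^ k * Ee n k * hE (m - k) = 0) ∧
      ∑ μ, M μ = hE n := by
  choose M hM using fun μ : Nat.Partition n => exists_toSym (ms_isSymmetric n μ)
  choose hE hh using fun m : ℕ => exists_toSym (hs_isSymmetric n m)
  refine ⟨M, hE, fun μ α => ?_, fun N β hβ => ?_, ?_, fun m hm => ?_, ?_⟩
  · rw [hM, coeff_ms]
    split_ifs <;> simp
  · apply toSym_injective n
    rw [map_prod, map_sum]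
    simp only [toSym_Ee, map_mul, hM, algHom_C, algebraMap_eq]
    exact prod_esymm_eq β hβ
  · apply toSym_injective n
    rw [hh, hs_zero, map_one]
  · apply toSym_injective n
    rw [map_sum, map_zero]
    simp only [map_mul, map_pow, map_neg, map_one, toSym_Ee, hh]
    exact e_h_rec n m hm
  · apply toSym_injective n
    rw [map_sum, hh]
    simp only [hM]
    exact sum_ms n

end Crest.Agent.R59
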