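import Crest.Agent.R59.Ev

/-! # Crossing one wall: coefficient formulas -/

set_option autoImplicit false

namespace Crest.Agent.R59
open Finset Pointwise Nov

variable {L : Type} [AddCommGroup L] {ω : L →+ L →+ ℤ} {δ δ' : L →+ ℤ}

theorem omega_antisymm' (hω : ∀ p, ω p p = 0) (p r : L) : ω p r = -ω r p := by
  have h := hω (p + r)
  simp only [map_add, AddMonoidHom.add_apply, hω] at h
  omega

theorem res_mul_left' {f : L →+ ℤ} {a : Nov ω δ} (ha : Supp a {p | f p = 0}) (x : Nov ω δ)
    (c : ℤ) : res {p | f p = c} (a * x) = a * res {p | f p = c} x := by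
  refine ext' fun p => ?_
  by_cases hp : f p = c
  · rw [co_res_of_mem (show p ∈ {p | f p = c} from hp), co_mul, co_mul]
    refine finsum_congr fun r => ?_
    by_cases hr : a.co r = 0
    · simp [hr]
    · have h0 : f r = 0 := ha r hr
      rw [co_res_of_mem (show p - r ∈ {p | f p = c} by simp [hp, h0])]
  · rw [co_res_of_not_mem (show p ∉ {p | f p = c} from hp)]
    by_contra h
    obtain ⟨r, h1, h2⟩ := co_mul_ne_zero (Ne.symm h)
    have h0 : f r = 0 := ha r h1
    exact h2 (co_res_of_not_mem (show p - r ∉ {p | f p = c} by simp [hp, h0]))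

theorem res_mul_right' {f : L →+ ℤ} {a : Nov ω δ} (ha : Supp a {p | f p = 0}) (x : Nov ω δ)
    (c : ℤ) : res {p | f p = c} (x * a) = res {p | f p = c} x * a := by
  refine ext' fun p => ?_
  by_cases hp : f p = c
  · rw [co_res_of_mem (show p ∈ {p | f p = c} from hp), co_mul, co_mul]
    refine finsum_congr fun r => ?_
    by_cases hr : a.co (p - r) = 0
    · simp [hr]
    · have h0 : f (p - r) = 0 := ha _ hr
      rw [map_sub, sub_eq_zero] at h0
      rw [co_res_of_mem (show r ∈ {p | f p = c} by simp [← hp, h0])]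
  · rw [co_res_of_not_mem (show p ∉ {p | f p = c} from hp)]
    by_contra h
    obtain ⟨r, h1, h2⟩ := co_mul_ne_zero (Ne.symm h)
    have h0 : f (p - r) = 0 := ha _ h2
    rw [map_sub, sub_eq_zero] at h0
    exact h1 (co_res_of_not_mem (show r ∉ {p | f p = c} by simp [← h0, hp]))

theorem supp_res' (A : Set L) (x : Nov ω δ) : Supp (res A x) A := fun p hp => by
  by_contra h
  exact hp (co_res_of_not_mem h)

/-- the wall relation restricted to the class `ω e p = w` -/
theorem wall_res (hω : ∀ p, ω p p = 0) {e : L} {x y : Nov ω δ} (h : E0 e * x = y * E0 e)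
    (w : ℤ) :
    res {p | ω e p = w} x * ev e (PowerSeries.rescale (v ^ (1 + 2 * w)) (Eser true)) =
      res {p | ω e p = w} y * ev e (PowerSeries.rescale (v ^ (1 : ℤ)) (Eser true)) := by
  have hs : Supp (E0 e : Nov ω δ) {p | ω e p = 0} :=
    supp_ev (M := AddMonoidHom.mker (ω e)) (by simp [hω]) _
  have h1 := congrArg (res {p | ω e p = w}) h
  rw [res_mul_left' hs, res_mul_right' hs, E0, ev_mul_comm hω (supp_res' _ x),
    PowerSeries.rescale_rescale] at h1
  rw [zpow_add₀ v_ne_zero, zpow_one]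
  exact h1

theorem isUnit_ev_Eser {e : L} (he : 0 < δ e) (i : ℤ) :
    IsUnit (ev e (PowerSeries.rescale (v ^ i) (Eser true)) : Nov ω δ) := by
  refine (isUni_ev he ?_).isUnit
  rw [← PowerSeries.coeff_zero_eq_constantCoeff_apply, PowerSeries.coeff_rescale, pow_zero, one_mul,
    PowerSeries.coeff_zero_eq_constantCoeff_apply, constantCoeff_Eser]

theorem co_mul_Bpoly (hω : ∀ p, ω p p = 0) {e : L} (he : 0 < δ e) (x : Nov ω δ) {w : ℤ} {p : L}
    (hp : ω e p = w) (c : ℕ) :
    (res {p | ω e p = w} x * ev e (PowerSeries.rescale (v ^ w) (Bpoly c : PowerSeries K))).co p =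
      ∑ k ∈ range (c + 1), (Bpoly c).coeff k * x.co (p - k • e) := by
  rw [co_mul_ev he _ _ p (N := c + 1)]
  · refine Finset.sum_congr rfl fun k _ => ?_
    rw [co_res_of_mem (show p - k • e ∈ {p | ω e p = w} by simp [hω, hp]),
      PowerSeries.coeff_rescale, Polynomial.coeff_coe]
    have e1 : ω (p - k • e) (k • e) = -(w * k) := by
      simp only [map_sub, map_nsmul, AddMonoidHom.sub_apply, AddMonoidHom.nsmul_apply, hω,
        smul_zero, sub_zero, omega_antisymm' hω p e, hp]
      simp [mul_comm]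
    have e2 : v ^ (-(w * k)) * (v ^ w) ^ k = 1 := by
      rw [← zpow_natCast, ← zpow_mul, ← zpow_add₀ v_ne_zero, neg_add_cancel, zpow_zero]
    rw [e1]
    linear_combination ((Bpoly c).coeff k * x.co (p - k • e)) * e2
  · intro k hk
    right
    rw [PowerSeries.coeff_rescale, Polynomial.coeff_coe,
      Polynomial.coeff_eq_zero_of_natDegree_lt (lt_of_le_of_lt (Bpoly_natDegree_le c) hk), mul_zero]

theorem wall_co_of_nonneg' (hω : ∀ p, ω p p = 0) {e : L} (he : 0 < δ e) {x y : Nov ω δ}
    (h : E0 e * x = y * E0 e) {p : L} {c : ℕ} (hc : ω p e = c) :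
    y.co p = ∑ k ∈ range (c + 1), (Bpoly c).coeff k * x.co (p - k • e) := by
  have hp : ω e p = -c := by rw [omega_antisymm' hω, hc]
  have h1 := wall_res hω h (-c)
  have h2 := Eser_true_shift (1 - c) c
  rw [show (1 - c - c : ℤ) = 1 + 2 * -c by ring, show (1 - c - 1 : ℤ) = -c by ring,
    show (1 - c + c : ℤ) = 1 by ring] at h2
  rw [h2, ev_mul hω, ← mul_assoc] at h1
  have h3 := (isUnit_ev_Eser (ω := ω) he 1).mul_right_cancel h1
  rw [← co_mul_Bpoly hω he x hp c, h3, co_res_of_mem (show p ∈ {p | ω e p = -c} from hp)]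

theorem wall_co_of_nonpos' (hω : ∀ p, ω p p = 0) {e : L} (he : 0 < δ e) {x y : Nov ω δ}
    (h : E0 e * x = y * E0 e) {p : L} {c : ℕ} (hc : ω p e = -c) :
    x.co p = ∑ k ∈ range (c + 1), (Bpoly c).coeff k * y.co (p - k • e) := by
  have hp : ω e p = c := by rw [omega_antisymm' hω, hc, neg_neg]
  have h1 := wall_res hω h c
  have h2 := Eser_true_shift (1 + c) c
  rw [show (1 + c - c : ℤ) = 1 by ring, show (1 + c - 1 : ℤ) = c by ring,
    show (1 + c + c : ℤ) = 1 + 2 * c by ring] at h2
  rw [h2, ev_mul hω, ← mul_assoc] at h1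
  have h3 := (isUnit_ev_Eser (ω := ω) he (1 + 2 * c)).mul_right_cancel h1
  rw [← co_mul_Bpoly hω he y hp c, ← h3, co_res_of_mem (show p ∈ {p | ω e p = c} from hp)]

theorem sum_Bpoly_reflect (c : ℕ) (f : L → K) (p e : L) :
    ∑ k ∈ range (c + 1), (Bpoly c).coeff k * f (p + (c : ℤ) • e - k • e) =
      ∑ k ∈ range (c + 1), (Bpoly c).coeff k * f (p - k • (-e)) := by
  rw [← Finset.sum_range_reflect]
  refine Finset.sum_congr rfl fun k hk => ?_
  have hk' : k ≤ c := Nat.lt_succ_iff.1 (mem_range.1 hk)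
  rw [show c + 1 - 1 - k = c - k by omega, Bpoly_coeff_symm hk']
  congr 2
  obtain ⟨m, rfl⟩ := Nat.exists_eq_add_of_le hk'
  rw [Nat.add_sub_cancel_left, natCast_zsmul, add_nsmul, smul_neg]
  abel

theorem wall_flip' (hω : ∀ p, ω p p = 0) {e : L} (he : 0 < δ e) (he' : 0 < δ' (-e))
    {x y : Nov ω δ} {x' y' : Nov ω δ'} (hx : ∀ p, x'.co p = x.co p)
    (hy : ∀ p, y'.co (p - ω p e • e) = y.co p) (h : E0 e * x = y * E0 e) :
    E0 (-e) * y' = x' * E0 (-e) := by
  have hU : IsUni (E0 (-e) : Nov ω δ') := isUni_E0 he'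
  set y'' : Nov ω δ' := inv (E0 (-e)) * x' * E0 (-e) with hy''
  have h'' : E0 (-e) * y'' = x' * E0 (-e) := by
    rw [hy'', ← mul_assoc, ← mul_assoc, hU.mul_inv, one_mul]
  suffices y' = y'' by rw [this, h'']
  refine ext' fun p => ?_
  rcases le_total 0 (ω p e) with hp | hp
  · obtain ⟨c, hc⟩ := Int.eq_ofNat_of_zero_le hp
    have h1 := wall_co_of_nonpos' hω he' h'' (p := p) (c := c) (by rw [map_neg, hc])
    have hq : ω (p + (c : ℤ) • e) e = c := by simp [hω, hc]
    have h2 := wall_co_of_nonneg' hω he h hq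
    have h3 := hy (p + (c : ℤ) • e)
    rw [hq, add_sub_cancel_right] at h3
    rw [h3, h2, h1, sum_Bpoly_reflect]
    simp only [hx]
  · obtain ⟨c, hc⟩ := Int.eq_ofNat_of_zero_le (neg_nonneg.2 hp)
    have hc' : ω p e = -c := by rw [← hc, neg_neg]
    have key : ∀ q, ω q e = -c →
        ∑ k ∈ range (c + 1), (Bpoly c).coeff k * (y' - y'').co (q - k • (-e)) = 0 := by
      intro q hq
      have h1 := wall_co_of_nonneg' hω he' h'' (p := q) (c := c) (by rw [map_neg, hq, neg_neg])
      have h2 := wall_co_of_nonpos' hω he h hq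
      have h3 : ∀ k : ℕ, y.co (q - k • e) = y'.co (q + (c : ℤ) • e - k • e) := fun k => by
        rw [← hy]
        congr 1
        have : ω (q - k • e) e = -c := by simp [hω, hq]
        rw [this, neg_smul]
        abel
      simp only [h3] at h2
      rw [sum_Bpoly_reflect c y'.co q e, ← hx, h1] at h2
      simp only [co_sub, mul_sub, Finset.sum_sub_distrib, h2, sub_self]
    obtain ⟨b, hb⟩ := (y' - y'').nov.exists_lb
    have ind : ∀ n : ℕ, ∀ q, ω q e = -c → δ' q < b + n → (y' - y'').co q = 0 := by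
      intro n
      induction n with
      | zero =>
        intro q _ hq
        by_contra h0
        have := hb q h0
        simp at hq
        omega
      | succ n ih =>
        intro q hq hlt
        have h1 := key q hq
        rw [Finset.sum_range_succ', Finset.sum_eq_zero, Bpoly_coeff_zero] at h1
        · simpa using h1
        · intro k _
          rw [ih _ (by simp [hω, hq]), mul_zero]
          rw [map_sub, map_nsmul, nsmul_eq_mul]
          push_cast at hlt ⊢
          nlinarith
    have := ind (δ' p - b + 1).toNat p hc' (by omega)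
    rwa [co_sub, sub_eq_zero] at this

end Crest.Agent.R59
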