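import Crest.Agent.R59.Ray
import Crest.Agent.R59.MutationAux

/-! # Mutation invariance -/

set_option autoImplicit false

namespace Crest.Agent.R59
open Finset Pointwise Nov

variable {L : Type} [AddCommGroup L] {ω : L →+ L →+ ℤ} {δ δ' : L →+ ℤ}

/-- the linear shear `p ↦ p - ω p e • e` -/
def shear (ω : L →+ L →+ ℤ) (hω : ∀ p, ω p p = 0) (e : L) : L ≃+ L where
  toFun p := p - ω p e • e
  invFun p := p + ω p e • e
  left_inv p := by simp [hω]
  right_inv p := by simp [hω]
  map_add' p r := by simp [add_smul]; abel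

/-- the piecewise linear mutation map -/
def trop (ω : L →+ L →+ ℤ) (e r : L) : L := r + (-ω r e).toNat • e

/-- crossing the wall `e` and crossing the wall `-e` differ by the shear -/
theorem wall_flip (hω : ∀ p, ω p p = 0) {e : L} (he : 0 < δ e) (he' : 0 < δ' (-e))
    {x y : Nov ω δ} {x' y' : Nov ω δ'} (hx : Rel (AddEquiv.refl L) x x')
    (hy : Rel (shear ω hω e) y y') (h : E0 e * x = y * E0 e) :
    E0 (-e) * y' = x' * E0 (-e) :=
  wall_flip' hω he he' hx hy h

/-- across the wall `e`, on a class with `ω p e = c ≥ 0` the element is multiplied by `B_c` -/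
theorem wall_co_of_nonneg (hω : ∀ p, ω p p = 0) {e : L} (he : 0 < δ e) {x y : Nov ω δ}
    (h : E0 e * x = y * E0 e) {p : L} {c : ℕ} (hc : ω p e = c) :
    y.co p = ∑ k ∈ range (c + 1), (Bpoly c).coeff k * x.co (p - k • e) :=
  wall_co_of_nonneg' hω he h hc

theorem wall_co_of_nonpos (hω : ∀ p, ω p p = 0) {e : L} (he : 0 < δ e) {x y : Nov ω δ}
    (h : E0 e * x = y * E0 e) {p : L} {c : ℕ} (hc : ω p e = -c) :
    x.co p = ∑ k ∈ range (c + 1), (Bpoly c).coeff k * y.co (p - k • e) :=
  wall_co_of_nonpos' hω he h hc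

/-! ### Mutation of the scattering element -/

namespace Mut

theorem tri_ext {σ τ : Tri L} (h : ∀ p, σ.sg p = τ.sg p) : σ = τ := by
  obtain ⟨s, _, _, _⟩ := σ
  obtain ⟨t, _, _, _⟩ := τ
  have : s = t := funext h
  subst this
  rfl

theorem comap_refl (σ : Tri L) : σ.comap (AddEquiv.refl L).toAddMonoidHom = σ :=
  tri_ext fun _ => rfl

theorem antisymm (hω : ∀ p, ω p p = 0) (p r : L) : ω p r = -ω r p := by
  have := hω (p + r)
  simp only [map_add, AddMonoidHom.add_apply, hω] at this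
  omega

theorem shear_apply (hω : ∀ p, ω p p = 0) (e p : L) : shear ω hω e p = p - ω p e • e := rfl

theorem shear_self (hω : ∀ p, ω p p = 0) (e : L) : shear ω hω e e = e := by
  simp [shear_apply, hω]

theorem om_shear (hω : ∀ p, ω p p = 0) (e p r : L) :
    ω (shear ω hω e p) (shear ω hω e r) = ω p r := by
  simp only [shear_apply, map_sub, map_zsmul, AddMonoidHom.sub_apply, AddMonoidHom.smul_apply,
    hω, smul_eq_mul]
  rw [antisymm hω e r]; ring

theorem om_shear_self (hω : ∀ p, ω p p = 0) (e p : L) : ω (shear ω hω e p) e = ω p e := by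
  conv_lhs => rw [← shear_self hω e]
  rw [shear_self hω e]
  have := om_shear hω e p e
  rwa [shear_self] at this

theorem trop_of_nonneg {e r : L} (h : 0 ≤ ω r e) : trop ω e r = r := by
  have : (-ω r e).toNat = 0 := by omega
  simp [trop, this]

theorem trop_of_nonpos (hω : ∀ p, ω p p = 0) {e r : L} (h : ω r e ≤ 0) :
    trop ω e r = shear ω hω e r := by
  rw [shear_apply, trop, ← natCast_zsmul, Int.toNat_of_nonneg (by omega), neg_smul,
    sub_eq_add_neg]

theorem om_trop (hω : ∀ p, ω p p = 0) (e r : L) : ω (trop ω e r) e = ω r e := by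
  simp [trop, hω]

theorem rayFun_map (T : L ≃+ L) {a : L} (ha : δ a ≠ 0) (ha' : δ' (T a) ≠ 0) (φ : PowerSeries K)
    (n : L) : rayFun (T a) φ (T n) = rayFun a φ n := by
  by_cases h : ∃ j : ℕ, n = j • a
  · obtain ⟨j, rfl⟩ := h
    rw [map_nsmul, rayFun_nsmul ha', rayFun_nsmul ha]
  · have h1 : rayFun a φ n = 0 := by
      by_contra h1; exact h (rayFun_ne_zero h1)
    have h2 : rayFun (T a) φ (T n) = 0 := by
      by_contra h2
      obtain ⟨j, hj⟩ := rayFun_ne_zero h2
      exact h ⟨j, T.injective (by rw [hj, map_nsmul])⟩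
    rw [h1, h2]

theorem mem_cone {ι : Type} (e : ι → L) (i : ι) : e i ∈ cone e :=
  AddSubmonoid.subset_closure ⟨i, rfl⟩

/-- a form which is positive on all generators but one -/
theorem cone_bar {ι : Type} {e : ι → L} {k : ι} {b : L →+ ℤ} (h0 : b (e k) = 0)
    (hb : ∀ i, i ≠ k → 0 < b (e i)) {p : L} (hp : p ∈ cone e) :
    0 ≤ b p ∧ (b p = 0 → ∃ j : ℕ, p = j • e k) := by
  induction hp using AddSubmonoid.closure_induction with
  | mem x hx =>
    obtain ⟨i, rfl⟩ := hx
    by_cases hik : i = k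
    · subst hik
      exact ⟨h0.ge, fun _ => ⟨1, (one_nsmul _).symm⟩⟩
    · exact ⟨(hb i hik).le, fun h => absurd h (hb i hik).ne'⟩
  | zero => exact ⟨by simp, fun _ => ⟨0, (zero_nsmul _).symm⟩⟩
  | add x y _ _ hx hy =>
    rw [map_add]
    refine ⟨add_nonneg hx.1 hy.1, fun h => ?_⟩
    obtain ⟨a, ha⟩ := hx.2 (by omega)
    obtain ⟨c, hc⟩ := hy.2 (by omega)
    exact ⟨a + c, by rw [ha, hc, add_nsmul]⟩

theorem isUni_res {x : Nov ω δ} (hx : IsUni x) {A : Set L} (h0 : (0 : L) ∈ A) : IsUni (res A x) := by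
  refine ⟨by rw [co_res_of_mem h0]; exact hx.1, fun p hp h => ?_⟩
  by_cases hA : p ∈ A
  · rw [co_res_of_mem hA] at h; exact hx.2 p hp h
  · exact absurd (co_res_of_not_mem hA) h

theorem co_res_ne_zero {x : Nov ω δ} {A : Set L} {p : L} (h : (res A x).co p ≠ 0) :
    p ∈ A ∧ x.co p ≠ 0 := by
  by_cases hA : p ∈ A
  · rw [co_res_of_mem hA] at h; exact ⟨hA, h⟩
  · exact absurd (co_res_of_not_mem hA) h

theorem f0_of_sg_zero {σ : Tri L} {x : Nov ω δ} (hx : IsUni x) (h : Sg σ 0 x) : f0 σ x = x :=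
  (IsFact.eq_fact (σ := σ) (g := x) (a := 1) (b := x) (c := 1)
    ⟨isUni_one, hx, isUni_one, sg_one, h, sg_one, by simp⟩).2.1

/-- the lowest part of a scattering element with respect to a form vanishing on one generator -/
theorem In_of_bar {ι : Type} [Fintype ι] {e : ι → L} {k : ι} {b : L →+ ℤ}
    (hb : ∀ i, i ≠ k → 0 < b (e i)) {p : L} (hp0 : p ≠ 0) (hp : b p = 0) :
    In e p = rayFun (e k) (PowerSeries.rescale v (Eser true)) p := by
  refine Finset.sum_eq_single k (fun i _ hik => ?_) (fun h => absurd (mem_univ k) h)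
  by_contra h
  obtain ⟨j, rfl⟩ := rayFun_ne_zero h
  have := hb i hik
  rw [map_nsmul, nsmul_eq_mul, mul_eq_zero] at hp
  rcases hp with hp | hp
  · have : j = 0 := by exact_mod_cast hp
    subst this; exact hp0 (zero_nsmul _)
  · omega

theorem upper_bar {ι : Type} {e : ι → L} {k : ι} {b : L →+ ℤ} (h0 : b (e k) = 0)
    (hb : ∀ i, i ≠ k → 0 < b (e i)) : Upper (cone e) {p | 0 < b p} := by
  intro p hp m hm
  have := (cone_bar h0 hb hm).1
  simp only [Set.mem_ofPred_eq, map_add] at hp ⊢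
  omega

theorem cong_E0 (hω : ∀ p, ω p p = 0) (hθ : ∃ θ : L →+ ℝ, Function.Injective θ) {ι : Type}
    [Fintype ι] {e : ι → L} {k : ι} (he : ∀ i, 0 < δ (e i)) {b : L →+ ℤ} (h0 : b (e k) = 0)
    (hb : ∀ i, i ≠ k → 0 < b (e i)) {g : Nov ω δ} (hg : Cond e g) :
    Cong {p | 0 < b p} g (E0 (e k)) := by
  intro p hp
  by_cases hpc : p ∈ cone e
  swap
  · have h1 : g.co p = 0 := by by_contra h; exact hpc (hg.supp p h)
    have h2 : (E0 (e k) : Nov ω δ).co p = 0 := by
      by_contra h; exact hpc (supp_ev (mem_cone e k) _ p h)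
    rw [h1, h2]
  by_cases hp0 : p = 0
  · subst hp0; rw [hg.uni.1, (isUni_E0 (he k)).1]
  have hbp : b p = 0 := by
    have := (cone_bar h0 hb hpc).1
    simp only [Set.mem_ofPred_eq] at hp
    omega
  obtain ⟨σ, hσ⟩ := exists_adm (δ := δ) hω hθ (he k).ne'
  obtain ⟨j, hj⟩ := (cone_bar h0 hb hpc).2 hbp
  have hpar : Par (e k) p := by rw [hj]; exact (Par.refl _).nsmul j
  have hσp : Adm ω p σ := hσ.of_par hω hpar (he k) (pos_of_mem_closure_range he hpc hp0)
  set x := res {p | b p ≤ 0} g with hx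
  have hxu : IsUni x := isUni_res hg.uni (by simp)
  have hxs : Supp x (cone e) := fun q hq => hg.supp q (co_res_ne_zero hq).2
  have hc : Cong {p | 0 < b p} g x := fun q hq => by
    rw [hx, co_res_of_mem]; simpa using hq
  have hsg : Sg σ 0 x := by
    intro q _ hq
    obtain ⟨h1, h2⟩ := co_res_ne_zero hq
    have hqc := hg.supp q h2
    obtain ⟨i, hi⟩ := (cone_bar h0 hb hqc).2 (le_antisymm h1 (cone_bar h0 hb hqc).1)
    rw [hσ.zero, hi]; exact (Par.refl _).nsmul i
  have h3 := (fact_cong (σ := σ) (τ := σ) (upper_bar h0 hb) hg.uni hxu hg.supp hxs hc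
    (fun _ _ _ => rfl)).2.1 p hp
  rw [f0_of_sg_zero hxu hsg, hg.init p hp0 σ hσp, In_of_bar hb hp0 hbp] at h3
  rw [hc p hp, ← h3, E0, co_ev (he k)]

/-- the top coefficient vanishes if the wall does -/
theorem top_vanish {M N : AddSubmonoid L} (hM : ∀ m ∈ M, m ≠ 0 → 0 < δ m) {b : L →+ ℤ}
    {x : Nov ω δ} (hx : IsUni x) (hs : Supp x M) (h1 : Cong {p | 0 < b p} x 1) {n : L}
    (hn : 0 < b n) {σ : Tri L} (hσ : σ.sg n = 0) (hN : ∀ p, x.co p ≠ 0 → b p < b n → p ∈ N)
    (hnN : n ∉ N) (h0 : (f0 σ x).co n = 0) : x.co n = 0 := by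
  let M' : AddSubmonoid L :=
    { carrier := {p | p = 0 ∨ (p ∈ M ∧ 0 < b p)}
      zero_mem' := Or.inl rfl
      add_mem' := by
        rintro p q (rfl | ⟨hp, hp'⟩) (rfl | ⟨hq, hq'⟩)
        · left; simp
        · right; simpa using ⟨hq, hq'⟩
        · right; simpa using ⟨hp, hp'⟩
        · right; exact ⟨M.add_mem hp hq, by rw [map_add]; omega⟩ }
  have hM' : ∀ m ∈ M', m ≠ 0 → 0 < δ m := by
    rintro m (rfl | ⟨hm, _⟩) h
    · exact absurd rfl h
    · exact hM m hm h
  have hs' : Supp x M' := by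
    intro p hp
    by_cases hp0 : p = 0
    · exact Or.inl hp0
    · refine Or.inr ⟨hs p hp, ?_⟩
      by_contra hb
      rw [h1 p hb, co_one_of_ne hp0] at hp
      exact hp rfl
  set x' := res {p | b p < b n} x with hx'
  have hu' : IsUni x' := isUni_res hx (by simpa using hn)
  have key := f0_co_top (σ := σ) hM' hx hu' hs' (fun q hq => hs' q (co_res_ne_zero hq).2) hσ
    (fun p _ hnp hne => by
      rw [hx', co_res_of_mem]
      rcases hnp with h | ⟨_, h⟩
      · exact absurd (sub_eq_zero.1 h).symm hne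
      · rw [map_sub] at h
        simp only [Set.mem_ofPred_eq]; omega)
  have h2 : (f0 σ x').co n = 0 := by
    by_contra h
    exact hnN ((supp_fact σ hu' (M := N)
      (fun q hq => hN q (co_res_ne_zero hq).2 (co_res_ne_zero hq).1)).2.1 n h)
  have h3 : x'.co n = 0 := co_res_of_not_mem (by simp)
  rw [h0, h2, h3] at key
  simpa using key.symm

section main
variable (hω : ∀ p, ω p p = 0) (hθ : ∃ θ : L →+ ℝ, Function.Injective θ) {ι : Type}
    [Fintype ι] {e e' : ι → L} {k : ι} (hk : e' k = -e k)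
    (hi : ∀ i, i ≠ k → e' i = trop ω (e k) (e i)) (he : ∀ i, 0 < δ (e i))
    (he' : ∀ i, 0 < δ' (e' i))

/-- the form vanishing on `e k` -/
def bar (δ δ' : L →+ ℤ) (a : L) : L →+ ℤ := δ' (-a) • δ + δ a • δ'

theorem bar_apply (a p : L) : bar δ δ' a p = δ' (-a) * δ p + δ a * δ' p := rfl

theorem bar_self (a : L) : bar δ δ' a a = 0 := by
  rw [bar_apply, map_neg]; ring

omit [Fintype ι] in
include hk hi he he' in
theorem bar_pos (i : ι) (hik : i ≠ k) :
    0 < bar δ δ' (e k) (e i) ∧ 0 < bar δ δ' (e k) (e' i) := by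
  have h1 : 0 < bar δ δ' (e k) (e' i) := by
    rw [bar_apply]
    have a1 := he' k
    rw [hk] at a1
    have a2 : 0 < δ (e' i) := by
      rw [hi i hik, trop, map_add, map_nsmul]
      have := he i
      have : 0 ≤ (-ω (e i) (e k)).toNat • δ (e k) := nsmul_nonneg (he k).le _
      omega
    have := he' i
    have := he k
    positivity
  refine ⟨?_, h1⟩
  rw [hi i hik, trop, map_add, map_nsmul, bar_self, smul_zero, add_zero] at h1
  exact h1

include hω hi he he' in
theorem In_of_nonneg {n : L} (hn : 0 ≤ ω n (e k)) (hp : ¬ Par n (e k)) (hk : e' k = -e k) :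
    In e' n = In e n := by
  have hn0 : n ≠ 0 → ∀ (a : L) (j : ℕ), n = j • a → j ≠ 0 := by
    intro h a j hj h0; subst h0; exact h (by simpa using hj)
  by_cases h0 : n = 0
  · subst h0
    refine sum_congr rfl fun i _ => ?_
    have a1 := rayFun_nsmul (he i).ne' (PowerSeries.rescale v (Eser true)) 0
    have a2 := rayFun_nsmul (he' i).ne' (PowerSeries.rescale v (Eser true)) 0
    rw [zero_nsmul] at a1 a2
    rw [a1, a2]
  refine sum_congr rfl fun i _ => ?_
  by_cases hik : i = k
  · subst hik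
    have a1 : rayFun (e i) (PowerSeries.rescale v (Eser true)) n = 0 := by
      by_contra h
      obtain ⟨j, hj⟩ := rayFun_ne_zero h
      exact hp ⟨j, 1, by exact_mod_cast hn0 h0 _ _ hj, by rw [hj]; simp⟩
    have a2 : rayFun (e' i) (PowerSeries.rescale v (Eser true)) n = 0 := by
      by_contra h
      obtain ⟨j, hj⟩ := rayFun_ne_zero h
      exact hp ⟨j, -1, by exact_mod_cast hn0 h0 _ _ hj, by rw [hj, hk]; simp⟩
    rw [a1, a2]
  · rcases le_or_gt 0 (ω (e i) (e k)) with h | h
    · rw [hi i hik, trop_of_nonneg h]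
    · have aux : ∀ a : L, ω a (e k) < 0 → rayFun a (PowerSeries.rescale v (Eser true)) n = 0 := by
        intro a ha
        by_contra h'
        obtain ⟨j, hj⟩ := rayFun_ne_zero h'
        have hj0 := hn0 h0 _ _ hj
        rw [hj, map_nsmul, AddMonoidHom.smul_apply, nsmul_eq_mul] at hn
        have : (0 : ℤ) < j := by exact_mod_cast Nat.pos_of_ne_zero hj0
        nlinarith
      rw [aux _ h, aux _ (by rw [hi i hik, om_trop hω]; exact h)]

include hω hi he he' in
theorem In_of_nonpos {n : L} (hn : ω n (e k) ≤ 0) (hp : ¬ Par n (e k)) (hk : e' k = -e k) :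
    In e' (shear ω hω (e k) n) = In e n := by
  have hn0 : ∀ n : L, n ≠ 0 → ∀ (a : L) (j : ℕ), n = j • a → j ≠ 0 := by
    intro n h a j hj h0; subst h0; exact h (by simpa using hj)
  by_cases h0 : n = 0
  · subst h0
    rw [map_zero]
    refine sum_congr rfl fun i _ => ?_
    have a1 := rayFun_nsmul (he i).ne' (PowerSeries.rescale v (Eser true)) 0
    have a2 := rayFun_nsmul (he' i).ne' (PowerSeries.rescale v (Eser true)) 0
    rw [zero_nsmul] at a1 a2
    rw [a1, a2]
  have h0' : shear ω hω (e k) n ≠ 0 := by simpa using h0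
  refine sum_congr rfl fun i _ => ?_
  by_cases hik : i = k
  · subst hik
    have a1 : rayFun (e i) (PowerSeries.rescale v (Eser true)) n = 0 := by
      by_contra h
      obtain ⟨j, hj⟩ := rayFun_ne_zero h
      exact hp ⟨j, 1, by exact_mod_cast hn0 _ h0 _ _ hj, by rw [hj]; simp⟩
    have a2 : rayFun (e' i) (PowerSeries.rescale v (Eser true)) (shear ω hω (e i) n) = 0 := by
      by_contra h
      obtain ⟨j, hj⟩ := rayFun_ne_zero h
      have hj0 := hn0 _ h0' _ _ hj
      have : n = j • (-e i) := by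
        apply (shear ω hω (e i)).injective
        rw [hj, hk, map_nsmul, map_neg, shear_self]
      exact hp ⟨j, -1, by exact_mod_cast hj0, by rw [this]; simp⟩
    rw [a1, a2]
  · rcases le_or_gt (ω (e i) (e k)) 0 with h | h
    · have h1 : e' i = shear ω hω (e k) (e i) := by rw [hi i hik, trop_of_nonpos hω h]
      rw [h1]
      exact rayFun_map (δ := δ) (δ' := δ') _ (he i).ne' (by rw [← h1]; exact (he' i).ne') _ _
    · have aux : ∀ a m : L, m ≠ 0 → ω m (e k) ≤ 0 → 0 < ω a (e k) →
          rayFun a (PowerSeries.rescale v (Eser true)) m = 0 := by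
        intro a m hm0 hm ha
        by_contra h'
        obtain ⟨j, hj⟩ := rayFun_ne_zero h'
        have hj0 := hn0 _ hm0 _ _ hj
        rw [hj, map_nsmul, AddMonoidHom.smul_apply, nsmul_eq_mul] at hm
        have : (0 : ℤ) < j := by exact_mod_cast Nat.pos_of_ne_zero hj0
        nlinarith
      rw [aux _ _ h0 hn h, aux _ _ h0' (by rw [om_shear_self]; exact hn)
        (by rw [hi i hik, om_trop hω]; exact h)]

theorem In_eq_zero {n : L} (hn : n ∉ cone e) : In e n = 0 := by
  refine sum_eq_zero fun i _ => ?_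
  by_contra h
  obtain ⟨j, rfl⟩ := rayFun_ne_zero h
  exact hn (nsmul_mem (mem_cone e i) j)

theorem sg_E0 {σ : Tri L} {s : SignType} {a : L} (h : σ.sg a = s) : Sg σ s (E0 a : Nov ω δ) :=
  h ▸ sg_ev σ a _

include hω hθ hk hi he he' in
theorem supp_gp_gm {g gp gm : Nov ω δ} (hg : Cond e g) (hp : IsUni gp) (hm : IsUni gm)
    (ep : E0 (e k) * gp = g) (em : gm * E0 (e k) = g) (sp : Supp gp (cone e))
    (sm : Supp gm (cone e)) (cp : Cong {p | 0 < bar δ δ' (e k) p} gp 1)
    (cm : Cong {p | 0 < bar δ δ' (e k) p} gm 1) :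
    Supp gp (cone e') ∧ Supp gm ((cone e').comap (shear ω hω (e k)).toAddMonoidHom) := by
  set b := bar δ δ' (e k) with hb
  set T := shear ω hω (e k) with hT
  have hb0 : b (e k) = 0 := bar_self _
  have hbp : ∀ i, i ≠ k → 0 < b (e i) := fun i h => (bar_pos hk hi he he' i h).1
  have hE : IsUni (E0 (e k) : Nov ω δ) := isUni_E0 (he k)
  have hM : ∀ m ∈ cone e, m ≠ 0 → 0 < δ m := fun m hm h => pos_of_mem_closure_range he hm h
  have hneg : -e k ∈ cone e' := hk ▸ mem_cone e' k
  have key : ∀ d : ℕ, ∀ n, b n = d → (gp.co n ≠ 0 → n ∈ cone e') ∧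
      (gm.co n ≠ 0 → T n ∈ cone e') := by
    intro d
    induction d using Nat.strong_induction_on with
    | _ d ih =>
    rcases Nat.eq_zero_or_pos d with rfl | hd
    · intro n hn
      have hn' : n ∉ {p | 0 < b p} := by simp [hn]
      constructor
      · intro h
        rw [cp n hn'] at h
        by_cases h0 : n = 0
        · rw [h0]; exact zero_mem _
        · exact absurd (co_one_of_ne h0) h
      · intro h
        rw [cm n hn'] at h
        by_cases h0 : n = 0
        · rw [h0, map_zero]; exact zero_mem _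
        · exact absurd (co_one_of_ne h0) h
    have hnp : ∀ n, b n = d → ¬ Par n (e k) := by
      intro n hn hpar
      have := (hpar.symm (δ := δ) (he k).ne').map_eq_zero hb0
      omega
    have hn0 : ∀ n, b n = d → n ≠ 0 := by
      rintro n hn rfl
      simp at hn; omega
    have lowp : ∀ n, b n = d → ∀ p, gp.co p ≠ 0 → b p < b n → p ∈ cone e' := by
      intro n hn p h hlt
      have h1 := (cone_bar hb0 hbp (sp p h)).1
      exact (ih (b p).toNat (by omega) p (by omega)).1 h
    have lowm : ∀ n, b n = d → ∀ p, gm.co p ≠ 0 → b p < b n →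
        p ∈ (cone e').comap T.toAddMonoidHom := by
      intro n hn p h hlt
      have h1 := (cone_bar hb0 hbp (sm p h)).1
      exact (ih (b p).toNat (by omega) p (by omega)).2 h
    have A : ∀ n, b n = d → 0 ≤ ω n (e k) → gp.co n ≠ 0 → n ∈ cone e' := by
      intro n hn hw h
      by_contra hc
      have hδ : 0 < δ n := hM n (sp n h) (hn0 n hn)
      obtain ⟨σ, hσ, hσe⟩ := exists_adm_pos (δ := δ) hω hθ hδ.ne' hw (hnp n hn)
      refine h (top_vanish hM hp sp cp (by omega) ((hσ.zero n).2 (Par.refl n)) (lowp n hn) hc ?_)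
      rw [← (fact_mul_left hE (sg_E0 hσe) hp).2.1, ep, hg.init n (hn0 n hn) σ hσ,
        ← In_of_nonneg hω hi he he' hw (hnp n hn) hk, In_eq_zero hc]
    have B : ∀ n, b n = d → ω n (e k) ≤ 0 → gm.co n ≠ 0 → T n ∈ cone e' := by
      intro n hn hw h
      by_contra hc
      have hδ : 0 < δ n := hM n (sm n h) (hn0 n hn)
      obtain ⟨σ, hσ, hσe⟩ := exists_adm_pos (δ := δ) (e := -e k) hω hθ hδ.ne'
        (by rw [map_neg]; omega) (by
          rintro ⟨a, c, ha, hac⟩
          exact hnp n hn ⟨a, -c, ha, by rw [neg_smul, ← hac]; simp⟩)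
      have hσe' : σ.sg (e k) = -1 := by
        rw [Tri.sg_neg] at hσe
        rw [← hσe, neg_neg]
      refine h (top_vanish (N := (cone e').comap T.toAddMonoidHom) hM hm sm cm (by omega)
        ((hσ.zero n).2 (Par.refl n)) (lowm n hn) hc ?_)
      rw [← (fact_mul_right hE (sg_E0 hσe') hm).2.1, em, hg.init n (hn0 n hn) σ hσ,
        ← In_of_nonpos hω hi he he' hw (hnp n hn) hk, In_eq_zero hc]
    intro n hn
    have hbk : ∀ j : ℕ, b (n - j • e k) = d := by
      intro j; rw [map_sub, map_nsmul, hb0, smul_zero, sub_zero, hn]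
    have hwk : ∀ j : ℕ, ω (n - j • e k) (e k) = ω n (e k) := by
      intro j; simp [hω]
    rcases le_total 0 (ω n (e k)) with hw | hw
    · refine ⟨A n hn hw, fun h => ?_⟩
      obtain ⟨c, hc⟩ := Int.eq_ofNat_of_zero_le hw
      rw [wall_co_of_nonneg hω (he k) (ep.trans em.symm) hc] at h
      obtain ⟨j, hj, hj'⟩ := exists_ne_zero_of_sum_ne_zero h
      have h1 := A _ (hbk j) (by rw [hwk]; exact hw) (right_ne_zero_of_mul hj')
      have hjc : j ≤ c := Nat.lt_succ_iff.1 (mem_range.1 hj)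
      have : T n = (n - j • e k) + (c - j) • (-e k) := by
        rw [hT, shear_apply, hc, natCast_zsmul]
        obtain ⟨r, rfl⟩ := Nat.exists_eq_add_of_le hjc
        rw [Nat.add_sub_cancel_left, add_nsmul, neg_nsmul]; abel
      rw [this]
      exact add_mem h1 (nsmul_mem hneg _)
    · refine ⟨fun h => ?_, B n hn hw⟩
      obtain ⟨c, hc⟩ := Int.eq_ofNat_of_zero_le (neg_nonneg.2 hw)
      have hc' : ω n (e k) = -c := by omega
      rw [wall_co_of_nonpos hω (he k) (ep.trans em.symm) hc'] at h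
      obtain ⟨j, hj, hj'⟩ := exists_ne_zero_of_sum_ne_zero h
      have h1 := B _ (hbk j) (by rw [hwk]; exact hw) (right_ne_zero_of_mul hj')
      have hjc : j ≤ c := Nat.lt_succ_iff.1 (mem_range.1 hj)
      have : n = T (n - j • e k) + (c - j) • (-e k) := by
        rw [hT, shear_apply, hwk, hc', neg_smul, natCast_zsmul]
        obtain ⟨r, rfl⟩ := Nat.exists_eq_add_of_le hjc
        rw [Nat.add_sub_cancel_left, add_nsmul, neg_nsmul]; abel
      rw [this]
      exact add_mem h1 (nsmul_mem hneg _)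
  constructor
  · intro n h
    have h1 := (cone_bar hb0 hbp (sp n h)).1
    exact (key (b n).toNat n (by omega)).1 h
  · intro n h
    have h1 := (cone_bar hb0 hbp (sm n h)).1
    exact (key (b n).toNat n (by omega)).2 h

omit [Fintype ι] in
include he' in
theorem exists_transport [Finite ι] (T : L ≃+ L) {x : Nov ω δ} (hx : x.co 0 = 1)
    (hs : ∀ p, x.co p ≠ 0 → T p ∈ cone e') :
    ∃ y : Nov ω δ', Rel T x y ∧ IsUni y ∧ Supp y (cone e') := by
  obtain ⟨y, hy⟩ := exists_rel (δ' := δ') T x (fun D => (finite_closure_range he' D).subset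
    fun p hp => ⟨by simpa [cone] using hs _ hp.1, hp.2⟩)
  have hy' : ∀ p, y.co p = x.co (T.symm p) := fun p => by rw [← hy, T.apply_symm_apply]
  have hsy : Supp y (cone e') := fun p hp => by
    rw [hy'] at hp; simpa using hs _ hp
  refine ⟨y, hy, ⟨by rw [hy', map_zero, hx], fun p h0 hp => ?_⟩, hsy⟩
  exact pos_of_mem_closure_range he' (hsy p hp) h0

end main

end Mut

open Mut in
/-- mutation of the seed `e` at `k` -/
theorem mutation (hω : ∀ p, ω p p = 0) (hθ : ∃ θ : L →+ ℝ, Function.Injective θ) {ι : Type}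
    [Fintype ι] {e e' : ι → L} {k : ι} (hk : e' k = -e k)
    (hi : ∀ i, i ≠ k → e' i = trop ω (e k) (e i)) (he : ∀ i, 0 < δ (e i))
    (he' : ∀ i, 0 < δ' (e' i)) {g : Nov ω δ} (hg : Cond e g) :
    ∃ g' : Nov ω δ', Cond e' g' ∧ ∀ (F F₁ : Nov ω δ) (F' : Nov ω δ'),
      (Function.support F.co).Finite → Rel (AddEquiv.refl L) F₁ F' →
      E0 (e k) * F₁ = F * E0 (e k) → ∀ r, asym g' F' (trop ω (e k) r) = asym g F r := by
  set b := bar δ δ' (e k) with hb
  set T := shear ω hω (e k) with hT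
  have hTω : ∀ p r, ω (T p) (T r) = ω p r := om_shear hω (e k)
  have hRω : ∀ p r, ω (AddEquiv.refl L p) (AddEquiv.refl L r) = ω p r := fun _ _ => rfl
  have hb0 : b (e k) = 0 := bar_self _
  have hbp : ∀ i, i ≠ k → 0 < b (e i) := fun i h => (bar_pos hk hi he he' i h).1
  have hb0' : b (e' k) = 0 := by rw [hk, map_neg, hb0, neg_zero]
  have hbp' : ∀ i, i ≠ k → 0 < b (e' i) := fun i h => (bar_pos hk hi he he' i h).2
  have hek' : 0 < δ' (-e k) := hk ▸ he' k
  have hneg : -e k ∈ cone e' := hk ▸ mem_cone e' k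
  set E : Nov ω δ := E0 (e k) with hEdef
  set E' : Nov ω δ' := E0 (-e k) with hEdef'
  have hE : IsUni E := isUni_E0 (he k)
  have hE' : IsUni E' := isUni_E0 hek'
  have sE : Supp E (cone e) := supp_ev (mem_cone e k) _
  have sE' : Supp E' (cone e') := supp_ev hneg _
  have cg : Cong {p | 0 < b p} g E := cong_E0 hω hθ he hb0 hbp hg
  set gp := Nov.inv E * g with hgp
  set gm := g * Nov.inv E with hgm
  have up : IsUni gp := hE.inv.mul hg.uni
  have um : IsUni gm := hg.uni.mul hE.inv
  have ep : E * gp = g := by rw [hgp, ← mul_assoc, hE.mul_inv, one_mul]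
  have em : gm * E = g := by rw [hgm, mul_assoc, hE.inv_mul, mul_one]
  have sp : Supp gp (cone e) := (hE.supp_inv sE).mul_of_mem hg.supp
  have sm : Supp gm (cone e) := hg.supp.mul_of_mem (hE.supp_inv sE)
  have cp : Cong {p | 0 < b p} gp 1 := by
    rw [← hE.inv_mul]
    exact Cong.mul (upper_bar hb0 hbp) (Cong.refl _ _) cg (hE.supp_inv sE) sE
  have cm : Cong {p | 0 < b p} gm 1 := by
    rw [← hE.mul_inv]
    exact Cong.mul (upper_bar hb0 hbp) cg (Cong.refl _ _) hg.supp (hE.supp_inv sE)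
  obtain ⟨sp', sm'⟩ := supp_gp_gm hω hθ hk hi he he' hg up um ep em sp sm cp cm
  obtain ⟨gp', rp, up', sp''⟩ := exists_transport he' (AddEquiv.refl L) up.1 sp'
  obtain ⟨gm', rm, um', sm''⟩ := exists_transport he' T um.1 sm'
  have flip : E' * gm' = gp' * E' := wall_flip hω (he k) hek' rp rm (ep.trans em.symm)
  have ug' : IsUni (gp' * E') := up'.mul hE'
  -- the two comparison lemmas
  have LA : ∀ σ : Tri L, σ.sg (e k) = 1 → fp σ g = E * fp σ gp ∧
      Rel (AddEquiv.refl L) (fp σ gp) (fp σ (gp' * E')) ∧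
      Rel (AddEquiv.refl L) (f0 σ g) (f0 σ (gp' * E')) := by
    intro σ hσ
    have hσ' : σ.sg (-e k) = -1 := by rw [Tri.sg_neg, hσ]
    have a1 := fact_mul_left hE (sg_E0 hσ) up
    have a2 := fact_mul_right hE' (sg_E0 hσ') up'
    have a3 := rp.fact hRω up up' σ
    rw [comap_refl] at a3
    rw [ep] at a1
    exact ⟨a1.1, a2.1 ▸ a3.1, a1.2.1 ▸ a2.2.1 ▸ a3.2.1⟩
  have LB : ∀ σ : Tri L, σ.sg (e k) = -1 → fp σ (gp' * E') = E' * fp σ gm' ∧
      Rel T (fp (σ.comap T.toAddMonoidHom) g) (fp σ gm') ∧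
      Rel T (f0 (σ.comap T.toAddMonoidHom) g) (f0 σ (gp' * E')) := by
    intro σ hσ
    have hσ' : σ.sg (-e k) = 1 := by rw [Tri.sg_neg, hσ, neg_neg]
    have hσT : (σ.comap T.toAddMonoidHom).sg (e k) = -1 := by
      show σ.sg (T (e k)) = -1
      rw [hT, shear_self, hσ]
    have a1 := fact_mul_right hE (sg_E0 hσT) um
    have a2 := fact_mul_left hE' (sg_E0 hσ') um'
    have a3 := rm.fact hTω um um' σ
    rw [em] at a1
    rw [flip] at a2
    exact ⟨a2.1, a1.1 ▸ a3.1, a1.2.1 ▸ a2.2.1 ▸ a3.2.1⟩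
  refine ⟨gp' * E', ⟨ug', sp''.mul_of_mem sE', fun n hn0 σ hσ => ?_⟩, ?_⟩
  · by_cases hnc : n ∈ cone e'
    swap
    · rw [In_eq_zero hnc]
      by_contra h
      exact hnc ((supp_fact σ ug' (sp''.mul_of_mem sE')).2.1 n h)
    have hδn : 0 < δ' n := pos_of_mem_closure_range he' hnc hn0
    by_cases hpar : Par n (e k)
    · have hbn : b n = 0 := (hpar.symm (δ := δ) (he k).ne').map_eq_zero hb0
      have cp' : Cong {p | 0 < b p} gp' 1 := fun p hp => by
        have := rp p
        rw [AddEquiv.refl_apply] at this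
        rw [this, cp p hp]
        by_cases h0 : p = 0
        · subst h0; simp
        · rw [co_one_of_ne h0, co_one_of_ne h0]
      have cg' : Cong {p | 0 < b p} (gp' * E') E' := by
        have := Cong.mul (upper_bar hb0' hbp') cp' (Cong.refl _ E') sp'' sE'
        rwa [one_mul] at this
      have h1 := (fact_cong (σ := σ) (τ := σ) (upper_bar hb0' hbp') ug' hE'
        (sp''.mul_of_mem sE') sE' cg' (fun _ _ _ => rfl)).2.1 n (by simp [hbn])
      have hs0 : σ.sg (-e k) = 0 := by
        rw [Tri.sg_neg, (hσ.zero _).2 hpar, neg_zero]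
      rw [h1, f0_of_sg_zero hE' (sg_E0 hs0), In_of_bar hbp' hn0 hbn, hk, hEdef', E0, co_ev hek']
    rcases le_or_gt 0 (ω n (e k)) with hw | hw
    · obtain ⟨τ, hτ, hτe⟩ := exists_adm_pos (δ := δ') hω hθ hδn.ne' hw hpar
      rw [f0_adm_eq hω ug' hσ hτ, In_of_nonneg hω hi he he' hw hpar hk, ← hg.init n hn0 τ hτ]
      exact (LA τ hτe).2.2 n
    · obtain ⟨m, rfl⟩ := T.surjective n
      have hw' : ω m (e k) < 0 := by rwa [hT, om_shear_self] at hw
      have hm0 : m ≠ 0 := by rintro rfl; exact hn0 (map_zero _)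
      have hparm : ¬ Par m (e k) := fun h => by
        have := h.map_eq_zero (hω m)
        omega
      rw [(LB σ (hσ.neg _ hw)).2.2 m, hg.init m hm0 _ (hσ.comap hTω),
        In_of_nonpos hω hi he he' hw'.le hparm hk]
  · intro F F₁ F' hF rF hEF r
    rcases le_or_gt 0 (ω r (e k)) with hw | hw
    · rw [trop_of_nonneg hw, ← asym_eq_lex hω ug' F' r (Tri.ofZ δ),
        ← asym_eq_lex hω hg.uni F r (Tri.ofZ δ)]
      set σ := (Tri.ofZ (ω r)).lex (Tri.ofZ δ) with hσ
      have hσe : σ.sg (e k) = 1 := by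
        show (if SignType.sign (ω r (e k)) = 0 then SignType.sign (δ (e k))
          else SignType.sign (ω r (e k))) = 1
        split_ifs with h
        · exact sign_pos (he k)
        · rw [sign_eq_zero_iff] at h
          exact sign_pos (lt_of_le_of_ne hw (Ne.symm h))
      obtain ⟨a1, a2, -⟩ := LA σ hσe
      have u1 := (isFact_fact σ up).uni_p
      have u2 := (isFact_fact σ ug').uni_p
      have hF1 : F₁ = Nov.inv E * F * E := by
        rw [mul_assoc, ← hEF, ← mul_assoc, hE.inv_mul, one_mul]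
      have : chart σ g F = Nov.inv (fp σ gp) * F₁ * fp σ gp := by
        rw [chart, a1, hE.inv_mul_rev u1, hF1]
        simp only [mul_assoc]
      rw [this]
      exact ((a2.inv hRω u1 u2).mul hRω rF).mul hRω a2 r
    · rw [trop_of_nonpos hω hw.le]
      obtain ⟨FT, rT⟩ := exists_rel (δ' := δ') T F (IsNov.of_finite
        (hF.preimage T.symm.injective.injOn))
      have flipF : E' * FT = F' * E' := wall_flip hω (he k) hek' rF rT hEF
      set σ := Tri.ofZ (ω (T r)) with hσ
      have hσe : σ.sg (e k) = -1 := by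
        show SignType.sign (ω (T r) (e k)) = -1
        rw [hT, om_shear_self]; exact sign_neg hw
      have hσT : σ.comap T.toAddMonoidHom = Tri.ofZ (ω r) := tri_ext fun p => by
        show SignType.sign (ω (T r) (T p)) = SignType.sign (ω r p)
        rw [hTω]
      obtain ⟨a1, a2, -⟩ := LB σ hσe
      rw [hσT] at a2
      have u1 := (isFact_fact (Tri.ofZ (ω r)) hg.uni).uni_p
      have u2 := (isFact_fact σ um').uni_p
      have hFT : FT = Nov.inv E' * F' * E' := by
        rw [mul_assoc, ← flipF, ← mul_assoc, hE'.inv_mul, one_mul]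
      have : chart σ (gp' * E') F' = Nov.inv (fp σ gm') * FT * fp σ gm' := by
        rw [chart, a1, hE'.inv_mul_rev u2, hFT]
        simp only [mul_assoc]
      show (chart σ (gp' * E') F').co (T r) = (chart (Tri.ofZ (ω r)) g F).co r
      rw [this]
      exact ((a2.inv hTω u1 u2).mul hTω rT).mul hTω a2 r

end Crest.Agent.R59
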