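import Crest.Agent.R59.Ev
import Crest.Agent.R59.CohaMain

/-! # Rank two wall-crossing in the quantum torus -/

set_option autoImplicit false

namespace Crest.Agent.R59
open Finset Pointwise Nov

variable {L : Type} [AddCommGroup L] {ω : L →+ L →+ ℤ} {δ : L →+ ℤ}

/-- `pr` is a quadratic refinement of `ω` modulo two -/
def IsParity (ω : L →+ L →+ ℤ) (pr : L → Bool) : Prop :=
  ∀ p r, pr (p + r) = xor (xor (pr p) (pr r)) (decide (Odd (ω p r)))

namespace Rank2Aux

theorem omega_anti (hω : ∀ p, ω p p = 0) (p r : L) : ω r p = -ω p r := by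
  have h := hω (p + r)
  simp only [map_add, AddMonoidHom.add_apply, hω] at h
  omega

theorem co_ev_mul {n : L} (hn : 0 < δ n) (φ : PowerSeries K) (G : Nov ω δ) (p : L) {N : ℕ}
    (hN : ∀ k : ℕ, N ≤ k → G.co (p - k • n) = 0) :
    (ev n φ * G).co p = ∑ k ∈ range N,
      v ^ (ω (k • n) (p - k • n)) * PowerSeries.coeff k φ * G.co (p - k • n) := by
  classical
  rw [co_mul_eq_sum (S := (range N).image fun k : ℕ => k • n), Finset.sum_image]
  · refine Finset.sum_congr rfl fun k _ => ?_
    rw [co_ev hn, rayFun_nsmul hn.ne']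
  · intro k _ k' _ h
    have h1 := congrArg δ h
    simp only [map_nsmul, nsmul_eq_mul] at h1
    exact_mod_cast mul_right_cancel₀ hn.ne' h1
  · intro r h1 h2
    rw [co_ev hn] at h1
    obtain ⟨k, rfl⟩ := rayFun_ne_zero h1
    refine mem_image.2 ⟨k, mem_range.2 ?_, rfl⟩
    by_contra h
    exact h2 (hN k (not_lt.1 h))

variable {r : ℕ}

/-- the lattice point of a dimension vector -/
def pi (n : Fin r → L) : (Fin r → ℕ) →+ L where
  toFun d := ∑ c, d c • n c
  map_zero' := by simp
  map_add' d e := by simp [add_smul, Finset.sum_add_distrib]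

theorem pi_apply (n : Fin r → L) (d : Fin r → ℕ) : pi n d = ∑ c, d c • n c := rfl

theorem pi_single (n : Fin r → L) (c : Fin r) : pi n (Pi.single c 1) = n c := by
  rw [pi_apply, Finset.sum_eq_single c]
  · simp
  · intro b _ hb
    simp [Pi.single_eq_of_ne hb]
  · simp

theorem map_pi (n : Fin r → L) (f : L →+ ℤ) (d : Fin r → ℕ) :
    f (pi n d) = lin (fun c => f (n c)) d := by
  simp [pi_apply, lin, map_sum]

theorem omega_pi (n : Fin r → L) (d e : Fin r → ℕ) :
    ω (pi n d) (pi n e) = ∑ c, ∑ c', (d c : ℤ) * e c' * ω (n c) (n c') := by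
  rw [pi_apply, map_sum, AddMonoidHom.finsetSum_apply]
  refine Finset.sum_congr rfl fun c _ => ?_
  rw [map_nsmul, AddMonoidHom.nsmul_apply, pi_apply, map_sum, nsmul_eq_mul, Finset.mul_sum]
  refine Finset.sum_congr rfl fun c' _ => ?_
  rw [map_nsmul, nsmul_eq_mul, mul_assoc]

/-- the arrows -/
def arr (ω : L →+ L →+ ℤ) (n : Fin r → L) (c c' : Fin r) : ℕ := (ω (n c) (n c')).toNat

theorem av_sub (hω : ∀ p, ω p p = 0) (n : Fin r → L) (d e : Fin r → ℕ) :
    (av (arr ω n) d e : ℤ) - av (arr ω n) e d = ω (pi n d) (pi n e) := by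
  rw [omega_pi]
  simp only [av]
  push_cast
  rw [Finset.sum_comm (f := fun c c' => (e c : ℤ) * (d c' : ℤ) * (arr ω n c c' : ℤ)),
    ← Finset.sum_sub_distrib]
  refine Finset.sum_congr rfl fun c _ => ?_
  rw [← Finset.sum_sub_distrib]
  refine Finset.sum_congr rfl fun c' _ => ?_
  have h : (arr ω n c c' : ℤ) - arr ω n c' c = ω (n c) (n c') := by
    simp only [arr]
    rw [omega_anti hω (n c) (n c')]
    exact Int.toNat_sub_toNat_neg _
  rw [← h]
  ring

theorem av_add_left (a : Fin r → Fin r → ℕ) (d d' e : Fin r → ℕ) :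
    av a (d + d') e = av a d e + av a d' e := by
  simp [av, add_mul, Finset.sum_add_distrib]

theorem av_add_right (a : Fin r → Fin r → ℕ) (d e e' : Fin r → ℕ) :
    av a d (e + e') = av a d e + av a d e' := by
  simp [av, add_mul, mul_add, Finset.sum_add_distrib]

theorem av_smul_left (a : Fin r → Fin r → ℕ) (k : ℕ) (d e : Fin r → ℕ) :
    av a (k • d) e = k * av a d e := by
  simp [av, Finset.mul_sum, mul_assoc]

theorem av_smul_right (a : Fin r → Fin r → ℕ) (k : ℕ) (d e : Fin r → ℕ) :
    av a d (k • e) = k * av a d e := by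
  simp only [av, Finset.mul_sum, Pi.smul_apply, smul_eq_mul]
  exact Finset.sum_congr rfl fun c _ => Finset.sum_congr rfl fun c' _ => by ring

theorem av_single (a : Fin r → Fin r → ℕ) (c : Fin r) :
    av a (Pi.single c 1) (Pi.single c 1) = a c c := by
  rw [av, Finset.sum_eq_single c, Finset.sum_eq_single c]
  · simp
  · intro b _ hb
    simp [Pi.single_eq_of_ne hb]
  · simp
  · intro b _ hb
    simp [Pi.single_eq_of_ne hb]
  · simp

theorem lin_add' (z : Fin r → ℤ) (d e : Fin r → ℕ) : lin z (d + e) = lin z d + lin z e := by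
  simp [lin, add_mul, Finset.sum_add_distrib]

theorem lin_smul' (z : Fin r → ℤ) (k : ℕ) (d : Fin r → ℕ) : lin z (k • d) = k * lin z d := by
  simp [lin, Finset.mul_sum, mul_assoc]

theorem lin_single (z : Fin r → ℤ) (c : Fin r) : lin z (Pi.single c 1) = z c := by
  rw [lin, Finset.sum_eq_single c]
  · simp
  · intro b _ hb
    simp [Pi.single_eq_of_ne hb]
  · simp

theorem par_eq (hω : ∀ p, ω p p = 0) {pr : L → Bool} (hpr : IsParity ω pr) (n : Fin r → L)
    (d : Fin r → ℕ) : par (arr ω n) (fun c => pr (n c)) d = pr (pi n d) := by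
  have h0 : par (arr ω n) (fun c => pr (n c)) 0 = pr (pi n 0) := by
    have h := hpr 0 0
    rw [add_zero] at h
    rw [map_zero, h]
    simp [par, av]
  have hadd : ∀ d e : Fin r → ℕ, par (arr ω n) (fun c => pr (n c)) d = pr (pi n d) →
      par (arr ω n) (fun c => pr (n c)) e = pr (pi n e) →
      par (arr ω n) (fun c => pr (n c)) (d + e) = pr (pi n (d + e)) := by
    intro d e hd he
    rw [map_add, hpr, ← hd, ← he, ← av_sub hω]
    simp only [par]
    have h1 : (∑ c, if pr (n c) = true then (d + e) c else 0) =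
        (∑ c, if pr (n c) = true then d c else 0) + ∑ c, if pr (n c) = true then e c else 0 := by
      rw [← Finset.sum_add_distrib]
      refine Finset.sum_congr rfl fun c _ => ?_
      split_ifs <;> simp
    rw [h1, av_add_left, av_add_right, av_add_right]
    generalize (∑ c, if pr (n c) = true then d c else 0) = x1
    generalize (∑ c, if pr (n c) = true then e c else 0) = x2
    generalize av (arr ω n) d d = x3
    generalize av (arr ω n) d e = x4
    generalize av (arr ω n) e d = x5
    generalize av (arr ω n) e e = x6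
    simp only [Nat.odd_iff, Int.odd_iff]
    rcases Nat.mod_two_eq_zero_or_one (x1 + x3) with a1 | a1 <;>
    rcases Nat.mod_two_eq_zero_or_one (x2 + x6) with a2 | a2 <;>
    rcases Int.emod_two_eq_zero_or_one ((x4 : ℤ) - x5) with a3 | a3 <;>
    simp only [a1, a2, a3] <;> simp <;> omega
  have h1 : ∀ c, par (arr ω n) (fun c => pr (n c)) (Pi.single c 1) = pr (pi n (Pi.single c 1)) := by
    intro c
    rw [pi_single, par, av_single, Finset.sum_eq_single c]
    · simp only [arr, hω]
      cases pr (n c) <;> simp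
    · intro b _ hb
      simp [Pi.single_eq_of_ne hb]
    · simp
  induction d using Pi.single_induction with
  | zero => exact h0
  | add d e hd he => exact hadd d e hd he
  | single c m =>
    induction m with
    | zero => rw [Pi.single_zero]; exact h0
    | succ m ih => rw [Pi.single_add]; exact hadd _ _ ih (h1 c)

theorem sum_le_delta {n : Fin r → L} (hpos : ∀ c, 0 < δ (n c)) (d : Fin r → ℕ) :
    ((∑ c, d c : ℕ) : ℤ) ≤ δ (pi n d) := by
  rw [map_pi, lin]
  push_cast
  refine Finset.sum_le_sum fun c _ => ?_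
  have := hpos c
  nlinarith [Nat.cast_nonneg (α := ℤ) (d c)]

theorem sum_pos {d : Fin r → ℕ} (hd : d ≠ 0) : 0 < ∑ c, d c := by
  obtain ⟨c, hc⟩ := Function.ne_iff.1 hd
  exact lt_of_lt_of_le (Nat.pos_of_ne_zero hc)
    (Finset.single_le_sum (f := d) (fun _ _ => Nat.zero_le _) (mem_univ c))

theorem delta_pos {n : Fin r → L} (hpos : ∀ c, 0 < δ (n c)) {d : Fin r → ℕ} (hd : d ≠ 0) :
    0 < δ (pi n d) :=
  lt_of_lt_of_le (by exact_mod_cast sum_pos hd) (sum_le_delta hpos d)

open Classical in
/-- the dimension vectors over a lattice point -/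
noncomputable def fibre (n : Fin r → L) (B : ℕ) (p : L) : Finset (Fin r → ℕ) :=
  (Fintype.piFinset fun _ => range (B + 1)).filter fun d => pi n d = p

theorem le_of_mem_fibre {n : Fin r → L} {B : ℕ} {p : L} {d : Fin r → ℕ} (h : d ∈ fibre n B p)
    (c : Fin r) : d c ≤ B := by
  classical
  have := Fintype.mem_piFinset.1 (mem_filter.1 h).1 c
  exact Nat.lt_succ_iff.1 (mem_range.1 this)

theorem mem_fibre {n : Fin r → L} (hpos : ∀ c, 0 < δ (n c)) {B : ℕ} {p : L} (hp : δ p ≤ B)
    {d : Fin r → ℕ} : d ∈ fibre n B p ↔ pi n d = p := by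
  classical
  refine ⟨fun h => (mem_filter.1 h).2, fun h => mem_filter.2 ⟨Fintype.mem_piFinset.2 fun c => ?_, h⟩⟩
  have h1 := sum_le_delta hpos d
  have h2 : d c ≤ ∑ c, d c := Finset.single_le_sum (f := d) (fun _ _ => Nat.zero_le _) (mem_univ c)
  rw [h] at h1
  rw [mem_range]
  omega

/-- the shift -/
def sft (ω : L →+ L →+ ℤ) (n : Fin r → L) (i : Fin r → ℤ) (d : Fin r → ℕ) : ℤ :=
  lin i d - av (arr ω n) d d

/-- the wall factors of a list of letters -/
def LY (ω : L →+ L →+ ℤ) (n : Fin r → L) (i : Fin r → ℤ) (Y : List ((Fin r → ℕ) × ℕ)) :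
    List (L × ℤ) := Y.map fun y => (pi n y.1, 2 * (y.2 : ℤ) + sft ω n i y.1)

theorem expo (hω : ∀ p, ω p p = 0) (n : Fin r → L) (i : Fin r → ℤ) (y d : Fin r → ℕ) (g k : ℕ) :
    ω (k • pi n y) (pi n d) + (2 * (g : ℤ) + sft ω n i y) * k + sft ω n i d =
      sft ω n i (k • y + d) +
        2 * ((k * g + k.choose 2 * av (arr ω n) y y + k * av (arr ω n) y d : ℕ) : ℤ) := by
  have h1 : (2 : ℤ) * (k.choose 2 : ℕ) = k * (k - 1) := by
    induction k with
    | zero => simp
    | succ k ih =>
      rw [Nat.choose_succ_succ' k 1, Nat.choose_one_right]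
      push_cast
      linear_combination ih
  rw [map_nsmul, AddMonoidHom.nsmul_apply, ← av_sub hω, nsmul_eq_mul]
  simp only [sft, lin_add', lin_smul', av_add_left, av_add_right, av_smul_left, av_smul_right]
  push_cast
  linear_combination (-(av (arr ω n) y y : ℤ)) * h1

theorem co_prodE (hω : ∀ p, ω p p = 0) {pr : L → Bool} (hpr : IsParity ω pr) {n : Fin r → L}
    (hpos : ∀ c, 0 < δ (n c)) (i : Fin r → ℤ) (B : ℕ) (Y : List ((Fin r → ℕ) × ℕ))
    (hY : ∀ y ∈ Y, y.1 ≠ 0) (p : L) (hp : δ p ≤ B) :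
    (prodE pr (LY ω n i Y) : Nov ω δ).co p = ∑ d ∈ fibre n B p,
      v ^ sft ω n i d * iota (Wser (arr ω n) (fun c => pr (n c)) Y d) := by
  classical
  induction Y generalizing p with
  | nil =>
    have e1 : (prodE pr (LY ω n i []) : Nov ω δ) = 1 := by simp [prodE, LY]
    rw [e1]
    by_cases h : p = 0
    · subst h
      rw [co_one_zero, Finset.sum_eq_single 0]
      · simp [Wser, sft, lin, av]
      · intro d _ hd
        simp [Wser, hd]
      · intro h
        exact absurd ((mem_fibre hpos hp).2 (map_zero _)) h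
    · rw [co_one_of_ne h]
      symm
      refine Finset.sum_eq_zero fun d hd => ?_
      have h1 : d ≠ 0 := by
        rintro rfl
        exact h (((mem_fibre hpos hp).1 hd).symm.trans (map_zero _))
      simp [Wser, h1]
  | cons y Y ih =>
    have hy : y.1 ≠ 0 := hY y List.mem_cons_self
    have ih := ih fun y' hy' => hY y' (List.mem_cons_of_mem _ hy')
    have hn : 0 < δ (pi n y.1) := delta_pos hpos hy
    have e1 : (prodE pr (LY ω n i (y :: Y)) : Nov ω δ) =
        ev (pi n y.1) (PowerSeries.rescale (v ^ (2 * (y.2 : ℤ) + sft ω n i y.1))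
          (Eser (pr (pi n y.1)))) * prodE pr (LY ω n i Y) := by
      simp [prodE, LY, Efac]
    have hk : ∀ k : ℕ, δ (p - k • pi n y.1) ≤ B - k := by
      intro k
      rw [map_sub, map_nsmul, nsmul_eq_mul]
      nlinarith [Nat.cast_nonneg (α := ℤ) k]
    have hk' : ∀ k : ℕ, δ (p - k • pi n y.1) ≤ B := fun k =>
      (hk k).trans (by have := Nat.cast_nonneg (α := ℤ) k; linarith)
    rw [e1, co_ev_mul hn (N := B + 1)]
    swap
    · intro k hkB
      rw [ih _ (hk' k)]
      refine Finset.sum_eq_zero fun d hd => ?_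
      exfalso
      have h1 := sum_le_delta hpos d
      rw [(mem_fibre hpos (hk' k)).1 hd] at h1
      have h2 := hk k
      omega
    have e2 : ∀ d ∈ fibre n B p,
        v ^ sft ω n i d * iota (Wser (arr ω n) (fun c => pr (n c)) (y :: Y) d) =
        ∑ k ∈ range (B + 1), if ∀ c, k * y.1 c ≤ d c then v ^ sft ω n i d * iota
          (cser (pr (pi n y.1)) k * PowerSeries.X ^ (k * y.2 + k.choose 2 * av (arr ω n) y.1 y.1 +
            k * av (arr ω n) y.1 (d - k • y.1)) *
            Wser (arr ω n) (fun c => pr (n c)) Y (d - k • y.1)) else 0 := by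
      intro d hd
      have h1 := sum_le_delta hpos d
      rw [(mem_fibre hpos hp).1 hd] at h1
      rw [Wser, map_sum, Finset.mul_sum, par_eq hω hpr]
      refine (Finset.sum_congr rfl fun k _ => ?_).trans
        (Finset.sum_subset (s₁ := range (∑ c, d c + 1)) (range_subset_range.2 (by omega)) ?_)
      · split_ifs <;> simp
      · intro k _ hk2
        rw [if_neg]
        intro h
        apply hk2
        have h2 : ∑ c, k * y.1 c ≤ ∑ c, d c := Finset.sum_le_sum fun c _ => h c
        rw [← Finset.mul_sum] at h2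
        have h3 := sum_pos hy
        rw [mem_range]
        nlinarith
    rw [Finset.sum_congr rfl e2, Finset.sum_comm]
    refine Finset.sum_congr rfl fun k _ => ?_
    rw [ih _ (hk' k), Finset.mul_sum, ← Finset.sum_filter]
    refine Finset.sum_nbij' (fun d => k • y.1 + d) (fun d => d - k • y.1) ?_ ?_ ?_ ?_ ?_
    · intro d hd
      rw [mem_fibre hpos (hk' k)] at hd
      refine mem_filter.2 ⟨(mem_fibre hpos hp).2 ?_, fun c => by simp⟩
      rw [map_add, map_nsmul, hd, add_sub_cancel]
    · intro d hd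
      obtain ⟨h1, h2⟩ := mem_filter.1 hd
      rw [mem_fibre hpos hp] at h1
      rw [mem_fibre hpos (hk' k), ← h1, eq_sub_iff_add_eq, ← map_nsmul, ← map_add]
      congr 1
      funext c
      have := h2 c
      simp only [Pi.add_apply, Pi.sub_apply, Pi.smul_apply, smul_eq_mul]
      omega
    · intro d _
      funext c
      simp
    · intro d hd
      obtain ⟨_, h2⟩ := mem_filter.1 hd
      funext c
      have := h2 c
      simp only [Pi.add_apply, Pi.sub_apply, Pi.smul_apply, smul_eq_mul]
      omega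
    · intro d hd
      rw [mem_fibre hpos (hk' k)] at hd
      have e3 : k • y.1 + d - k • y.1 = d := by
        funext c
        simp
      rw [e3, ← hd, PowerSeries.coeff_rescale, Eser, PowerSeries.coeff_mk, map_mul, map_mul,
        map_pow, iota_X]
      have e4 := expo hω n i y.1 d y.2 k
      generalize (k * y.2 + k.choose 2 * av (arr ω n) y.1 y.1 + k * av (arr ω n) y.1 d) = m at e4 ⊢
      have e5 : v ^ (ω (k • pi n y.1) (pi n d)) * (v ^ (2 * (y.2 : ℤ) + sft ω n i y.1)) ^ k *
          v ^ sft ω n i d = v ^ sft ω n i (k • y.1 + d) * (v ^ 2) ^ m := by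
        rw [← zpow_natCast, ← zpow_mul, ← zpow_add₀ v_ne_zero, ← zpow_add₀ v_ne_zero, e4,
          zpow_add₀ v_ne_zero, ← pow_mul, ← zpow_natCast]
        push_cast
        rfl
      linear_combination (iota (cser (pr (pi n y.1)) k) *
        iota (Wser (arr ω n) (fun c => pr (n c)) Y d)) * e5

end Rank2Aux

open Rank2Aux in
/-- reordering an ordered product of wall factors in a rank two lattice -/
theorem rank2 (hω : ∀ p, ω p p = 0) {pr : L → Bool} (hpr : IsParity ω pr) {z : L →+ ℤ} {κ : ℤ}
    (hκ : 0 < κ) (l : List (L × ℤ)) (hpos : ∀ x ∈ l, 0 < δ x.1)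
    (hz : ∀ x ∈ l, ∀ y ∈ l, κ * ω x.1 y.1 = z x.1 * δ y.1 - z y.1 * δ x.1)
    (hl : l.Pairwise (fun x y => ω x.1 y.1 ≤ 0)) (D : ℤ) :
    ∃ l' : List (L × ℤ),
      (∀ x ∈ l', x.1 ≠ 0 ∧ x.1 ∈ AddSubmonoid.closure {p | ∃ y ∈ l, y.1 = p}) ∧
      l'.Pairwise (fun x y => 0 ≤ ω x.1 y.1) ∧
      Cong {p | D < δ p} (prodE pr l : Nov ω δ) (prodE pr l') := by
  let n : Fin l.length → L := fun c => (l.get c).1
  let i : Fin l.length → ℤ := fun c => (l.get c).2
  have hpos' : ∀ c, 0 < δ (n c) := fun c => hpos _ (List.get_mem l c)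
  have hz' : ∀ c c', κ * ω (n c) (n c') = z (n c) * δ (n c') - z (n c') * δ (n c) :=
    fun c c' => hz _ (List.get_mem l c) _ (List.get_mem l c')
  have hzz : ∀ d e : Fin l.length → ℕ, κ * ω (pi n d) (pi n e) =
      lin (fun c => z (n c)) d * lin (fun c => δ (n c)) e -
        lin (fun c => z (n c)) e * lin (fun c => δ (n c)) d := by
    intro d e
    rw [omega_pi, mul_comm (lin (fun c => z (n c)) e)]
    rw [lin, lin, lin, lin, Finset.sum_mul_sum, Finset.sum_mul_sum, Finset.mul_sum,
      ← Finset.sum_sub_distrib]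
    refine Finset.sum_congr rfl fun c _ => ?_
    rw [Finset.mul_sum, ← Finset.sum_sub_distrib]
    refine Finset.sum_congr rfl fun c' _ => ?_
    linear_combination ((d c : ℤ) * e c') * hz' c c'
  obtain ⟨Y, hY0, hYp, hYW⟩ := coha_identity (arr ω n) (fun c => pr (n c)) (fun c => z (n c))
    (fun c => δ (n c)) hpos'
    (fun d e h => by
      have h1 := hzz d e
      rw [h, sub_self, ← av_sub hω] at h1
      have h2 := (mul_eq_zero.1 h1).resolve_left hκ.ne'
      omega)
    (fun c c' h => by
      have h1 := hz' c c'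
      have h2 : ω (n c) (n c') ≤ 0 := by
        by_contra h3
        have := mul_pos hκ (not_le.1 h3)
        linarith
      simp only [arr]
      omega)
    (fun c c' h => by
      have h1 := hz' c c'
      have h2 : ω (n c) (n c') ≤ 0 := by
        rcases h.eq_or_lt with rfl | h
        · exact (hω _).le
        · exact List.pairwise_iff_get.1 hl c c' h
      have := mul_nonpos_of_nonneg_of_nonpos hκ.le h2
      linarith) D.toNat
  refine ⟨LY ω n i Y, ?_, ?_, ?_⟩
  · intro x hx
    obtain ⟨y, hy, rfl⟩ := List.mem_map.1 hx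
    refine ⟨fun h => ?_, ?_⟩
    · have h1 := delta_pos hpos' (hY0 y hy)
      rw [show pi n y.1 = 0 from h, map_zero] at h1
      exact lt_irrefl _ h1
    · have h1 : ∀ c, n c ∈ AddSubmonoid.closure {p | ∃ y ∈ l, y.1 = p} := fun c =>
        AddSubmonoid.subset_closure ⟨l.get c, List.get_mem l c, rfl⟩
      show Rank2Aux.pi n y.1 ∈ _
      rw [pi_apply]
      exact sum_mem fun c _ => nsmul_mem (h1 c) (y.1 c)
  · rw [LY, List.pairwise_map]
    refine hYp.imp fun {y y'} h => ?_
    have h1 := hzz y.1 y'.1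
    by_contra h3
    have := mul_neg_of_pos_of_neg hκ (not_le.1 h3)
    linarith
  · intro p hp
    have hp' : δ p ≤ (D.toNat : ℤ) := (not_lt.1 hp).trans (Int.self_le_toNat D)
    have e1 : l = LY ω n i
        (List.ofFn fun c : Fin l.length => ((Pi.single c 1 : Fin l.length → ℕ), (0 : ℕ))) := by
      rw [LY, List.map_ofFn]
      conv_lhs => rw [← List.ofFn_get l]
      congr 1
      funext c
      simp only [Function.comp_apply, pi_single, sft, lin_single, av_single, arr, hω]
      simp [n, i]
    have e2 := co_prodE hω hpr hpos' i D.toNat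
      (List.ofFn fun c : Fin l.length => ((Pi.single c 1 : Fin l.length → ℕ), (0 : ℕ)))
      (fun y hy => by
        obtain ⟨c, rfl⟩ := List.mem_ofFn.1 hy
        intro h
        simpa using congrFun h c) p hp'
    rw [← e1] at e2
    rw [e2, co_prodE hω hpr hpos' i D.toNat Y hY0 p hp']
    exact Finset.sum_congr rfl fun d hd => by rw [hYW d (le_of_mem_fibre hd)]

end Crest.Agent.R59
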