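import Crest.Agent.R59.Ray

/-! # Positivity of theta functions from positivity of walls -/

set_option autoImplicit false

namespace Crest.Agent.R59
open Finset Pointwise Nov

variable {L : Type} [AddCommGroup L] {ω : L →+ L →+ ℤ} {δ : L →+ ℤ}

/-- the generic walls of `g` are products of `E^±(v^i z^n)` -/
def WallPos (pr : L → Bool) (M : AddSubmonoid L) (g : Nov ω δ) : Prop :=
  ∀ (θ : L →+ ℝ) (m : L), m ∈ M → m ≠ 0 → (∀ p, θ p = 0 ↔ Par m p) → ∀ D : ℤ,
    ∃ l : List (L × ℤ), (∀ x ∈ l, x.1 ∈ M ∧ x.1 ≠ 0 ∧ Par m x.1) ∧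
      Cong {p | D < δ p} (f0 (Tri.ofR θ) g) (prodE pr l)

namespace Th

theorem sign_eq_of_mul_pos {a b : ℝ} (h : 0 < a * b) : SignType.sign a = SignType.sign b := by
  rcases pos_and_pos_or_neg_and_neg_of_mul_pos h with ⟨h1, h2⟩ | ⟨h1, h2⟩
  · rw [sign_pos h1, sign_pos h2]
  · rw [sign_neg h1, sign_neg h2]

theorem sign_cast (n : ℤ) : SignType.sign (n : ℝ) = SignType.sign n := by
  rcases lt_trichotomy n 0 with h | h | h
  · rw [sign_neg h, sign_neg (by exact_mod_cast h)]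
  · simp [h]
  · rw [sign_pos h, sign_pos (by exact_mod_cast h)]

theorem sign_pos_mul {s : ℝ} (hs : 0 < s) (n : ℤ) :
    SignType.sign (s * (n : ℝ)) = SignType.sign n := by
  rw [sign_mul, sign_pos hs, one_mul, sign_cast]

theorem mul_neg_of_sign_eq {a b c : ℝ} (h : SignType.sign a = SignType.sign b) (h' : a * c < 0) :
    b * c < 0 := by
  rwa [← sign_eq_neg_one_iff, sign_mul, h, ← sign_mul, sign_eq_neg_one_iff] at h'

theorem cone_nonneg {ι : Type} {e : ι → L} (he : ∀ i, 0 < δ (e i)) : ∀ m ∈ cone e, 0 ≤ δ m := by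
  intro m hm
  by_cases h0 : m = 0
  · simp [h0]
  · exact (pos_of_mem_closure_range he hm h0).le

theorem supp_ge {M : AddSubmonoid L} (hM : ∀ m ∈ M, 0 ≤ δ m) {x : Nov ω δ} (hx : Supp x M) :
    Supp x {q | 0 ≤ δ q} := hx.mono fun q hq => hM q hq

theorem cong_mul_right {x y z : Nov ω δ} {D b : ℤ} (h : Cong {q | D < δ q} x y)
    (hz : Supp z {q | b ≤ δ q}) : Cong {q | D + b < δ q} (x * z) (y * z) :=
  (h.mul_right hz).mono (by
    rintro _ ⟨q, hq, r, hr, rfl⟩
    simp only [Set.mem_ofPred_eq, map_add] at hq hr ⊢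
    omega)

theorem cong_mul_left {x y z : Nov ω δ} {D b : ℤ} (h : Cong {q | D < δ q} x y)
    (hz : Supp z {q | b ≤ δ q}) : Cong {q | D + b < δ q} (z * x) (z * y) :=
  (h.mul_left hz).mono (by
    rintro _ ⟨q, hq, r, hr, rfl⟩
    simp only [Set.mem_ofPred_eq, map_add] at hq hr ⊢
    omega)

theorem supp_mul_ge {x y : Nov ω δ} {a b : ℤ} (hx : Supp x {q | a ≤ δ q})
    (hy : Supp y {q | b ≤ δ q}) : Supp (x * y) {q | a + b ≤ δ q} :=
  (hx.mul hy).mono (by
    rintro _ ⟨q, hq, r, hr, rfl⟩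
    simp only [Set.mem_ofPred_eq, map_add] at hq hr ⊢
    omega)

theorem conj_cong {x x' y y' G G' : Nov ω δ} {D b : ℤ} (hx : Cong {q | D < δ q} x x')
    (hy : Cong {q | D < δ q} y y') (hG : Cong {q | D + b < δ q} G G')
    (sx' : Supp x' {q | 0 ≤ δ q}) (sy : Supp y {q | 0 ≤ δ q}) (sG : Supp G {q | b ≤ δ q})
    (sG' : Supp G' {q | b ≤ δ q}) : Cong {q | D + b < δ q} (x * G * y) (x' * G' * y') := by
  have h1 := cong_mul_right (cong_mul_right hx sG) sy
  have h2 := cong_mul_right (cong_mul_left hG sx') sy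
  have h3 := cong_mul_left hy (supp_mul_ge sx' sG')
  simp only [add_zero, zero_add] at h1 h2 h3
  exact (h1.trans h2).trans h3

theorem supp_chart_ge {M : AddSubmonoid L} (hM : ∀ m ∈ M, 0 ≤ δ m) {g F : Nov ω δ} (hg : IsUni g)
    (hs : Supp g M) {b : ℤ} (hF : Supp F {q | b ≤ δ q}) (σ : Tri L) :
    Supp (chart σ g F) {q | b ≤ δ q} :=
  (supp_chart σ hg hs hF).mono (by
    rintro _ ⟨q, hq, r, hr, rfl⟩
    have := hM r hr
    simp only [Set.mem_ofPred_eq, map_add] at hq ⊢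
    omega)

theorem chart_cong {M : AddSubmonoid L} (hM : ∀ m ∈ M, 0 ≤ δ m) {g F : Nov ω δ} (hg : IsUni g)
    (hs : Supp g M) {b D : ℤ} (hF : Supp F {q | b ≤ δ q}) {σ τ : Tri L}
    (h : ∀ n ∈ M, δ n ≤ D → σ.sg n = τ.sg n) :
    Cong {q | D + b < δ q} (chart σ g F) (chart τ g F) := by
  have hU := upper_lt hM D
  have h1 := (fact_cong hU hg hg hs hs (Cong.refl _ g)
    (fun n hn hn' => h n hn (not_lt.1 hn'))).1
  have u1 := (isFact_fact σ hg).uni_p
  have u2 := (isFact_fact τ hg).uni_p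
  have s1 := (supp_fact σ hg hs).1
  have s2 := (supp_fact τ hg hs).1
  exact conj_cong (Cong.inv hU u1 u2 s1 s2 h1) h1 (Cong.refl _ F) (supp_ge hM (u2.supp_inv s2))
    (supp_ge hM s1) hF hF

theorem fp_of_pos {σ : Tri L} {h : Nov ω δ} (hh : IsUni h) (hs : Sg σ 1 h) : fp σ h = h :=
  (IsFact.eq_fact ⟨hh, isUni_one, isUni_one, hs, sg_one, sg_one, by simp⟩).1

theorem fp_of_neg {σ : Tri L} {h : Nov ω δ} (hh : IsUni h) (hs : Sg σ (-1) h) : fp σ h = 1 :=
  (IsFact.eq_fact ⟨isUni_one, isUni_one, hh, sg_one, sg_one, hs, by simp⟩).1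

theorem orth (hω : ∀ p, ω p p = 0) {m a b : L} (ha : Par m a) (hb : Par m b) : ω a b = 0 :=
  ha.map_eq_zero (f := ω.flip b) (hb.map_eq_zero (hω m))

/-- crossing one wall -/
theorem cross (hω : ∀ p, ω p p = 0) {pr : L → Bool} {ι : Type} {e : ι → L}
    (he : ∀ i, 0 < δ (e i)) {g F : Nov ω δ} (hg : IsUni g) (hs : Supp g (cone e))
    (hW : WallPos pr (cone e) g) {b D : ℤ} (hF : Supp F {q | b ≤ δ q}) {p m : L}
    (hp : δ p ≤ D + b) (hm : m ∈ cone e) (hψ : ω p m ≠ 0) {θ₀ : L →+ ℝ}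
    (hθ : ∀ q, θ₀ q = 0 ↔ Par m q) {C : Nov ω δ} (sC : Supp C {q | b ≤ δ q})
    (hC : Cong {q | D + b < δ q} (chart ((Tri.ofR θ₀).lex (Tri.ofZ (ω p))) g F) C)
    (hpos : ∀ m' ∈ cone e, C.co (p - m') ∈ Pos) :
    (chart ((Tri.ofR θ₀).lex (Tri.ofZ (ω p)).neg) g F).co p ∈ Pos := by
  have hM := cone_nonneg he
  have hm0 : m ≠ 0 := fun h => hψ (by simp [h])
  have hδm : 0 < δ m := pos_of_mem_closure_range he hm hm0
  obtain ⟨l, hl, hE⟩ := hW θ₀ m hm hm0 hθ D
  have hf := isFact_fact (Tri.ofR θ₀) hg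
  have ua := hf.uni_p
  have uh := hf.uni_0
  have sh := (supp_fact (Tri.ofR θ₀) hg hs).2.1
  have hsg : Sg (Tri.ofZ (ω p)) (SignType.sign (ω p m)) (f0 (Tri.ofR θ₀) g) := by
    intro q hq hq'
    have h1 : θ₀ q = 0 := sign_eq_zero_iff.1 (hf.sg_0 q hq hq')
    exact ((hθ q).1 h1).sign_eq hδm (uh.2 q hq hq') (ω p)
  have hsg' : Sg (Tri.ofZ (ω p)).neg (-SignType.sign (ω p m)) (f0 (Tri.ofR θ₀) g) :=
    fun q hq hq' => congrArg Neg.neg (hsg q hq hq')
  have hlδ : ∀ x ∈ l, 0 < δ x.1 := fun x hx =>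
    pos_of_mem_closure_range he (hl x hx).1 (hl x hx).2.1
  have uE : IsUni (prodE pr l : Nov ω δ) := isUni_prodE pr hlδ
  have sE : Supp (prodE pr l : Nov ω δ) (cone e) := supp_prodE pr fun x hx => (hl x hx).1
  have hE' := Cong.inv (upper_lt hM D) uh uE sh sE hE
  have sC0 := supp_chart_ge hM hg hs hF ((Tri.ofR θ₀).lex (Tri.ofZ (ω p)))
  let A : Set L := {q | ∃ m' ∈ cone e, Par m m' ∧ q = p - m'}
  have hpA : p ∈ A := ⟨0, zero_mem _, par_zero m, by simp⟩
  have hA : PosOn A C := by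
    rintro _ ⟨m', h1, -, rfl⟩
    exact hpos m' h1
  have hA1 : ∀ x ∈ l, ∀ q ∈ A, SignType.sign (ω q x.1) = SignType.sign (ω p m) := by
    rintro x hx _ ⟨m', -, h2, rfl⟩
    rw [map_sub, AddMonoidHom.sub_apply, orth hω h2 (hl x hx).2.2, sub_zero]
    exact (hl x hx).2.2.sign_eq hδm (hlδ x hx) (ω p)
  have hA2 : ∀ x ∈ l, ∀ q ∈ A, q - x.1 ∈ A := by
    rintro x hx _ ⟨m', h1, h2, rfl⟩
    exact ⟨m' + x.1, add_mem h1 (hl x hx).1, h2.add (hl x hx).2.2, sub_sub _ _ _⟩
  have hpU : p ∉ {q | D + b < δ q} := not_lt.2 hp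
  rcases lt_or_gt_of_ne hψ with h1 | h1
  · rw [sign_neg h1] at hsg hsg' hA1
    rw [neg_neg] at hsg'
    have h2 : chart ((Tri.ofR θ₀).lex (Tri.ofZ (ω p)).neg) g F = Nov.inv (f0 (Tri.ofR θ₀) g) *
        chart ((Tri.ofR θ₀).lex (Tri.ofZ (ω p))) g F * f0 (Tri.ofR θ₀) g := by
      simp only [chart, (fact_lex _ _ hg).1, fp_of_pos uh hsg', fp_of_neg uh hsg, mul_one,
        ua.inv_mul_rev uh, mul_assoc]
    rw [h2, conj_cong hE' hE hC (supp_ge hM (uE.supp_inv sE)) (supp_ge hM sh) sC0 sC p hpU]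
    exact posOn_inv_conj_prodE hω pr (fun x hx => ⟨hlδ x hx,
      fun q hq => (sign_eq_neg_one_iff.1 (hA1 x hx q hq)).le, hA2 x hx⟩) hA p hpA
  · rw [sign_pos h1] at hsg hsg' hA1
    have h2 : chart ((Tri.ofR θ₀).lex (Tri.ofZ (ω p)).neg) g F = f0 (Tri.ofR θ₀) g *
        chart ((Tri.ofR θ₀).lex (Tri.ofZ (ω p))) g F * Nov.inv (f0 (Tri.ofR θ₀) g) := by
      simp only [chart, (fact_lex _ _ hg).1, fp_of_pos uh hsg, fp_of_neg uh hsg', mul_one,
        ua.inv_mul_rev uh, mul_assoc, uh.mul_inv]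
      rw [← mul_assoc (f0 (Tri.ofR θ₀) g), uh.mul_inv, one_mul]
    rw [h2, conj_cong hE hE' hC (supp_ge hM sE) (supp_ge hM (uh.supp_inv sh)) sC0 sC p hpU]
    exact posOn_conj_prodE hω pr (fun x hx => ⟨hlδ x hx,
      fun q hq => (sign_eq_one_iff.1 (hA1 x hx q hq)).le, hA2 x hx⟩) hA p hpA

end Th

/-- moving along a ray: the first wall which is hit -/
theorem exists_first_wall (θ : L →+ ℝ) (ψ : L →+ ℤ) (Γ : Finset L)
    (hne : ∃ n ∈ Γ, θ n * ψ n < 0) :
    ∃ (s : ℝ) (m : L), 0 < s ∧ m ∈ Γ ∧ θ m * ψ m < 0 ∧ θ m + s * ψ m = 0 ∧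
      ∀ n ∈ Γ, (θ n + s * ψ n ≠ 0 → θ n ≠ 0 →
          SignType.sign (θ n + s * ψ n) = SignType.sign (θ n)) ∧
        (θ n + s * ψ n = 0 → SignType.sign (θ n) = -SignType.sign (ψ n)) := by
  obtain ⟨n₀, h1, h2⟩ := hne
  obtain ⟨m, hm, hmin⟩ := Finset.exists_min_image (Γ.filter fun n => θ n * ψ n < 0)
    (fun n => -θ n / ψ n) ⟨n₀, Finset.mem_filter.2 ⟨h1, h2⟩⟩
  obtain ⟨hm1, hm2⟩ := Finset.mem_filter.1 hm
  have hψ : (ψ m : ℝ) ≠ 0 := fun h => by simp [h] at hm2
  have hs : 0 < -θ m / ψ m := by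
    have : -θ m / ψ m = -(θ m * ψ m) / (ψ m) ^ 2 := by field_simp
    rw [this]
    exact div_pos (by linarith) (by positivity)
  refine ⟨-θ m / ψ m, m, hs, hm1, hm2, by field_simp; ring, fun n hn => ⟨fun a1 a2 => ?_,
    fun a1 => ?_⟩⟩
  · refine Th.sign_eq_of_mul_pos (lt_of_le_of_ne ?_ (mul_ne_zero a1 a2).symm)
    by_cases hb : θ n * ψ n < 0
    · have h3 := hmin n (Finset.mem_filter.2 ⟨hn, hb⟩)
      have hψ' : (ψ n : ℝ) ≠ 0 := fun h => by simp [h] at hb
      have h4 : -θ n / ψ n * (θ n * ψ n) = -θ n ^ 2 := by field_simp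
      have h5 := mul_le_mul_of_nonpos_right h3 hb.le
      nlinarith
    · nlinarith [mul_nonneg hs.le (not_lt.1 hb), sq_nonneg (θ n)]
  · have : θ n = -(-θ m / ψ m * ψ n) := by linarith
    rw [this, Left.sign_neg, Th.sign_pos_mul hs]

theorem theta_pos_chart [Countable L] (hω : ∀ p, ω p p = 0) {pr : L → Bool} {ι : Type} [Fintype ι]
    {e : ι → L} (he : ∀ i, 0 < δ (e i)) {g F : Nov ω δ} (hg : IsUni g) (hs : Supp g (cone e))
    (hW : WallPos pr (cone e) g) (hF : ∀ r, asym g F r ∈ Pos) (θ : L →+ ℝ)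
    (hθ : Function.Injective θ) (p : L) : (chart (Tri.ofR θ) g F).co p ∈ Pos := by
  classical
  obtain ⟨b, hb⟩ := F.nov.exists_lb
  have sF : Supp F {q | b ≤ δ q} := hb
  have hM := Th.cone_nonneg he
  suffices H : ∀ k : ℕ, ∀ p : L, δ p < k + b → ∀ θ : L →+ ℝ, Function.Injective θ →
      (chart (Tri.ofR θ) g F).co p ∈ Pos from
    H (δ p - b + 1).toNat p (by omega) θ hθ
  intro k
  induction k with
  | zero =>
    intro p hp θ _
    have : (chart (Tri.ofR θ) g F).co p = 0 := by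
      by_contra h
      have := Th.supp_chart_ge hM hg hs sF _ p h
      simp only [Set.mem_ofPred_eq] at this
      omega
    rw [this]
    exact zero_mem _
  | succ k ih =>
    intro p hp
    have hp' : δ p ≤ k + b := by push_cast at hp; omega
    have hpU : p ∉ {q | (k : ℤ) + b < δ q} := not_lt.2 hp'
    have hfin := finite_closure_range he (k : ℤ)
    have hΓ : ∀ n ∈ cone e, δ n ≤ k → n ∈ hfin.toFinset := fun n h1 h2 =>
      hfin.mem_toFinset.2 ⟨h1, h2⟩
    suffices H : ∀ c : ℕ, ∀ θ : L →+ ℝ, Function.Injective θ →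
        (hfin.toFinset.filter fun n => θ n * ω p n < 0).card < c →
        (chart (Tri.ofR θ) g F).co p ∈ Pos from fun θ hθ => H _ θ hθ (Nat.lt_succ_self _)
    intro c
    induction c with
    | zero => intro θ _ h; omega
    | succ c ihc =>
      intro θ hθ hc
      have hθ0 : ∀ n, θ n = 0 → n = 0 := (injective_iff_map_eq_zero θ).1 hθ
      by_cases hne : ∃ n ∈ hfin.toFinset, θ n * ω p n < 0
      · obtain ⟨s, m, -, hm, hm1, hm2, hsg⟩ := exists_first_wall θ (ω p) _ hne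
        have hψ : ω p m ≠ 0 := fun h => by simp [h] at hm1
        let ψ : L →+ ℝ := (Int.castAddHom ℝ).comp (ω p)
        let θ₀ : L →+ ℝ := θ + s • ψ
        have e0 : ∀ n, θ₀ n = θ n + s * ω p n := fun n => rfl
        have hpar : ∀ q, θ₀ q = 0 ↔ Par m q := by
          intro q
          refine ⟨fun h => ⟨ω p m, ω p q, hψ, hθ ?_⟩, fun h => h.map_eq_zero_real hm2⟩
          rw [e0] at h
          rw [map_zsmul, map_zsmul, zsmul_eq_mul, zsmul_eq_mul]
          linear_combination (ω p m : ℝ) * h - (ω p q : ℝ) * hm2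
        obtain ⟨ε, hε, hz, hsg'⟩ := exists_generic_perturb θ₀ ψ _ hfin
        let θ₁ : L →+ ℝ := θ₀ + ε • ψ
        have e1 : ∀ n, θ₁ n = θ₀ n + ε * ψ n := fun n => rfl
        have eψ : ∀ n, ψ n = ω p n := fun n => rfl
        have hθ₁ : Function.Injective θ₁ := by
          refine (injective_iff_map_eq_zero θ₁).2 fun n hn => hθ0 n ?_
          obtain ⟨a1, a2⟩ := (hz n).1 hn
          rw [e0, ← eψ, a2] at a1
          simpa using a1
        have hoff : ∀ n ∈ hfin.toFinset, θ₀ n ≠ 0 →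
            SignType.sign (θ₁ n) = SignType.sign (θ₀ n) ∧
              SignType.sign (θ₀ n) = SignType.sign (θ n) := fun n hn h0 =>
          ⟨hsg' n (hfin.mem_toFinset.1 hn) h0,
            (hsg n hn).1 h0 fun h => h0 (by rw [hθ0 n h, map_zero])⟩
        have hcard : (hfin.toFinset.filter fun n => θ₁ n * ω p n < 0).card < c := by
          have h1 : (hfin.toFinset.filter fun n => θ₁ n * ω p n < 0) ⊂
              hfin.toFinset.filter fun n => θ n * ω p n < 0 := by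
            have h2 : ∀ n, θ₁ n * ω p n < 0 → θ₀ n ≠ 0 := by
              intro n hn h0
              rw [e1, h0, eψ] at hn
              nlinarith [mul_nonneg hε.le (sq_nonneg (ω p n : ℝ))]
            refine Finset.ssubset_iff_subset_ne.2 ⟨fun n hn => ?_, fun h => ?_⟩
            · obtain ⟨a1, a2⟩ := Finset.mem_filter.1 hn
              obtain ⟨a3, a4⟩ := hoff n a1 (h2 n a2)
              exact Finset.mem_filter.2 ⟨a1, Th.mul_neg_of_sign_eq (a3.trans a4) a2⟩
            · have h3 : m ∈ hfin.toFinset.filter fun n => θ₁ n * ω p n < 0 := by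
                rw [h]
                exact Finset.mem_filter.2 ⟨hm, hm1⟩
              exact h2 m (Finset.mem_filter.1 h3).2 hm2
          have := Finset.card_lt_card h1
          omega
        have hc1 : Cong {q | (k : ℤ) + b < δ q} (chart ((Tri.ofR θ₀).lex (Tri.ofZ (ω p))) g F)
            (chart (Tri.ofR θ₁) g F) := by
          refine Th.chart_cong hM hg hs sF fun n h1 h2 => ?_
          change (if SignType.sign (θ₀ n) = 0 then SignType.sign (ω p n) else SignType.sign (θ₀ n))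
            = SignType.sign (θ₁ n)
          split_ifs with h3
          · rw [e1, sign_eq_zero_iff.1 h3, zero_add, eψ, Th.sign_pos_mul hε]
          · exact (hoff n (hΓ n h1 h2) fun h => h3 (sign_eq_zero_iff.2 h)).1.symm
        have hc2 : Cong {q | (k : ℤ) + b < δ q} (chart (Tri.ofR θ) g F)
            (chart ((Tri.ofR θ₀).lex (Tri.ofZ (ω p)).neg) g F) := by
          refine Th.chart_cong hM hg hs sF fun n h1 h2 => ?_
          change SignType.sign (θ n) =
            (if SignType.sign (θ₀ n) = 0 then -SignType.sign (ω p n) else SignType.sign (θ₀ n))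
          split_ifs with h3
          · exact (hsg n (hΓ n h1 h2)).2 (sign_eq_zero_iff.1 h3)
          · exact (hoff n (hΓ n h1 h2) fun h => h3 (sign_eq_zero_iff.2 h)).2.symm
        rw [hc2 p hpU]
        refine Th.cross hω he hg hs hW sF hp' (hfin.mem_toFinset.1 hm).1 hψ hpar
          (Th.supp_chart_ge hM hg hs sF _) hc1 fun m' hm' => ?_
        by_cases h0 : m' = 0
        · rw [h0, sub_zero]
          exact ihc θ₁ hθ₁ hcard
        · have := pos_of_mem_closure_range he hm' h0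
          exact ih _ (by rw [map_sub]; omega) θ₁ hθ₁
      · have hc2 : Cong {q | (k : ℤ) + b < δ q} (chart (Tri.ofR θ) g F)
            (chart ((Tri.ofZ (ω p)).lex (Tri.ofR θ)) g F) := by
          refine Th.chart_cong hM hg hs sF fun n h1 h2 => ?_
          change SignType.sign (θ n) =
            (if SignType.sign (ω p n) = 0 then SignType.sign (θ n) else SignType.sign (ω p n))
          split_ifs with h3
          · rfl
          · have a1 : ω p n ≠ 0 := fun h => h3 (sign_eq_zero_iff.2 h)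
            have a2 : θ n ≠ 0 := fun h => a1 (by rw [hθ0 n h, map_zero])
            have a3 : 0 ≤ θ n * ω p n := not_lt.1 fun h => hne ⟨n, hΓ n h1 h2, h⟩
            rw [← Th.sign_cast]
            exact Th.sign_eq_of_mul_pos
              (lt_of_le_of_ne a3 (mul_ne_zero a2 (by exact_mod_cast a1)).symm)
        rw [hc2 p hpU, asym_eq_lex hω hg]
        exact hF p

theorem theta_pos {κ : Type} [Fintype κ] {ω : (κ → ℤ) →+ (κ → ℤ) →+ ℤ} {δ : (κ → ℤ) →+ ℤ}
    (hω : ∀ p, ω p p = 0) {pr : (κ → ℤ) → Bool} {ι : Type} [Fintype ι]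
    {e : ι → κ → ℤ} (he : ∀ i, 0 < δ (e i)) {g F : Nov ω δ} (hg : IsUni g) (hs : Supp g (cone e))
    (hW : WallPos pr (cone e) g) (hF : ∀ r, asym g F r ∈ Pos) (p : κ → ℤ) : F.co p ∈ Pos := by
  obtain ⟨b, hb⟩ := F.nov.exists_lb
  have sF : Supp F {q | b ≤ δ q} := hb
  have hM := Th.cone_nonneg he
  obtain ⟨θ, hθ, hsg⟩ := exists_injective_near (-(Int.castAddHom ℝ).comp δ) _
    (finite_closure_range he (δ p - b))
  have h1 := theta_pos_chart hω he hg hs hW hF θ hθ p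
  have h2 : Cong {q | (δ p - b) + b < δ q} (chart (Tri.ofR θ) g F) (chart (Tri.ofZ δ).neg g F) := by
    refine Th.chart_cong hM hg hs sF fun n a1 a2 => ?_
    change SignType.sign (θ n) = -SignType.sign (δ n)
    by_cases h0 : n = 0
    · simp [h0]
    · have a3 := pos_of_mem_closure_range he a1 h0
      have a4 : (-(Int.castAddHom ℝ).comp δ) n = -(δ n : ℝ) := rfl
      rw [hsg n ⟨a1, a2⟩ (by rw [a4]; exact neg_ne_zero.2 (by exact_mod_cast a3.ne')), a4,
        Left.sign_neg, Th.sign_cast]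
  have h3 : Sg (Tri.ofZ δ).neg (-1) g := fun q hq hq' =>
    congrArg Neg.neg (sign_pos (hg.2 q hq hq'))
  rwa [h2 p (by simp), chart, Th.fp_of_neg hg h3, Nov.inv_one, one_mul, mul_one] at h1

end Crest.Agent.R59
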