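import Crest.Agent.R59.Theta
import Crest.Agent.R59.Rank2

/-! # Rank two: from incoming walls to the outgoing wall -/

set_option autoImplicit false

namespace Crest.Agent.R59
open Finset Pointwise Nov

namespace WallsAux1

theorem exists_sorted {α : Type} (S : Finset α) (f : α → ℚ) (a0 : α) :
    ∃ ns : List α, (∀ n ∈ ns, n ∈ S) ∧ ns.Pairwise (fun x y => f x < f y) ∧
      ∀ p ∈ S, ∃ n ∈ ns, f n = f p := by
  classical
  have h : ∀ t : ℚ, ∃ a : α, t ∈ S.image f → a ∈ S ∧ f a = t := fun t => by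
    by_cases ht : t ∈ S.image f
    · obtain ⟨a, ha, rfl⟩ := mem_image.1 ht
      exact ⟨a, fun _ => ⟨ha, rfl⟩⟩
    · exact ⟨a0, fun h => absurd h ht⟩
  choose g hg using h
  refine ⟨((S.image f).sort (· ≤ ·)).map g, fun n hn => ?_, ?_, fun p hp => ?_⟩
  · obtain ⟨t, ht, rfl⟩ := List.mem_map.1 hn
    exact (hg t ((mem_sort _).1 ht)).1
  · rw [List.pairwise_map]
    refine List.Pairwise.imp_of_mem (R := (· < ·)) (fun {a b} ha hb hab => ?_)
      (S.image f).sortedLT_sort.pairwise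
    rwa [(hg a ((mem_sort _).1 ha)).2, (hg b ((mem_sort _).1 hb)).2]
  · exact ⟨g (f p), List.mem_map.2 ⟨f p, (mem_sort _).2 (mem_image_of_mem f hp), rfl⟩,
      (hg _ (mem_image_of_mem f hp)).2⟩

theorem split3 {α : Type} (f : α → ℚ) (l : List α) (hl : l.Pairwise (fun x y => f y ≤ f x)) :
    ∃ a b c : List α, l = a ++ b ++ c ∧ (∀ x ∈ a, 0 < f x) ∧ (∀ x ∈ b, f x = 0) ∧
      ∀ x ∈ c, f x < 0 := by
  induction l with
  | nil => exact ⟨[], [], [], rfl, by simp, by simp, by simp⟩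
  | cons x t ih =>
    obtain ⟨h1, h2⟩ := List.pairwise_cons.1 hl
    obtain ⟨a, b, c, rfl, ha, hb, hc⟩ := ih h2
    rcases lt_trichotomy 0 (f x) with h | h | h
    · exact ⟨x :: a, b, c, rfl, List.forall_mem_cons.2 ⟨h, ha⟩, hb, hc⟩
    · obtain rfl : a = [] := List.eq_nil_iff_forall_not_mem.2 fun y hy => by
        have := h1 y (by simp [hy])
        linarith [ha y hy]
      exact ⟨[], x :: b, c, rfl, by simp, List.forall_mem_cons.2 ⟨h.symm, hb⟩, hc⟩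
    · exact ⟨[], [], x :: (a ++ b ++ c), rfl, by simp, by simp,
        List.forall_mem_cons.2 ⟨h, fun y hy => (h1 y hy).trans_lt h⟩⟩

variable {L : Type} [AddCommGroup L] {ω : L →+ L →+ ℤ} {δ : L →+ ℤ}

/-- `sl` is a slope function for `ω` on `M`. -/
structure Slope (ω : L →+ L →+ ℤ) (M : AddSubmonoid L) (sl : L → ℚ) : Prop where
  pos : ∀ p ∈ M, p ≠ 0 → ∀ r ∈ M, r ≠ 0 → (0 < ω p r ↔ sl r < sl p)
  zero : ∀ p ∈ M, p ≠ 0 → ∀ r ∈ M, r ≠ 0 → (ω p r = 0 ↔ sl p = sl r)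
  neg : ∀ p ∈ M, p ≠ 0 → ∀ r ∈ M, r ≠ 0 → (ω p r < 0 ↔ sl p < sl r)

theorem slope_of_plane {M : AddSubmonoid L} (hM : ∀ p ∈ M, p ≠ 0 → 0 < δ p) {m : L} (hm : 0 < δ m)
    (hplane : ∀ p ∈ M, ∀ r ∈ M, δ m * ω p r = ω p m * δ r - ω r m * δ p) :
    Slope ω M (fun p => (ω p m : ℚ) / δ p) := by
  have key : ∀ p ∈ M, p ≠ 0 → ∀ r ∈ M, r ≠ 0 → ∃ c : ℚ, 0 < c ∧
      (ω p r : ℚ) = c * ((ω p m : ℚ) / δ p - (ω r m : ℚ) / δ r) := by
    intro p hp hp0 r hr hr0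
    have h1 : (0 : ℚ) < δ p := by exact_mod_cast hM p hp hp0
    have h2 : (0 : ℚ) < δ r := by exact_mod_cast hM r hr hr0
    have h3 : (0 : ℚ) < δ m := by exact_mod_cast hm
    have h4 : (δ m : ℚ) * ω p r = ω p m * δ r - ω r m * δ p := by exact_mod_cast hplane p hp r hr
    refine ⟨δ p * δ r / δ m, by positivity, ?_⟩
    field_simp
    linear_combination h4
  refine ⟨fun p hp hp0 r hr hr0 => ?_, fun p hp hp0 r hr hr0 => ?_, fun p hp hp0 r hr hr0 => ?_⟩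
  · obtain ⟨c, hc, h⟩ := key p hp hp0 r hr hr0
    rw [← Int.cast_pos (R := ℚ), h, mul_pos_iff_of_pos_left hc, sub_pos]
  · obtain ⟨c, hc, h⟩ := key p hp hp0 r hr hr0
    rw [← Int.cast_eq_zero (α := ℚ), h, mul_eq_zero, sub_eq_zero, or_iff_right hc.ne']
  · obtain ⟨c, hc, h⟩ := key p hp hp0 r hr hr0
    rw [← Int.cast_lt_zero (R := ℚ), h, ← neg_pos, ← mul_neg, mul_pos_iff_of_pos_left hc, neg_pos,
      sub_neg]

theorem ofZ_sg (θ : L →+ ℤ) (p : L) : (Tri.ofZ θ).sg p = SignType.sign (θ p) := rfl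

theorem neg_sg (σ : Tri L) (p : L) : σ.neg.sg p = -σ.sg p := rfl

/-- an element is the ordered product of its walls -/
theorem cong_prod {M : AddSubmonoid L} (hM : ∀ p ∈ M, p ≠ 0 → 0 < δ p) {sl : L → ℚ}
    (hsl : Slope ω M sl) (D : ℤ) (ns : List L) (hns : ∀ n ∈ ns, n ∈ M ∧ n ≠ 0)
    (hpw : ns.Pairwise (fun x y => sl x < sl y)) :
    ∀ M' : AddSubmonoid L, M' ≤ M → (∀ p ∈ M', p ≠ 0 → δ p ≤ D → ∃ n ∈ ns, sl n = sl p) →
      ∀ h : Nov ω δ, IsUni h → Supp h M' →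
        Cong {p | D < δ p} h (ns.map fun n => f0 (Tri.ofZ (ω n)) h).prod := by
  have hM0 : ∀ p ∈ M, 0 ≤ δ p := fun p hp => by
    by_cases h : p = 0
    · rw [h, map_zero]
    · exact (hM p hp h).le
  have hup : Upper M {p | D < δ p} := upper_lt hM0 D
  have one_of : ∀ g : Nov ω δ, IsUni g → (∀ p, p ≠ 0 → δ p ≤ D → g.co p = 0) →
      Cong {p | D < δ p} g 1 := fun g hg h p hp => by
    by_cases h0 : p = 0
    · rw [h0, hg.1, co_one_zero]
    · rw [h p h0 (not_lt.1 hp), co_one_of_ne h0]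
  induction ns with
  | nil =>
    intro M' _ hc h hh hs
    refine one_of h hh fun p h0 hp => ?_
    by_contra hne
    obtain ⟨n, hn, -⟩ := hc p (hs p hne) h0 hp
    simp at hn
  | cons n ns ih =>
    intro M' hM' hc h hh hs
    obtain ⟨hn, hn0⟩ := hns n (by simp)
    obtain ⟨hlt, hpw'⟩ := List.pairwise_cons.1 hpw
    have hF := isFact_fact (Tri.ofZ (ω n)) hh
    obtain ⟨s1, s2, s3⟩ := supp_fact (Tri.ofZ (ω n)) hh hs
    have t1 : ∀ p, p ≠ 0 → (fp (Tri.ofZ (ω n)) h).co p ≠ 0 → sl p < sl n := fun p h0 hp =>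
      (hsl.pos n hn hn0 p (hM' (s1 p hp)) h0).1 (sign_eq_one_iff.1 (hF.sg_p p h0 hp))
    have t2 : ∀ p, p ≠ 0 → (f0 (Tri.ofZ (ω n)) h).co p ≠ 0 → sl n = sl p := fun p h0 hp =>
      (hsl.zero n hn hn0 p (hM' (s2 p hp)) h0).1 (sign_eq_zero_iff.1 (hF.sg_0 p h0 hp))
    have c1 : Cong {p | D < δ p} (fp (Tri.ofZ (ω n)) h) 1 := by
      refine one_of _ hF.uni_p fun p h0 hp => ?_
      by_contra hne
      obtain ⟨n', hn', e⟩ := hc p (s1 p hne) h0 hp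
      have := t1 p h0 hne
      rcases List.mem_cons.1 hn' with rfl | hn'
      · linarith
      · linarith [hlt n' hn']
    let M'' : AddSubmonoid L :=
      { carrier := {p | p ∈ M' ∧ (p = 0 ∨ ω n p < 0)}
        zero_mem' := ⟨zero_mem _, Or.inl rfl⟩
        add_mem' := by
          rintro a b ⟨ha, rfl | ha'⟩ ⟨hb, rfl | hb'⟩
          · exact ⟨add_mem ha hb, Or.inl (add_zero _)⟩
          · exact ⟨add_mem ha hb, Or.inr (by rwa [zero_add])⟩
          · exact ⟨add_mem ha hb, Or.inr (by rwa [add_zero])⟩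
          · exact ⟨add_mem ha hb, Or.inr (by rw [map_add]; omega)⟩ }
    have s4 : Supp (fm (Tri.ofZ (ω n)) h) M'' := fun p hp => by
      refine ⟨s3 p hp, ?_⟩
      by_cases h0 : p = 0
      · exact Or.inl h0
      · exact Or.inr (sign_eq_neg_one_iff.1 (hF.sg_m p h0 hp))
    have c2 := ih (fun n' hn' => hns n' (List.mem_cons_of_mem _ hn')) hpw' M''
      (fun p hp => hM' hp.1) (fun p hp h0 hD => by
        obtain ⟨n', hn', e⟩ := hc p hp.1 h0 hD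
        rcases List.mem_cons.1 hn' with rfl | hn'
        · have := (hsl.neg n' hn hn0 p (hM' hp.1) h0).1 (hp.2.resolve_left h0)
          linarith
        · exact ⟨n', hn', e⟩) _ hF.uni_m s4
    have e1 : (ns.map fun n' => f0 (Tri.ofZ (ω n')) (fm (Tri.ofZ (ω n)) h)) =
        ns.map fun n' => f0 (Tri.ofZ (ω n')) h := by
      refine List.map_congr_left fun n' hn' => ?_
      obtain ⟨a1, a2⟩ := hns n' (List.mem_cons_of_mem _ hn')
      have a3 := hlt n' hn'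
      have g1 : Sg (Tri.ofZ (ω n')) 1 (fp (Tri.ofZ (ω n)) h) := fun p h0 hp =>
        sign_eq_one_iff.2 ((hsl.pos n' a1 a2 p (hM' (s1 p hp)) h0).2 ((t1 p h0 hp).trans a3))
      have g2 : Sg (Tri.ofZ (ω n')) 1 (f0 (Tri.ofZ (ω n)) h) := fun p h0 hp =>
        sign_eq_one_iff.2 ((hsl.pos n' a1 a2 p (hM' (s2 p hp)) h0).2 (t2 p h0 hp ▸ a3))
      conv_rhs => rw [hF.eq]
      exact (fact_mul_left (hF.uni_p.mul hF.uni_0) (Sg.mul hF.uni_p hF.uni_0 g1 g2)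
        hF.uni_m).2.1.symm
    rw [e1] at c2
    have sM : Supp h M := hs.mono hM'
    have s5 : Supp (ns.map fun n' => f0 (Tri.ofZ (ω n')) h).prod M := Supp.list_prod fun x hx => by
      obtain ⟨n', -, rfl⟩ := List.mem_map.1 hx
      exact (supp_fact _ hh sM).2.1
    have c3 := Cong.mul hup (Cong.mul hup c1 (Cong.refl _ (f0 (Tri.ofZ (ω n)) h)) (s1.mono hM')
      (s2.mono hM')) c2 ((s1.mono hM').mul_of_mem (s2.mono hM')) s5
    rw [← hF.eq, one_mul] at c3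
    rw [List.map_cons, List.prod_cons]
    exact c3

theorem prodE_flatMap {α : Type} (pr : L → Bool) (ns : List α) (l : α → List (L × ℤ)) :
    (prodE pr (ns.flatMap l) : Nov ω δ) = (ns.map fun n => prodE pr (l n)).prod := by
  induction ns with
  | nil => simp [prodE]
  | cons n ns ih => rw [List.flatMap_cons, prodE_append, ih, List.map_cons, List.prod_cons]

end WallsAux1

open WallsAux1

variable {L : Type} [AddCommGroup L] {ω : L →+ L →+ ℤ} {δ : L →+ ℤ}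

theorem out_of_in' (hω : ∀ p, ω p p = 0) {pr : L → Bool} (hpr : IsParity ω pr)
    {M : AddSubmonoid L} (hM : ∀ p ∈ M, p ≠ 0 → 0 < δ p)
    (hfin : ∀ D : ℤ, {p | p ∈ M ∧ δ p ≤ D}.Finite) {m : L} (hm : m ∈ M) (hm0 : m ≠ 0)
    (hplane : ∀ p ∈ M, ∀ r ∈ M, δ m * ω p r = ω p m * δ r - ω r m * δ p)
    (hnd : ∀ p ∈ M, ∀ r ∈ M, p ≠ 0 → ω p r = 0 → Par p r)
    {U : Set L} (hU : Upper M U) {D : ℤ} (hD : ∀ p, D < δ p → p ∈ U)
    {h : Nov ω δ} (hh : IsUni h) (hs : Supp h M)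
    (hin : ∀ n ∈ M, n ≠ 0 → ∃ l : List (L × ℤ), (∀ x ∈ l, x.1 ∈ M ∧ x.1 ≠ 0 ∧ Par n x.1) ∧
      Cong U (f0 (Tri.ofZ (ω n)) h) (prodE pr l)) :
    ∃ l : List (L × ℤ), (∀ x ∈ l, x.1 ∈ M ∧ x.1 ≠ 0 ∧ Par m x.1) ∧
      Cong U (f0 (Tri.ofZ (ω m)).neg h) (prodE pr l) := by
  classical
  have hsl := slope_of_plane hM (hM m hm hm0) hplane
  set sl : L → ℚ := fun p => (ω p m : ℚ) / δ p with hsldef
  have hslm : sl m = 0 := by simp [hsldef, hω]
  obtain ⟨ns, n1, n2, n3⟩ := exists_sorted ((hfin D).toFinset.erase 0) sl 0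
  have hns : ∀ n ∈ ns, n ∈ M ∧ n ≠ 0 := fun n hn => by
    have := mem_erase.1 (n1 n hn)
    exact ⟨((hfin D).mem_toFinset.1 this.2).1, this.1⟩
  have c1 := (cong_prod hM hsl D ns hns n2 M le_rfl (fun p hp h0 hp' =>
    n3 p (mem_erase.2 ⟨h0, (hfin D).mem_toFinset.2 ⟨hp, hp'⟩⟩)) h hh hs).mono (B := U) hD
  choose! l hl hl' using hin
  have c2 : Cong U (ns.map fun n => f0 (Tri.ofZ (ω n)) h).prod
      (ns.map fun n => (prodE pr (l n) : Nov ω δ)).prod := by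
    refine Cong.list_prod hU ?_ (fun x hx => ?_) (fun x hx => ?_)
    · rw [List.forall₂_map_left_iff, List.forall₂_map_right_iff, List.forall₂_same]
      exact fun n hn => hl' n (hns n hn).1 (hns n hn).2
    · obtain ⟨n, -, rfl⟩ := List.mem_map.1 hx
      exact (supp_fact _ hh hs).2.1
    · obtain ⟨n, hn, rfl⟩ := List.mem_map.1 hx
      exact supp_prodE pr fun y hy => (hl n (hns n hn).1 (hns n hn).2 y hy).1
  rw [← prodE_flatMap] at c2
  have hx : ∀ n ∈ ns, ∀ x ∈ l n, x.1 ∈ M ∧ x.1 ≠ 0 ∧ sl n = sl x.1 := fun n hn x hx => by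
    obtain ⟨a1, a2, a3⟩ := hl n (hns n hn).1 (hns n hn).2 x hx
    exact ⟨a1, a2, (hsl.zero n (hns n hn).1 (hns n hn).2 _ a1 a2).1 (a3.map_eq_zero (hω n))⟩
  have hmem : ∀ x ∈ ns.flatMap l, x.1 ∈ M ∧ x.1 ≠ 0 := fun x hx' => by
    obtain ⟨n, hn, hxn⟩ := List.mem_flatMap.1 hx'
    exact ⟨(hx n hn x hxn).1, (hx n hn x hxn).2.1⟩
  have hpw : (ns.flatMap l).Pairwise (fun x y => sl x.1 ≤ sl y.1) := by
    rw [List.pairwise_flatMap]
    refine ⟨fun n hn => List.pairwise_of_forall_mem_list fun x hx1 y hy1 => ?_,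
      n2.imp_of_mem fun {a b} ha hb hab x hx1 y hy1 => ?_⟩
    · rw [← (hx n hn x hx1).2.2, ← (hx n hn y hy1).2.2]
    · rw [← (hx a ha x hx1).2.2, ← (hx b hb y hy1).2.2]
      exact hab.le
  obtain ⟨l', m1, m2, c3⟩ := rank2 (δ := δ) hω hpr (z := ω.flip m) (hM m hm hm0) (ns.flatMap l)
    (fun x hx => hM _ (hmem x hx).1 (hmem x hx).2)
    (fun x hx y hy => hplane _ (hmem x hx).1 _ (hmem y hy).1)
    (hpw.imp_of_mem fun {x y} hx hy hxy => not_lt.1 fun hlt => absurd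
      ((hsl.pos _ (hmem x hx).1 (hmem x hx).2 _ (hmem y hy).1 (hmem y hy).2).1 hlt)
      (not_lt.2 hxy)) D
  have hcl : AddSubmonoid.closure {p | ∃ y ∈ ns.flatMap l, y.1 = p} ≤ M :=
    AddSubmonoid.closure_le.2 fun p ⟨y, hy, e⟩ => e ▸ (hmem y hy).1
  have hmem' : ∀ x ∈ l', x.1 ∈ M ∧ x.1 ≠ 0 := fun x hx => ⟨hcl (m1 x hx).2, (m1 x hx).1⟩
  have c4 : Cong U h (prodE pr l') := (c1.trans c2).trans (c3.mono hD)
  obtain ⟨a, b, c, rfl, ha, hb, hc⟩ := split3 (fun x : L × ℤ => sl x.1) l'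
    (m2.imp_of_mem fun {x y} hx hy hxy => not_lt.1 fun hlt => absurd
      ((hsl.neg _ (hmem' x hx).1 (hmem' x hx).2 _ (hmem' y hy).1 (hmem' y hy).2).2 hlt)
      (not_lt.2 hxy))
  have ma : ∀ x ∈ a, x.1 ∈ M ∧ x.1 ≠ 0 := fun x hx => hmem' x (by simp [hx])
  have mb : ∀ x ∈ b, x.1 ∈ M ∧ x.1 ≠ 0 := fun x hx => hmem' x (by simp [hx])
  have mc : ∀ x ∈ c, x.1 ∈ M ∧ x.1 ≠ 0 := fun x hx => hmem' x (by simp [hx])
  have zb : ∀ x ∈ b, ω m x.1 = 0 := fun x hx =>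
    (hsl.zero m hm hm0 _ (mb x hx).1 (mb x hx).2).2 (hslm.trans (hb x hx).symm)
  have hF : IsFact (Tri.ofZ (ω m)).neg (prodE pr (a ++ b ++ c) : Nov ω δ) (prodE pr a)
      (prodE pr b) (prodE pr c) :=
    { uni_p := isUni_prodE pr fun x hx => hM _ (ma x hx).1 (ma x hx).2
      uni_0 := isUni_prodE pr fun x hx => hM _ (mb x hx).1 (mb x hx).2
      uni_m := isUni_prodE pr fun x hx => hM _ (mc x hx).1 (mc x hx).2
      sg_p := sg_prodE pr fun x hx => ⟨hM _ (ma x hx).1 (ma x hx).2, by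
        rw [neg_sg, ofZ_sg, sign_neg ((hsl.neg m hm hm0 _ (ma x hx).1 (ma x hx).2).2
          (hslm ▸ ha x hx)), neg_neg]⟩
      sg_0 := sg_prodE pr fun x hx => ⟨hM _ (mb x hx).1 (mb x hx).2, by
        rw [neg_sg, ofZ_sg, zb x hx, sign_zero, neg_zero]⟩
      sg_m := sg_prodE pr fun x hx => ⟨hM _ (mc x hx).1 (mc x hx).2, by
        rw [neg_sg, ofZ_sg, sign_pos ((hsl.pos m hm hm0 _ (mc x hx).1 (mc x hx).2).2
          (hslm ▸ hc x hx))]⟩
      eq := by rw [prodE_append, prodE_append] }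
  refine ⟨b, fun x hx => ⟨(mb x hx).1, (mb x hx).2, hnd m hm _ (mb x hx).1 hm0 (zb x hx)⟩, ?_⟩
  rw [← hF.eq_fact.2.1]
  exact (fact_cong hU hh (isUni_prodE pr fun x hx => hM _ (hmem' x hx).1 (hmem' x hx).2) hs
    (supp_prodE pr fun x hx => (hmem' x hx).1) c4 fun _ _ _ => rfl).2.1

end Crest.Agent.R59
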