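import Crest.Agent.R59.WallsCond
import Crest.Agent.R59.Theta
import Crest.Agent.R59.Rank2
import Crest.Agent.R59.WallsAux1

/-! # Positivity of the walls of the cluster scattering element -/

set_option autoImplicit false

namespace Crest.Agent.R59
open Finset Pointwise Nov

variable {L : Type} [AddCommGroup L] {ω : L →+ L →+ ℤ} {δ : L →+ ℤ}

/-- rank two: positivity of the incoming walls implies positivity of the outgoing wall -/
theorem out_of_in (hω : ∀ p, ω p p = 0) {pr : L → Bool} (hpr : IsParity ω pr)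
    {M : AddSubmonoid L} (hM : ∀ p ∈ M, p ≠ 0 → 0 < δ p)
    (hfin : ∀ D : ℤ, {p | p ∈ M ∧ δ p ≤ D}.Finite) {m : L} (hm : m ∈ M) (hm0 : m ≠ 0)
    (hplane : ∀ p ∈ M, ∀ r ∈ M, δ m * ω p r = ω p m * δ r - ω r m * δ p)
    (hnd : ∀ p ∈ M, ∀ r ∈ M, p ≠ 0 → ω p r = 0 → Par p r)
    {U : Set L} (hU : Upper M U) {D : ℤ} (hD : ∀ p, D < δ p → p ∈ U)
    {h : Nov ω δ} (hh : IsUni h) (hs : Supp h M)
    (hin : ∀ n ∈ M, n ≠ 0 → ∃ l : List (L × ℤ), (∀ x ∈ l, x.1 ∈ M ∧ x.1 ≠ 0 ∧ Par n x.1) ∧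
      Cong U (f0 (Tri.ofZ (ω n)) h) (prodE pr l)) :
    ∃ l : List (L × ℤ), (∀ x ∈ l, x.1 ∈ M ∧ x.1 ≠ 0 ∧ Par m x.1) ∧
      Cong U (f0 (Tri.ofZ (ω m)).neg h) (prodE pr l) :=
  out_of_in' hω hpr hM hfin hm hm0 hplane hnd hU hD hh hs hin

theorem wallPos_of_cond [Countable L] (hω : ∀ p, ω p p = 0) {pr : L → Bool} (hpr : IsParity ω pr)
    {ι : Type} [Fintype ι] {e : ι → L} (he : ∀ i, 0 < δ (e i)) (hodd : ∀ i, pr (e i) = true)
    (hray : ∀ i j, Par (e i) (e j) → i = j) {g : Nov ω δ} (hg : Cond e g) :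
    WallPos pr (cone e) g :=
  WC.wallPos hω (fun _ hM hfin _ hm hm0 hplane hnd _ hU _ hD _ hh hs hin =>
    out_of_in hω hpr hM hfin hm hm0 hplane hnd hU hD hh hs hin) he hodd hray hg

end Crest.Agent.R59
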