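import Crest.Agent.R59.GraphDefs
import Crest.Agent.R59.Mutation
import Crest.Agent.R59.Walls

/-! # Polynomials commuting with the Baxter operator are positive combinations of theta
functions -/

set_option autoImplicit false

namespace Crest.Agent.R59
open Finset Nov Crest.CombinatoricsR.UnitInterval

variable {n : ℕ} {h : Fin n → ℕ}

/-- exponent of `x_k` (zero if `k` is not a vertex) -/
def exN (n k : ℕ) : Lt n := if hk : k < n then ex ⟨k, hk⟩ else 0

/-- adjacency of natural numbers -/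
def adjN (h : Fin n → ℕ) (j k : ℕ) : Prop := ∃ (hj : j < n) (hk : k < n), IsEdge h ⟨j, hj⟩ ⟨k, hk⟩

open Classical in
/-- the seed after `t` mutations -/
noncomputable def seed (h : Fin n → ℕ) (t : ℕ) (c : Fin n) : Lt n :=
  if t ≤ c then (if t < c ∧ adjN h (c - 1) c then exN n c - exN n (c - 1) else ux c)
  else (if c + 1 < t ∧ adjN h c (c + 1) then exN n (c + 1) - exN n c else -ux c)

namespace GTh

theorem exN_of_lt {k : ℕ} (hk : k < n) : exN n k = ex ⟨k, hk⟩ := dif_pos hk

theorem exN_coe (c : Fin n) : exN n c = ex c := dif_pos c.2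

/-- the four cases of the definition of the seed -/
theorem seed_cases (h : Fin n → ℕ) (t : ℕ) (c : Fin n) :
    (∃ b : Fin n, (b : ℕ) + 1 = c ∧ t < c ∧ IsEdge h b c ∧ seed h t c = ex c - ex b) ∨
    (t ≤ c ∧ (∀ b : Fin n, (b : ℕ) + 1 = c → t < c → ¬ IsEdge h b c) ∧ seed h t c = ux c) ∨
    (∃ b : Fin n, (c : ℕ) + 1 = b ∧ (c : ℕ) + 1 < t ∧ IsEdge h c b ∧ seed h t c = ex b - ex c) ∨
    ((c : ℕ) < t ∧ (∀ b : Fin n, (c : ℕ) + 1 = b → (c : ℕ) + 1 < t → ¬ IsEdge h c b) ∧
      seed h t c = -ux c) := by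
  unfold seed
  split_ifs with h1 h2 h3
  · obtain ⟨h3, hj, hk, he⟩ := h2
    exact Or.inl ⟨⟨c - 1, hj⟩, by simp only; omega, h3, he, by rw [exN_coe, exN_of_lt hj]⟩
  · refine Or.inr (Or.inl ⟨h1, fun b hb ht he => h2 ⟨ht, by omega, c.2, ?_⟩, rfl⟩)
    have : (⟨c - 1, by omega⟩ : Fin n) = b := Fin.ext (by simp only; omega)
    rwa [this]
  · obtain ⟨h4, hj, hk, he⟩ := h3
    exact Or.inr (Or.inr (Or.inl ⟨⟨c + 1, hk⟩, rfl, h4, he, by rw [exN_coe, exN_of_lt hk]⟩))
  · refine Or.inr (Or.inr (Or.inr ⟨by omega, fun b hb ht he => h3 ⟨ht, c.2, by omega, ?_⟩, rfl⟩))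
    have : (⟨c + 1, by omega⟩ : Fin n) = b := Fin.ext hb
    rwa [this]

theorem isEdge_iff {a c : Fin n} (hac : a < c) : IsEdge h a c ↔ (c : ℕ) + 1 ≤ h a := by
  simp [IsEdge, hac, not_lt.2 hac.le]

theorem edge_left {a b c : Fin n} (hab : a < b) (hbc : b < c) (he : IsEdge h a c) :
    IsEdge h a b := by
  rw [isEdge_iff (hab.trans hbc)] at he
  rw [isEdge_iff hab]
  have : (b : ℕ) < c := hbc
  omega

theorem edge_right (hh : IsHessenberg h) {a b c : Fin n} (hab : a < b) (hbc : b < c)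
    (he : IsEdge h a c) : IsEdge h b c := by
  rw [isEdge_iff (hab.trans hbc)] at he
  rw [isEdge_iff hbc]
  exact he.trans (hh.1 hab.le)

theorem Wt_lt {a c : Fin n} (hac : a < c) : Wt h a c = if IsEdge h a c then 1 else 0 := by
  simp [Wt, hac]

theorem Wt_gt {a c : Fin n} (hac : a < c) : Wt h c a = if IsEdge h a c then -1 else 0 := by
  rw [Wt_antisymm, Wt_lt hac]; split_ifs <;> simp

theorem Wt_self (a : Fin n) : Wt h a a = 0 := if_neg (not_isEdge_self h a)

theorem trop_of_nonneg {e r : Lt n} (hr : 0 ≤ om h r e) : trop (om h) e r = r := by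
  rw [trop, Int.toNat_of_nonpos (by omega), zero_smul, add_zero]

theorem trop_of_neg_one {e r : Lt n} (hr : om h r e = -1) : trop (om h) e r = r + e := by
  rw [trop, hr]; simp

theorem om_ex_ux (a c : Fin n) : om h (ex a) (ux c) = Wt h a c := by rw [om_ux_right, om_ex_ex]

theorem om_ux_ux (a c : Fin n) : om h (ux a) (ux c) = Wt h a c := by rw [om_ux_left, om_ex_ux]

theorem ux_sub (a c : Fin n) : ux a - ux c = ex a - ex c := by
  simp [ux, ex]

end GTh

open GTh

theorem dl_seed_pos (h : Fin n → ℕ) (t : ℕ) (c : Fin n) : 0 < dl n t (seed h t c) := by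
  rcases seed_cases h t c with ⟨b, h1, -, -, e⟩ | ⟨h1, -, e⟩ | ⟨b, h1, -, -, e⟩ | ⟨h1, -, e⟩ <;>
    simp only [e, map_sub, map_neg, dl_ex, dl_ux] <;> omega

theorem seed_self (h : Fin n → ℕ) (t : Fin n) : seed h t t = ux t := by
  simp [seed]

theorem seed_succ_self (h : Fin n → ℕ) (t : Fin n) : seed h (t + 1) t = -seed h t t := by
  simp [seed]

theorem seed_succ_of_ne (hh : IsHessenberg h) (t c : Fin n) (hc : c ≠ t) :
    seed h (t + 1) c = trop (om h) (seed h t t) (seed h t c) := by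
  have hc' : (c : ℕ) ≠ t := fun e => hc (Fin.ext e)
  rw [seed_self]
  rcases seed_cases h t c with ⟨b, h1, h2, h3, e⟩ | ⟨h1, h2, e⟩ | ⟨b, h1, h2, h3, e⟩ | ⟨h1, h2, e⟩ <;>
    rcases seed_cases h (t + 1) c with ⟨b', k1, k2, k3, e'⟩ | ⟨k1, k2, e'⟩ | ⟨b', k1, k2, k3, e'⟩ |
      ⟨k1, k2, e'⟩ <;> (try omega) <;> rw [e, e']
  · obtain rfl : b = b' := Fin.ext (by omega)
    have htb : t < b := by rw [Fin.lt_def]; omega
    have hbc : b < c := by rw [Fin.lt_def]; omega
    rw [trop_of_nonneg]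
    rw [map_sub, AddMonoidHom.sub_apply, om_ex_ux, om_ex_ux, Wt_gt htb, Wt_gt (htb.trans hbc)]
    by_cases he : IsEdge h t c
    · simp [he, edge_left htb hbc he]
    · simp only [he, if_false]; split_ifs <;> simp
  · have hb : b = t := by
      by_contra hb
      have : (b : ℕ) ≠ t := fun e => hb (Fin.ext e)
      exact k2 b h1 (by omega) h3
    subst hb
    rw [trop_of_neg_one, ← ux_sub, sub_add_cancel]
    rw [map_sub, AddMonoidHom.sub_apply, om_ex_ux, om_ex_ux, Wt_self, Wt_gt h2, if_pos h3,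
      sub_zero]
  · exact absurd k3 (h2 b' k1 (by omega))
  · have htc : t < c := by rw [Fin.lt_def]; omega
    rw [trop_of_nonneg]
    rw [om_ux_ux, Wt_gt htc, if_neg]
    intro he
    have hlt : (c : ℕ) - 1 < n := by omega
    refine h2 ⟨c - 1, hlt⟩ (by simp only; omega) htc ?_
    rcases (show t ≤ ⟨c - 1, hlt⟩ by rw [Fin.le_def]; simp only; omega).eq_or_lt with e1 | e1
    · rwa [← e1]
    · exact edge_right hh e1 (by rw [Fin.lt_def]; simp only; omega) he
  · obtain rfl : b = b' := Fin.ext (by omega)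
    have hbt : b < t := by rw [Fin.lt_def]; omega
    have hcb : c < b := by rw [Fin.lt_def]; omega
    rw [trop_of_nonneg]
    rw [map_sub, AddMonoidHom.sub_apply, om_ex_ux, om_ex_ux, Wt_lt hbt, Wt_lt (hcb.trans hbt)]
    by_cases he : IsEdge h c t
    · simp [he, edge_right hh hcb hbt he]
    · simp only [he, if_false]; split_ifs <;> simp
  · exact absurd h3 (k2 b h1 (by omega))
  · have hb : b' = t := by
      by_contra hb
      have : (b' : ℕ) ≠ t := fun e => hb (Fin.ext e)
      exact h2 b' k1 (by omega) k3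
    subst hb
    rw [trop_of_neg_one, ← ux_sub, neg_add_eq_sub]
    rw [map_neg, AddMonoidHom.neg_apply, om_ux_ux, Wt_lt h1, if_pos k3]
  · have hct : c < t := h1
    rw [trop_of_nonneg]
    rw [map_neg, AddMonoidHom.neg_apply, om_ux_ux, Wt_lt hct, if_neg, neg_zero]
    intro he
    have hlt : (c : ℕ) + 1 < n := by omega
    refine k2 ⟨c + 1, hlt⟩ rfl (by omega) ?_
    rcases (show (⟨c + 1, hlt⟩ : Fin n) ≤ t by rw [Fin.le_def]; simp only; omega).eq_or_lt with
      e1 | e1
    · rwa [e1]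
    · exact edge_left (by rw [Fin.lt_def]; simp only; omega) e1 he

namespace GTh

theorem seed_zero_apply (h : Fin n → ℕ) {c c' : Fin n} (hc : c ≤ c') :
    seed h 0 c (some c') = if c' = c then 1 else 0 := by
  rcases seed_cases h 0 c with ⟨b, h1, -, -, e⟩ | ⟨h1, -, e⟩ | ⟨b, h1, h2, -, e⟩ | ⟨h1, -, e⟩
  · have : c' ≠ b := by
      rintro rfl
      rw [Fin.le_def] at hc
      omega
    simp [e, ex, Pi.single_apply, this]
  · simp [e, ux, Pi.single_apply]
  · omega
  · omega

/-- the upper triangular part of the form -/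
def bet (h : Fin n → ℕ) : Lt n →+ Lt n →+ ℤ :=
  AddMonoidHom.mk' (fun p => AddMonoidHom.mk'
    (fun r => ∑ a, ∑ c, (if a < c ∧ IsEdge h a c then 1 else 0) * p (some a) * r (some c))
    (fun r s => by simp only [Pi.add_apply, mul_add, sum_add_distrib]))
    (fun p q => by
      ext r
      simp only [Pi.add_apply, mul_add, add_mul, sum_add_distrib, AddMonoidHom.mk'_apply,
        AddMonoidHom.add_apply, AddMonoidHom.coe_comp, Function.comp_apply])

theorem bet_apply (p r : Lt n) : bet h p r =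
    ∑ a, ∑ c, (if a < c ∧ IsEdge h a c then 1 else 0) * p (some a) * r (some c) := rfl

theorem om_eq_bet (p r : Lt n) : om h p r = bet h p r - bet h r p := by
  rw [om_apply, bet_apply, bet_apply r p, sum_comm (f := fun a c : Fin n =>
    (if a < c ∧ IsEdge h a c then 1 else 0) * r (some a) * p (some c)), ← sum_sub_distrib]
  refine sum_congr rfl fun a _ => ?_
  rw [← sum_sub_distrib]
  refine sum_congr rfl fun c _ => ?_
  rcases lt_trichotomy a c with hac | rfl | hac
  · simp [Wt_lt hac, hac, not_lt.2 hac.le]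
  · simp [Wt_self]
  · rw [Wt_gt hac]
    simp only [hac, not_lt.2 hac.le, true_and, false_and, if_false]
    split_ifs <;> ring

theorem bet_ex_ex (a c : Fin n) :
    bet h (ex a) (ex c) = if a < c ∧ IsEdge h a c then 1 else 0 := by
  simp [bet_apply, ex, Pi.single_apply]

theorem bet_ux_ux (a : Fin n) : bet h (ux a) (ux a) = 0 := by
  simp [bet_apply, ux, Pi.single_apply]

end GTh

theorem seed_zero_par (h : Fin n → ℕ) (c c' : Fin n) (hp : Par (seed h 0 c) (seed h 0 c')) :
    c = c' := by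
  obtain ⟨a, b, ha, e⟩ := hp
  have e1 := congrFun e (some c')
  simp only [Pi.smul_apply, smul_eq_mul, seed_zero_apply h (le_refl c'), if_true, mul_one] at e1
  rcases lt_trichotomy c c' with hc | hc | hc
  · rw [seed_zero_apply h hc.le, if_neg hc.ne', mul_zero] at e1
    exact absurd e1 ha
  · exact hc
  · have e2 := congrFun e (some c)
    simp only [Pi.smul_apply, smul_eq_mul, seed_zero_apply h (le_refl c), if_true, mul_one,
      seed_zero_apply h hc.le, if_neg hc.ne', mul_zero] at e2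
    rw [← e2, zero_mul] at e1
    exact absurd e1 ha

theorem exists_parity (h : Fin n → ℕ) :
    ∃ pr : Lt n → Bool, IsParity (om h) pr ∧ ∀ c, pr (seed h 0 c) = true := by
  refine ⟨fun p => decide (Odd (bet h p p + p none)), fun p r => ?_, fun c => ?_⟩
  · simp only [map_add, AddMonoidHom.add_apply, Pi.add_apply, om_eq_bet]
    generalize bet h p p = a
    generalize bet h r r = b
    generalize bet h p r = c
    generalize bet h r p = d
    generalize p none = x
    generalize r none = y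
    have e : a + d + (c + b) + (x + y) = (a + x) + (b + y) + (c - d) + 2 * d := by ring
    rw [e]
    generalize a + x = A
    generalize b + y = B
    generalize c - d = C
    simp only [Int.odd_iff]
    rcases Int.emod_two_eq_zero_or_one A with hA | hA <;>
      rcases Int.emod_two_eq_zero_or_one B with hB | hB <;>
      rcases Int.emod_two_eq_zero_or_one C with hC | hC <;>
      simp [hA, hB, hC] <;> omega
  · rw [decide_eq_true_iff]
    rcases seed_cases h 0 c with ⟨b, h1, -, h3, e⟩ | ⟨h1, -, e⟩ | ⟨b, h1, h2, -, e⟩ | ⟨h1, -, e⟩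
    · have hbc : b < c := by rw [Fin.lt_def]; omega
      rw [e]
      simp only [map_sub, AddMonoidHom.sub_apply, bet_ex_ex, lt_irrefl, false_and, if_false, hbc,
        h3, not_lt.2 hbc.le, and_self, if_true]
      simp [ex]
    · rw [e, bet_ux_ux]
      simp [ux]
    · omega
    · omega

namespace GTh

/-- exponents supported on `A` with the central coordinate of `u x_a` -/
def sub (A : Set (Fin n)) : AddSubgroup (Lt n) where
  carrier := {p | (∀ a, a ∉ A → p (some a) = 0) ∧ p none + ∑ a, p (some a) = 0}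
  zero_mem' := by simp
  add_mem' := by
    rintro p q ⟨h1, h2⟩ ⟨h3, h4⟩
    refine ⟨fun a ha => by simp [h1 a ha, h3 a ha], ?_⟩
    simp only [Pi.add_apply, sum_add_distrib]
    omega
  neg_mem' := by
    rintro p ⟨h1, h2⟩
    refine ⟨fun a ha => by simp [h1 a ha], ?_⟩
    simp only [Pi.neg_apply, sum_neg_distrib]
    omega

theorem ux_mem_sub {A : Set (Fin n)} {a : Fin n} (ha : a ∈ A) : ux a ∈ sub A := by
  refine ⟨fun b hb => ?_, by simp [ux, Pi.single_apply]⟩
  have : b ≠ a := by rintro rfl; exact hb ha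
  simp [ux, this]

theorem isUni_ux (a : Fin n) : IsUni (E0 (ux a) : Tor h) := isUni_E0 (by rw [dl_ux]; omega)

/-- the list of factors of the Baxter operator -/
noncomputable abbrev lQ (h : Fin n → ℕ) : List (Tor h) := List.ofFn fun a : Fin n => E0 (ux a)

theorem mem_take {t : ℕ} {x : Tor h} (hx : x ∈ (lQ h).take t) :
    ∃ a : Fin n, (a : ℕ) < t ∧ x = E0 (ux a) := by
  obtain ⟨i, hi, rfl⟩ := List.mem_take_iff_getElem.1 hx
  exact ⟨⟨i, by simp at hi; omega⟩, by simp at hi ⊢; omega, by simp⟩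

theorem mem_drop {t : ℕ} {x : Tor h} (hx : x ∈ (lQ h).drop t) :
    ∃ a : Fin n, t ≤ (a : ℕ) ∧ x = E0 (ux a) := by
  obtain ⟨i, hi, rfl⟩ := List.mem_drop_iff_getElem.1 hx
  exact ⟨⟨t + i, by simp at hi; omega⟩, by simp, by simp⟩

theorem isUni_take (t : ℕ) : IsUni ((lQ h).take t).prod :=
  IsUni.list_prod fun x hx => by obtain ⟨a, -, rfl⟩ := mem_take hx; exact isUni_ux a

theorem isUni_drop (t : ℕ) : IsUni ((lQ h).drop t).prod :=
  IsUni.list_prod fun x hx => by obtain ⟨a, -, rfl⟩ := mem_drop hx; exact isUni_ux a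

theorem supp_sandwich {F P P' : Tor h} {M : AddSubgroup (Lt n)} (hP : Supp P M.toAddSubmonoid)
    (hP' : Supp P' M.toAddSubmonoid) {p : Lt n} (hp : (P * F * P').co p ≠ 0) :
    ∃ f ∈ Function.support F.co, p - f ∈ M := by
  obtain ⟨_, ⟨a, ha, f, hf, rfl⟩, b, hb, rfl⟩ :=
    (hP.mul (B := Function.support F.co) fun _ hp => hp).mul hP' p hp
  refine ⟨f, hf, ?_⟩
  have : a + f + b - f = a + b := by abel
  simp only [this]
  exact M.add_mem ha hb

end GTh

/-- the intermediate conjugates are Laurent polynomials -/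
theorem finite_support_conj {F : Tor h} (hF : IsPoly F) (hQ : F * Qop h = Qop h * F) (t : ℕ) :
    (Function.support (inv ((List.ofFn fun a : Fin n => (E0 (ux a) : Tor h)).take t).prod * F *
      ((List.ofFn fun a : Fin n => (E0 (ux a) : Tor h)).take t).prod).co).Finite := by
  have hP := isUni_take (h := h) t
  have hP' := isUni_drop (h := h) t
  have s1 : Supp ((lQ h).take t).prod (GTh.sub {a : Fin n | (a : ℕ) < t}).toAddSubmonoid :=
    Supp.list_prod fun x hx => by
      obtain ⟨a, ha, rfl⟩ := mem_take hx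
      exact supp_ev (M := (GTh.sub _).toAddSubmonoid) (ux_mem_sub ha) _
  have s2 : Supp ((lQ h).drop t).prod (GTh.sub {a : Fin n | t ≤ (a : ℕ)}).toAddSubmonoid :=
    Supp.list_prod fun x hx => by
      obtain ⟨a, ha, rfl⟩ := mem_drop hx
      exact supp_ev (M := (GTh.sub _).toAddSubmonoid) (ux_mem_sub ha) _
  have hQ' : Qop h = ((lQ h).take t).prod * ((lQ h).drop t).prod :=
    (List.prod_take_mul_prod_drop _ _).symm
  change (Function.support (inv ((lQ h).take t).prod * F * ((lQ h).take t).prod).co).Finite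
  generalize ((lQ h).take t).prod = P at *
  generalize ((lQ h).drop t).prod = P' at *
  have e : inv P * F * P = P' * F * inv P' := by
    calc inv P * F * P = inv P * (F * (P * P')) * inv P' := by
          simp only [mul_assoc, hP'.mul_inv, mul_one]
      _ = P' * F * inv P' := by
          rw [← hQ', hQ, hQ', ← mul_assoc, ← mul_assoc, hP.inv_mul, one_mul]
  refine (hF.1.biUnion fun f _ => hF.1.biUnion fun f' _ => Set.Subsingleton.finite
    (s := {p | p - f ∈ GTh.sub {a : Fin n | (a : ℕ) < t} ∧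
      p - f' ∈ GTh.sub {a : Fin n | t ≤ (a : ℕ)}}) ?_).subset fun p hp => ?_
  · rintro p ⟨h1, h2⟩ q ⟨h3, h4⟩
    have h5 := AddSubgroup.sub_mem _ h1 h3
    have h6 := AddSubgroup.sub_mem _ h2 h4
    rw [sub_sub_sub_cancel_right] at h5 h6
    have h7 : ∀ a, (p - q) (some a) = 0 := fun a => by
      by_cases ha : (a : ℕ) < t
      · exact h6.1 a (not_le.2 ha)
      · exact h5.1 a ha
    have h8 := h5.2
    simp only [h7, sum_const_zero, add_zero] at h8
    rw [← sub_eq_zero]
    funext o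
    cases o
    exacts [h8, h7 _]
  · obtain ⟨f, hf, h1⟩ := supp_sandwich (hP.supp_inv s1) s1 hp
    rw [e] at hp
    obtain ⟨f', hf', h2⟩ := supp_sandwich s2 (hP'.supp_inv s2) hp
    simp only [Set.mem_iUnion]
    exact ⟨f, hf, f', hf', h1, h2⟩

namespace GTh

/-- the orbit of an exponent under the mutations -/
noncomputable def orb (h : Fin n → ℕ) (r : Lt n) : ℕ → Lt n
  | 0 => r
  | t + 1 => if ht : t < n then trop (om h) (ux ⟨t, ht⟩) (orb h r t) else orb h r t

theorem orb_none (r : Lt n) (t : ℕ) (ht : t ≤ n) : orb h r t none ≤ r none ∧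
    (orb h r t none = r none → orb h r t = r ∧ ∀ a : Fin n, (a : ℕ) < t → 0 ≤ om h r (ex a)) := by
  induction t with
  | zero => exact ⟨le_rfl, fun _ => ⟨rfl, fun a ha => absurd ha (Nat.not_lt_zero _)⟩⟩
  | succ t ih =>
    obtain ⟨h1, h2⟩ := ih (by omega)
    have ht' : t < n := ht
    have e : orb h r (t + 1) none =
        orb h r t none - ((-om h (orb h r t) (ux ⟨t, ht'⟩)).toNat : ℤ) := by
      rw [orb, dif_pos ht', trop]
      simp [ux, sub_eq_add_neg]
    refine ⟨by omega, fun h3 => ?_⟩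
    obtain ⟨h4, h5⟩ := h2 (by omega)
    have h6 : 0 ≤ om h r (ux ⟨t, ht'⟩) := by
      rw [h4] at e
      omega
    refine ⟨by rw [orb, dif_pos ht', h4, trop_of_nonneg h6], fun a ha => ?_⟩
    rcases (Nat.lt_succ_iff.1 ha).lt_or_eq with h7 | h7
    · exact h5 a h7
    · obtain rfl : a = ⟨t, ht'⟩ := Fin.ext h7
      rwa [om_ux_right] at h6

theorem exists_theta : ∃ θ : Lt n →+ ℝ, Function.Injective θ :=
  (exists_injective_near 0 ∅ Set.finite_empty).imp fun _ h => h.1

theorem cone_zero {p : Lt n} (hp : p ∈ cone (seed h 0)) : p none ≤ 0 := by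
  induction hp using AddSubmonoid.closure_induction with
  | mem x hx =>
    obtain ⟨c, rfl⟩ := hx
    rcases seed_cases h 0 c with ⟨b, h1, -, h3, e⟩ | ⟨h1, -, e⟩ | ⟨b, h1, h2, -, e⟩ | ⟨h1, -, e⟩
    · simp [e, ex]
    · simp [e, ux]
    · omega
    · omega
  | zero => simp
  | add x y _ _ hx hy => exact add_nonpos hx hy

theorem cone_last {p : Lt n} (hp : p ∈ cone (seed h n)) : 0 ≤ p none := by
  induction hp using AddSubmonoid.closure_induction with
  | mem x hx =>
    obtain ⟨c, rfl⟩ := hx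
    rcases seed_cases h n c with ⟨b, -, h1, h3, e⟩ | ⟨h1, -, e⟩ | ⟨b, h1, h2, -, e⟩ | ⟨h1, -, e⟩
    · omega
    · omega
    · simp [e, ex]
    · simp [e, ux]
  | zero => simp
  | add x y _ _ hx hy => exact add_nonneg hx hy

theorem exists_stage (hh : IsHessenberg h) {F : Tor h} (hF : IsPoly F)
    (hQ : F * Qop h = Qop h * F) {g : Tor h} (hg : Cond (seed h 0) g) (t : ℕ) (ht : t ≤ n) :
    ∃ g' G : Nov (om h) (dl n t), Cond (seed h t) g' ∧
      G.co = (inv ((lQ h).take t).prod * F * ((lQ h).take t).prod).co ∧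
      ∀ r, asym g' G (orb h r t) = asym g F r := by
  induction t with
  | zero => exact ⟨g, F, hg, by simp [Nov.inv_one], fun r => rfl⟩
  | succ t ih =>
    obtain ⟨g', G, h1, h2, h3⟩ := ih (by omega)
    have ht' : t < n := ht
    obtain ⟨g'', h4, h5⟩ := mutation (δ' := dl n (t + 1)) (om_self h) exists_theta
      (e := seed h t) (e' := seed h (t + 1)) (k := ⟨t, ht'⟩) (seed_succ_self h ⟨t, ht'⟩)
      (fun i hi => seed_succ_of_ne hh ⟨t, ht'⟩ i hi) (dl_seed_pos h t) (dl_seed_pos h (t + 1)) h1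
    have hfin := finite_support_conj hF hQ (t + 1)
    have hfin0 : (Function.support G.co).Finite := by
      rw [h2]; exact finite_support_conj hF hQ t
    have hs : seed h t ⟨t, ht'⟩ = ux ⟨t, ht'⟩ := seed_self h ⟨t, ht'⟩
    obtain ⟨G₁, hG₁⟩ : ∃ G₁ : Nov (om h) (dl n t),
        G₁.co = (inv ((lQ h).take (t + 1)).prod * F * ((lQ h).take (t + 1)).prod).co :=
      ⟨⟨_, IsNov.of_finite hfin⟩, rfl⟩
    obtain ⟨G₂, hG₂⟩ : ∃ G₂ : Nov (om h) (dl n (t + 1)),
        G₂.co = (inv ((lQ h).take (t + 1)).prod * F * ((lQ h).take (t + 1)).prod).co :=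
      ⟨⟨_, IsNov.of_finite hfin⟩, rfl⟩
    refine ⟨g'', G₂, h4, hG₂, fun r => ?_⟩
    rw [← h3, orb, dif_pos ht', ← hs]
    refine h5 G G₁ G₂ hfin0 (fun p => congrFun (hG₂.trans hG₁.symm) p) ?_ _
    rw [hs]
    have hE : Rel (AddEquiv.refl _) (E0 (ux ⟨t, ht'⟩) : Tor h)
        (E0 (ux ⟨t, ht'⟩) : Nov (om h) (dl n t)) :=
      rel_ev (T := AddEquiv.refl _) (by rw [dl_ux]; omega)
        (by rw [AddEquiv.refl_apply, dl_ux]; simp only; omega) _
    have hP : ((lQ h).take (t + 1)).prod = ((lQ h).take t).prod * E0 (ux ⟨t, ht'⟩) := by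
      rw [List.prod_take_succ _ _ (by simpa using ht')]
      simp
    have e : E0 (ux ⟨t, ht'⟩) * (inv ((lQ h).take (t + 1)).prod * F * ((lQ h).take (t + 1)).prod) =
        inv ((lQ h).take t).prod * F * ((lQ h).take t).prod * E0 (ux ⟨t, ht'⟩) := by
      rw [hP, (isUni_take t).inv_mul_rev (isUni_ux _)]
      simp only [← mul_assoc, (isUni_ux _).mul_inv, one_mul]
    have r1 : Rel (AddEquiv.refl _)
        (inv ((lQ h).take (t + 1)).prod * F * ((lQ h).take (t + 1)).prod) G₁ :=
      fun p => congrFun hG₁ p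
    have r2 : Rel (AddEquiv.refl _) (inv ((lQ h).take t).prod * F * ((lQ h).take t).prod) G :=
      fun p => congrFun h2 p
    have r3 := Rel.mul (fun _ _ => rfl) hE r1
    rw [e] at r3
    exact r3.unique (Rel.mul (fun _ _ => rfl) r2 hE)

theorem om_eq_sum (r p : Lt n) : om h r p = ∑ c, p (some c) * om h r (ex c) := by
  rw [om_apply, sum_comm]
  refine sum_congr rfl fun c _ => ?_
  simp [om_apply, ex, Pi.single_apply, mul_sum, mul_comm]

theorem om_ex (r : Lt n) (c : Fin n) : om h r (ex c) = ∑ a, Wt h a c * r (some a) := by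
  simp [om_apply, ex, Pi.single_apply]

end GTh

/-- the support of the theta expansion -/
theorem asym_ne_zero (hh : IsHessenberg h) {F : Tor h} (hF : IsPoly F)
    (hQ : F * Qop h = Qop h * F) :
    ∃ g : Tor h, Cond (seed h 0) g ∧ ∀ r, asym g F r ≠ 0 → ∀ a, 0 ≤ om h r (ex a) := by
  obtain ⟨g, hg⟩ := exists_cond (om_self h) exists_theta (seed h 0) (dl_seed_pos h 0)
  refine ⟨g, hg, fun r hr a => ?_⟩
  obtain ⟨g', G, h1, h2, h3⟩ := exists_stage hh hF hQ hg n le_rfl
  have hl : ((lQ h).take n).prod = Qop h := by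
    rw [List.take_of_length_le (by simp)]; rfl
  have hu : IsUni (Qop h) := hl ▸ isUni_take n
  rw [hl, mul_assoc, hQ, ← mul_assoc, hu.inv_mul, one_mul] at h2
  obtain ⟨f, hf, m, hm, e⟩ := supp_chart (A := {p : Lt n | p none = 0}) _ hg.uni hg.supp
    (fun p hp => (hF.2 p hp).1) r hr
  obtain ⟨f', hf', m', hm', e'⟩ := supp_chart (F := G) (A := {p : Lt n | p none = 0}) _ h1.uni h1.supp
    (fun p hp => (hF.2 p (h2 ▸ hp)).1) (orb h r n) ((h3 r).trans_ne hr)
  have a1 : r none ≤ 0 := by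
    have := cone_zero hm
    rw [← e]
    simp only [Pi.add_apply, show f none = 0 from hf]
    omega
  have a2 : 0 ≤ orb h r n none := by
    have := cone_last hm'
    rw [← e']
    simp only [Pi.add_apply, show f' none = 0 from hf']
    omega
  obtain ⟨a3, a4⟩ := orb_none (h := h) r n le_rfl
  exact (a4 (by omega)).2 a a.2

theorem graph_pos (hh : IsHessenberg h) {F : Tor h} (hF : IsPoly F) (hQ : F * Qop h = Qop h * F)
    (hind : ∀ α : Fin n →₀ ℕ, Indep h α.support → F.co (∑ a, (α a : ℤ) • ex a) ∈ Pos)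
    (p : Lt n) : F.co p ∈ Pos := by
  obtain ⟨g, hg, hr⟩ := asym_ne_zero hh hF hQ
  obtain ⟨pr, hpr, hodd⟩ := exists_parity h
  refine theta_pos (om_self h) (dl_seed_pos h 0) hg.uni hg.supp
    (wallPos_of_cond (om_self h) hpr (dl_seed_pos h 0) hodd (seed_zero_par h) hg) (fun r => ?_) p
  by_cases h0 : asym g F r = 0
  · rw [h0]; exact zero_mem _
  have h1 := hr r h0
  have h2 : asym g F r = F.co r := asym_eq_co (om_self h) hg.uni fun p hp => by
    rw [Set.mem_ofPred_eq, om_eq_sum]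
    exact sum_nonneg fun c _ => mul_nonneg ((hF.2 p hp).2 c) (h1 c)
  rw [h2] at h0 ⊢
  obtain ⟨h3, h4⟩ := hF.2 r h0
  have h5 : ∀ c, r (some c) * om h r (ex c) = 0 := fun c =>
    (sum_eq_zero_iff_of_nonneg fun c _ => mul_nonneg (h4 c) (h1 c)).1
      ((om_eq_sum r r).symm.trans (om_self h r)) c (mem_univ c)
  let α : Fin n →₀ ℕ := Finsupp.equivFunOnFinite.symm fun a => (r (some a)).toNat
  have hα : ∀ a, (α a : ℤ) = r (some a) := fun a => Int.toNat_of_nonneg (h4 a)
  have hs : ∀ a, a ∈ α.support ↔ r (some a) ≠ 0 := fun a => by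
    rw [Finsupp.mem_support_iff, ← hα]; simp
  have e : ∑ a, (α a : ℤ) • ex a = r := by
    funext o
    cases o with
    | none => simp [ex, h3]
    | some b => simp [ex, hα, Pi.single_apply]
  rw [← e]
  refine hind α ?_
  by_contra hI
  classical
  have hne : (α.support.filter fun c => ∃ a ∈ α.support, IsEdge h a c).Nonempty := by
    unfold Indep at hI
    push Not at hI
    obtain ⟨a, ha, c, hc, he⟩ := hI
    exact ⟨c, mem_filter.2 ⟨hc, a, ha, he⟩⟩
  obtain ⟨c, hc, hmax⟩ := exists_max_image _ id hne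
  obtain ⟨hc1, a, ha, he⟩ := mem_filter.1 hc
  have hlt : ∀ b ∈ α.support, IsEdge h b c → b < c := fun b hb hbc =>
    lt_of_le_of_ne (hmax b (mem_filter.2 ⟨hb, c, hc1, isEdge_symm.1 hbc⟩))
      fun e => not_isEdge_self h c (e ▸ hbc)
  have h6 : 0 < om h r (ex c) := by
    rw [om_ex]
    refine sum_pos' (fun b _ => ?_) ⟨a, mem_univ _, ?_⟩
    · by_cases hb : b ∈ α.support
      · by_cases hbc : IsEdge h b c
        · rw [Wt_lt (hlt b hb hbc), if_pos hbc, one_mul]
          exact h4 b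
        · rw [Wt, if_neg hbc, zero_mul]
      · rw [not_not.1 ((hs b).not.1 hb), mul_zero]
    · rw [Wt_lt (hlt a ha he), if_pos he, one_mul]
      exact lt_of_le_of_ne (h4 a) ((hs a).1 ha).symm
  exact mul_ne_zero ((hs c).1 hc1) h6.ne' (h5 c)

end Crest.Agent.R59
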