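import Crest.Agent.R59.GraphPhi
import Crest.Agent.R59.GraphTheta
import Crest.Agent.R59.GraphSym
import Crest.Agent.R59.GraphCount

/-! # e-positivity and the permutation model -/

set_option autoImplicit false

namespace Crest.Agent.R59
open Finset Nov Crest.CombinatoricsR.UnitInterval

variable {n : ℕ} {h : Fin n → ℕ}

namespace Fin59

theorem monomial_eq_prod (u : Fin n →₀ ℕ) :
    ∃ l : List ℕ, MvPolynomial.monomial u (1 : ℤ) = (l.map (Ee n)).prod := by
  induction u using Finsupp.induction_linear with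
  | zero => exact ⟨[], by simp⟩
  | add u u' hu hu' =>
    obtain ⟨l, hl⟩ := hu
    obtain ⟨l', hl'⟩ := hu'
    refine ⟨l ++ l', ?_⟩
    rw [List.map_append, List.prod_append, ← hl, ← hl', MvPolynomial.monomial_mul, one_mul]
  | single a b =>
    refine ⟨List.replicate b (a + 1), ?_⟩
    rw [List.map_replicate, List.prod_replicate, ← MvPolynomial.X_pow_eq_monomial]
    simp [Ee]

theorem map_prod_Ee {Φ : MvPolynomial (Fin n) ℤ →+* Tor h} (hΦ : ∀ k, Φ (Ee n k) = Ham h k)
    {N : ℕ} (β : Fin N → ℕ) :
    Φ (∏ j, Ee n (β j)) = (List.ofFn fun j => Ham h (β j)).prod := by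
  rw [← List.prod_ofFn, map_list_prod, List.map_ofFn]
  congr 2
  funext j
  exact hΦ _

theorem esymm_hom {σ R : Type} [Fintype σ] [CommSemiring R] (k : ℕ) :
    (MvPolynomial.esymm σ R k).IsHomogeneous k := by
  refine MvPolynomial.IsHomogeneous.sum _ _ _ fun t ht => ?_
  have := MvPolynomial.IsHomogeneous.prod t (fun i => (MvPolynomial.X i : MvPolynomial σ R))
    (fun _ => 1) fun i _ => MvPolynomial.isHomogeneous_X R i
  rwa [sum_const, smul_eq_mul, mul_one, (mem_powersetCard.1 ht).2] at this

theorem esymmPart_hom {σ R : Type} [Fintype σ] [CommSemiring R] {m : ℕ} (μ : Nat.Partition m) :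
    (MvPolynomial.esymmPart σ R μ).IsHomogeneous m := by
  have key : ∀ s : Multiset ℕ, (s.map (MvPolynomial.esymm σ R)).prod.IsHomogeneous s.sum := by
    intro s
    induction s using Multiset.induction_on with
    | empty => simpa using MvPolynomial.isHomogeneous_one σ R
    | cons a s ih =>
      rw [Multiset.map_cons, Multiset.prod_cons, Multiset.sum_cons]
      exact (esymm_hom a).mul ih
  have := key μ.parts
  rwa [μ.parts_sum] at this

theorem chrom_hom (h : Fin n → ℕ) (N : ℕ) : (chromaticQSym h N).IsHomogeneous n := by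
  refine MvPolynomial.IsHomogeneous.sum _ _ _ fun f _ => MvPolynomial.IsHomogeneous.C_mul ?_ _
  have := MvPolynomial.IsHomogeneous.prod univ
    (fun a => (MvPolynomial.X (f a) : MvPolynomial (Fin N) (Polynomial ℤ)))
    (fun _ => 1) fun i _ => MvPolynomial.isHomogeneous_X _ _
  simpa using this

theorem coeff_esymmPart {N m : ℕ} (μ : Nat.Partition m) (β : Fin N →₀ ℕ) :
    MvPolynomial.coeff β (MvPolynomial.esymmPart (Fin N) (Polynomial ℤ) μ) =
      ((MvPolynomial.coeff β (MvPolynomial.esymmPart (Fin N) ℤ μ) : ℤ) : Polynomial ℤ) := by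
  have : MvPolynomial.esymmPart (Fin N) (Polynomial ℤ) μ =
      MvPolynomial.map (Int.castRingHom (Polynomial ℤ)) (MvPolynomial.esymmPart (Fin N) ℤ μ) := by
    rw [MvPolynomial.esymmPart, MvPolynomial.esymmPart, map_multiset_prod, Multiset.map_map]
    congr 2
    funext k
    exact (MvPolynomial.map_esymm _ _ k _).symm
  rw [this, MvPolynomial.coeff_map]
  rfl

theorem co_intCast_mul (a : ℤ) (F : Tor h) (p : Lt n) : ((a : Tor h) * F).co p = a * F.co p := by
  rw [← map_intCast (algebraMap K (Tor h)) a, ← Algebra.smul_def, co_smul]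

theorem assign_aux {A B : Type} [DecidableEq A] [Fintype B] [DecidableEq B] (d : A → ℕ)
    (θ₀ : A → B) (s : Finset A) : ∀ c : B → Polynomial ℤ, (∀ b i, 0 ≤ (c b).coeff i) →
      ∑ b, c b = ∑ a ∈ s, Polynomial.X ^ d a →
      ∃ θ : A → B, ∀ b, c b = ∑ a ∈ s, if θ a = b then Polynomial.X ^ d a else 0 := by
  induction s using Finset.induction_on with
  | empty =>
    intro c hc hs
    refine ⟨θ₀, fun b => ?_⟩
    ext i
    have := congrArg (fun p => Polynomial.coeff p i) hs
    simp only [Polynomial.finsetSum_coeff, sum_empty] at this ⊢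
    exact (sum_eq_zero_iff_of_nonneg fun b _ => hc b i).1 this b (mem_univ b)
  | insert a s ha ih =>
    intro c hc hs
    rw [sum_insert ha] at hs
    obtain ⟨b₀, hb₀⟩ : ∃ b₀, 1 ≤ (c b₀).coeff (d a) := by
      by_contra hcon
      push Not at hcon
      have h1 := congrArg (fun p => Polynomial.coeff p (d a)) hs
      simp only [Polynomial.finsetSum_coeff, Polynomial.coeff_add, Polynomial.coeff_X_pow_self]
        at h1
      have h2 : ∑ b, (c b).coeff (d a) ≤ 0 := sum_nonpos fun b _ => by
        have := hcon b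
        omega
      have h3 : 0 ≤ ∑ x ∈ s, ((Polynomial.X : Polynomial ℤ) ^ d x).coeff (d a) :=
        sum_nonneg fun x _ => by
          rw [Polynomial.coeff_X_pow]
          split_ifs <;> simp
      omega
    obtain ⟨θ, hθ⟩ := ih (fun b => c b - if b₀ = b then Polynomial.X ^ d a else 0)
      (fun b i => by
        rw [Polynomial.coeff_sub]
        have := hc b i
        split_ifs with hb
        · subst hb
          rw [Polynomial.coeff_X_pow]
          split_ifs with hi
          · subst hi
            omega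
          · omega
        · simpa using this)
      (by rw [sum_sub_distrib, hs]; simp)
    refine ⟨Function.update θ a b₀, fun b => ?_⟩
    rw [sum_insert ha, Function.update_self, ← sub_eq_iff_eq_add', hθ b]
    refine sum_congr rfl fun x hx => ?_
    rw [Function.update_of_ne (fun e => ha (by rw [← e]; exact hx))]

end Fin59

open Fin59 in
theorem exists_coeffs (hh : IsHessenberg h) :
    ∃ c : Nat.Partition n → Polynomial ℤ, (∀ μ i, 0 ≤ (c μ).coeff i) ∧
      (∑ μ, c μ = ∑ σ ∈ descentSet h, Polynomial.X ^ ginv h σ) ∧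
      ∀ N : ℕ, chromaticQSym h N =
        ∑ μ, MvPolynomial.C (c μ) * MvPolynomial.esymmPart (Fin N) (Polynomial ℤ) μ := by
  obtain ⟨Φ, hE, hP, hQ, hco⟩ := exists_Phi hh
  obtain ⟨M, H, hM, hC, H0, Hrec, Hsum⟩ := exists_monomial_polys n
  have hC' : ∀ a : ℤ, Φ (MvPolynomial.C a) = (a : Tor h) := fun a => by simp
  have range : ∀ P, ∃ c : Polynomial ℤ,
      Polynomial.aeval (v ^ 2) c = v ^ (nE h : ℤ) * (Φ P).co (full n) := fun P => by
    induction P using MvPolynomial.induction_on' with
    | monomial u a =>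
      obtain ⟨l, hl⟩ := monomial_eq_prod u
      have e : MvPolynomial.monomial u a = MvPolynomial.C a * ∏ j : Fin l.length, Ee n l[j.1] := by
        rw [Fin.prod_univ_fun_getElem, ← hl, MvPolynomial.C_mul_monomial, mul_one]
      have := co_prod_Ham h l.length (Finsupp.equivFunOnFinite.symm fun j => l[j.1])
      simp only [Finsupp.coe_equivFunOnFinite_symm] at this
      refine ⟨(a : Polynomial ℤ) * MvPolynomial.coeff
        (Finsupp.equivFunOnFinite.symm fun j : Fin l.length => l[j.1]) (chromaticQSym h l.length), ?_⟩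
      rw [map_mul, ← this, e, map_mul, hC', map_prod_Ee hE, co_intCast_mul, map_intCast]
      ring
    | add p q hp hq =>
      obtain ⟨c, hc⟩ := hp
      obtain ⟨c', hc'⟩ := hq
      exact ⟨c + c', by rw [map_add, map_add, co_add, hc, hc', mul_add]⟩
  choose c hc using fun μ => range (M μ)
  have hW : ∀ m, Φ (H m) = Wd h m := fun m => by
    induction m using Nat.strong_induction_on with
    | _ m ih =>
      rcases Nat.eq_zero_or_pos m with rfl | hm
      · rw [H0, map_one, Wd_zero]
      · have h1 := congrArg Φ (Hrec m hm)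
        have h2 := Ham_Wd hh m hm
        rw [map_sum, map_zero, sum_range_succ'] at h1
        rw [sum_range_succ'] at h2
        have h3 : ∑ k ∈ Finset.range m, Φ ((-1) ^ (k + 1) * Ee n (k + 1) * H (m - (k + 1))) =
            ∑ k ∈ Finset.range m, (-1) ^ (k + 1) * Ham h (k + 1) * Wd h (m - (k + 1)) :=
          sum_congr rfl fun k _ => by
            rw [map_mul, map_mul, map_pow, map_neg, map_one, hE, ih _ (by omega)]
        rw [h3, ← h2, add_right_inj, map_mul, map_mul, hE, Phi.Ham_zero] at h1
        simpa using h1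
  refine ⟨c, fun μ i => coeff_nonneg_of_mem_Pos (c μ) 0 ?_ i, aeval_v_sq_injective ?_,
    fun N => ?_⟩
  · rw [zpow_zero, one_mul, hc]
    refine mul_mem (v_zpow_mem_Pos _) (graph_pos hh (hP _) (hQ _) (fun α hα => ?_) _)
    rw [hco _ α hα]
    obtain ⟨k, hk⟩ := Int.eq_ofNat_of_zero_le (hM μ α)
    rw [hk, Int.cast_natCast]
    exact natCast_mem _ k
  · simp only
    rw [← co_Wd, ← hW, ← Hsum, map_sum, map_sum, co_sum, mul_sum]
    exact sum_congr rfl fun μ _ => hc μ
  · refine MvPolynomial.ext _ _ fun β => ?_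
    by_cases hβ : Finsupp.degree β = n
    · refine aeval_v_sq_injective ?_
      simp only
      rw [← co_prod_Ham, ← map_prod_Ee hE, hC N β hβ, map_sum, co_sum, mul_sum,
        MvPolynomial.coeff_sum, map_sum]
      refine sum_congr rfl fun μ _ => ?_
      rw [map_mul, hC', co_intCast_mul, MvPolynomial.coeff_C_mul, coeff_esymmPart, map_mul, hc,
        map_intCast]
      ring
    · rw [(chrom_hom h N).coeff_eq_zero hβ,
        (MvPolynomial.IsHomogeneous.sum _ _ n fun μ _ => (esymmPart_hom μ).C_mul _).coeff_eq_zero hβ]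

/-- distributing monomials among nonnegative polynomials -/
theorem exists_assignment {A B : Type} [Fintype A] [Fintype B] [DecidableEq B] (d : A → ℕ)
    (c : B → Polynomial ℤ) (hc : ∀ b i, 0 ≤ (c b).coeff i)
    (hs : ∑ b, c b = ∑ a, Polynomial.X ^ d a) :
    ∃ θ : A → B, ∀ b, c b = ∑ a ∈ univ.filter (fun a => θ a = b), Polynomial.X ^ d a := by
  classical
  obtain ⟨θ₀⟩ : Nonempty (A → B) := by
    rcases isEmpty_or_nonempty B with hB | hB
    · have := congrArg (Polynomial.eval 1) hs
      simp only [univ_eq_empty, sum_empty, Polynomial.eval_zero, Polynomial.eval_finsetSum,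
        Polynomial.eval_pow, Polynomial.eval_X, one_pow, sum_const, card_univ, nsmul_eq_mul,
        mul_one] at this
      have hA : IsEmpty A := Fintype.card_eq_zero_iff.1 (by exact_mod_cast this.symm)
      exact ⟨isEmptyElim⟩
    · infer_instance
  obtain ⟨θ, hθ⟩ := Fin59.assign_aux d θ₀ univ c hc hs
  exact ⟨θ, fun b => by rw [hθ b, sum_filter]⟩

theorem final (n : ℕ) (h : Fin n → ℕ) (hh : IsHessenberg h) :
    ∃ θ : {σ : Equiv.Perm (Fin n) // σ ∈ descentSet h} → Nat.Partition n,
      ∀ N : ℕ, chromaticQSym h N =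
        ∑ σ : {σ : Equiv.Perm (Fin n) // σ ∈ descentSet h},
          MvPolynomial.C (Polynomial.X ^ ginv h σ.1) *
            MvPolynomial.esymmPart (Fin N) (Polynomial ℤ) (θ σ) := by
  obtain ⟨c, h1, h2, h3⟩ := exists_coeffs hh
  obtain ⟨θ, hθ⟩ := exists_assignment
    (fun σ : {σ : Equiv.Perm (Fin n) // σ ∈ descentSet h} => ginv h σ.1) c h1
    (h2.trans (Finset.sum_subtype _ (fun _ => Iff.rfl) _))
  refine ⟨θ, fun N => ?_⟩
  rw [h3, ← Finset.sum_fiberwise univ θ]
  refine sum_congr rfl fun μ _ => ?_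
  rw [hθ μ, map_sum, sum_mul]
  refine sum_congr rfl fun σ hσ => ?_
  rw [(mem_filter.1 hσ).2]

end Crest.Agent.R59
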