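import Crest.Agent.R59.Ev
import Crest.Prelude.Def_ChromaticQSym

/-! # The quantum torus of a natural unit interval graph -/

set_option autoImplicit false

namespace Crest.Agent.R59
open Finset Nov Crest.CombinatoricsR.UnitInterval

variable {n : ℕ}

/-- exponent lattice: one coordinate per vertex and one central coordinate `b = u⁻¹` -/
abbrev Lt (n : ℕ) : Type := Option (Fin n) → ℤ

/-- signed adjacency -/
def Wt (h : Fin n → ℕ) (a c : Fin n) : ℤ := if IsEdge h a c then (if a < c then 1 else -1) else 0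

/-- the commutation form -/
def om (h : Fin n → ℕ) : Lt n →+ Lt n →+ ℤ :=
  AddMonoidHom.mk' (fun p => AddMonoidHom.mk'
    (fun r => ∑ a, ∑ c, Wt h a c * p (some a) * r (some c))
    (fun r s => by simp [mul_add, sum_add_distrib]))
    (fun p q => by ext r; simp [mul_add, add_mul, sum_add_distrib])

theorem om_apply (h : Fin n → ℕ) (p r : Lt n) :
    om h p r = ∑ a, ∑ c, Wt h a c * p (some a) * r (some c) := rfl

/-- exponent of `x_a` -/
def ex (a : Fin n) : Lt n := Pi.single (some a) 1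

/-- exponent of `u x_a` -/
def ux (a : Fin n) : Lt n := Pi.single (some a) 1 - Pi.single none 1

/-- exponent of `x_0 ⋯ x_(n-1)` -/
def full (n : ℕ) : Lt n := ∑ a, ex a

/-- gradings: vertices `< t` are negative, vertices `≥ t` positive -/
def dl (n t : ℕ) : Lt n →+ ℤ :=
  AddMonoidHom.mk' (fun p => ∑ c : Fin n, (2 * (c : ℤ) + 1 - 2 * t) * p (some c))
    (fun p q => by simp [mul_add, sum_add_distrib])

theorem dl_apply (t : ℕ) (p : Lt n) :
    dl n t p = ∑ c : Fin n, (2 * (c : ℤ) + 1 - 2 * t) * p (some c) := rfl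

/-- the Novikov ring in which everything happens -/
abbrev Tor (h : Fin n → ℕ) : Type := Nov (om h) (dl n 0)

/-- independent sets -/
def Indep (h : Fin n → ℕ) (S : Finset (Fin n)) : Prop := ∀ a ∈ S, ∀ c ∈ S, ¬ IsEdge h a c

instance (h : Fin n → ℕ) : DecidablePred (Indep h) := fun _ => by unfold Indep; infer_instance

/-- the Hamiltonians -/
noncomputable def Ham (h : Fin n → ℕ) (k : ℕ) : Tor h :=
  ∑ S ∈ (powersetCard k univ).filter (Indep h), single (∑ a ∈ S, ex a) 1

/-- the Baxter operator -/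
noncomputable def Qop (h : Fin n → ℕ) : Tor h := (List.ofFn fun a : Fin n => E0 (ux a)).prod

/-- words without ascent in the poset -/
noncomputable def Wd (h : Fin n → ℕ) (m : ℕ) : Tor h :=
  ∑ w ∈ (univ : Finset (Fin m → Fin n)).filter
      (fun w => ∀ i j : Fin m, j.val = i.val + 1 → w i < w j → IsEdge h (w i) (w j)),
    (List.ofFn fun i => (single (ex (w i)) 1 : Tor h)).prod

/-- number of edges -/
def nE (h : Fin n → ℕ) : ℕ :=
  (univ.filter (fun p : Fin n × Fin n => p.1 < p.2 ∧ IsEdge h p.1 p.2)).card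

/-- polynomial in the vertex variables -/
def IsPoly {h : Fin n → ℕ} (F : Tor h) : Prop :=
  (Function.support F.co).Finite ∧ ∀ p, F.co p ≠ 0 → p none = 0 ∧ ∀ a, 0 ≤ p (some a)

/-- the formal elementary symmetric functions `E_0 = 1, E_1, …, E_n, 0, 0, …` -/
noncomputable def Ee (n k : ℕ) : MvPolynomial (Fin n) ℤ :=
  if k = 0 then 1 else if hk : k - 1 < n then MvPolynomial.X ⟨k - 1, hk⟩ else 0

/-- `E_k ↦ e_k(t_1, …, t_n)` -/
noncomputable def toSym (n : ℕ) : MvPolynomial (Fin n) ℤ →ₐ[ℤ] MvPolynomial (Fin n) ℤ :=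
  MvPolynomial.aeval (fun k : Fin n => MvPolynomial.esymm (Fin n) ℤ (k + 1))

theorem isEdge_symm {h : Fin n → ℕ} {a c : Fin n} : IsEdge h a c ↔ IsEdge h c a := by
  unfold IsEdge; tauto

theorem not_isEdge_self (h : Fin n → ℕ) (a : Fin n) : ¬ IsEdge h a a := by
  unfold IsEdge; simp

theorem Wt_antisymm (h : Fin n → ℕ) (a c : Fin n) : Wt h c a = -Wt h a c := by
  unfold Wt
  by_cases he : IsEdge h a c
  · have hne : a ≠ c := fun e => not_isEdge_self h a (e ▸ he)
    rw [if_pos he, if_pos (isEdge_symm.1 he)]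
    rcases lt_or_gt_of_ne hne with hl | hl
    · simp [hl, not_lt.2 hl.le]
    · simp [hl, not_lt.2 hl.le]
  · rw [if_neg he, if_neg (fun h' => he (isEdge_symm.1 h'))]; simp

theorem om_self (h : Fin n → ℕ) (p : Lt n) : om h p p = 0 := by
  have : om h p p = -om h p p := by
    conv_lhs => rw [om_apply, sum_comm]
    rw [om_apply, ← sum_neg_distrib]
    refine sum_congr rfl fun a _ => ?_
    rw [← sum_neg_distrib]
    refine sum_congr rfl fun c _ => ?_
    rw [Wt_antisymm h a c]; ring
  omega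

theorem om_ex_ex (h : Fin n → ℕ) (a c : Fin n) : om h (ex a) (ex c) = Wt h a c := by
  simp [om_apply, ex, Pi.single_apply]

theorem om_ux_left (h : Fin n → ℕ) (a : Fin n) (r : Lt n) : om h (ux a) r = om h (ex a) r := by
  simp [om_apply, ex, ux]

theorem om_ux_right (h : Fin n → ℕ) (a : Fin n) (r : Lt n) : om h r (ux a) = om h r (ex a) := by
  simp [om_apply, ex, ux]

theorem dl_ex (t : ℕ) (a : Fin n) : dl n t (ex a) = 2 * (a : ℤ) + 1 - 2 * t := by
  simp [dl_apply, ex, Pi.single_apply]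

theorem dl_ux (t : ℕ) (a : Fin n) : dl n t (ux a) = 2 * (a : ℤ) + 1 - 2 * t := by
  simp [dl_apply, ux, Pi.single_apply]

end Crest.Agent.R59
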