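import Crest.Agent.R59.GraphDefs

/-! # The Hamiltonians commute: abstract recursion and its application -/

set_option autoImplicit false

namespace Crest.Agent.R59
open Finset Nov Crest.CombinatoricsR.UnitInterval

namespace HC

theorem down (n : ℕ) (P : ℕ → Prop) (h0 : ∀ j, n ≤ j → P j)
    (hs : ∀ j, (∀ i, j < i → P i) → P j) : ∀ j, P j := by
  intro j
  induction hd : n - j using Nat.strong_induction_on generalizing j with
  | _ d ih =>
    apply hs
    intro i hi
    by_cases hn : n ≤ i
    · exact h0 i hn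
    · exact ih (n - i) (by omega) i rfl

section Abstract
variable {A R : Type*} [CommRing A] [Ring R] [Algebra A R]

/-- the relations -/
structure Rel (h : ℕ → ℕ) (x : ℕ → R) (c : A) : Prop where
  mono : Monotone h
  lt : ∀ j, j < h j
  adj : ∀ a b, a < b → b < h a → x b * x a = c • (x a * x b)
  far : ∀ a b, h a ≤ b → x b * x a = x a * x b

/-- the recursion -/
structure Rec (n : ℕ) (h : ℕ → ℕ) (x : ℕ → R) (t : A) (I : ℕ → R) : Prop where
  top : ∀ j, n ≤ j → I j = 1
  step : ∀ j, I j = I (j + 1) + t • (x j * I (h j))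

variable {n : ℕ} {h : ℕ → ℕ} {x : ℕ → R} {c t z w : A} {I Z W : ℕ → R}

theorem Rec.tele (hI : Rec n h x t I) {m m' : ℕ} (hm : m ≤ m') :
    I m = I m' + t • ∑ b ∈ Ico m m', x b * I (h b) := by
  induction m', hm using Nat.le_induction with
  | base => simp
  | succ m' hm ih =>
    rw [sum_Ico_succ_top hm, ih, hI.step m', smul_add]
    abel

theorem Rec.comm (hx : Rel h x c) (hI : Rec n h x t I) (j : ℕ) :
    ∀ m, h j ≤ m → I m * x j = x j * I m := by
  refine down n (fun m => h j ≤ m → I m * x j = x j * I m) ?_ ?_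
  · intro m hm _
    rw [hI.top m hm]; simp
  · intro m ih hm
    have h1 := ih (m + 1) (by omega) (by omega)
    have h2 := ih (h m) (hx.lt m) (le_trans hm (hx.lt m).le)
    rw [hI.step m, add_mul, mul_add, h1, smul_mul_assoc, mul_smul_comm, mul_assoc, h2,
      ← mul_assoc, hx.far j m hm, mul_assoc]

theorem Rec.qcomm (hx : Rel h x c) (hI : Rec n h x t I) {j m : ℕ} (h1 : j < m) (h2 : m ≤ h j) :
    I m * x j = x j * I (h j) + c • (x j * (I m - I (h j))) := by
  have e : I m - I (h j) = t • ∑ b ∈ Ico m (h j), x b * I (h b) := by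
    rw [hI.tele h2]; abel
  rw [e]
  conv_lhs => rw [hI.tele h2]
  rw [add_mul, hI.comm hx j (h j) le_rfl, smul_mul_assoc, mul_smul_comm, smul_comm c t, sum_mul,
    mul_sum, smul_sum (r := c)]
  refine congrArg (fun y => x j * I (h j) + t • y) (sum_congr rfl fun b hb => ?_)
  rw [mem_Ico] at hb
  have hjb : j < b := by omega
  rw [mul_assoc, hI.comm hx j (h b) (hx.mono hjb.le), ← mul_assoc, hx.adj j b hjb hb.2,
    smul_mul_assoc, mul_assoc]

/-- the claim `S(j, m)` -/
def S (h : ℕ → ℕ) (x : ℕ → R) (z w : A) (Z W : ℕ → R) (j m : ℕ) : Prop :=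
  w • (Z m * (x j * W (h j)) - x j * W (h j) * Z m) +
    z • (x j * Z (h j) * W m - W m * (x j * Z (h j))) = 0

theorem U_of (hZ : Rec n h x z Z) (hW : Rec n h x w W) {m m' : ℕ} (hm : m ≤ m')
    (hC : Z m' * W m' = W m' * Z m') (hS : ∀ b ∈ Ico m m', S h x z w Z W b m') :
    Z m' * W m - W m * Z m' + (Z m * W m' - W m' * Z m) = 0 := by
  have := sum_eq_zero hS
  simp only [sum_add_distrib, ← smul_sum, sum_sub_distrib, ← mul_sum, ← sum_mul] at this
  rw [hZ.tele hm, hW.tele hm]
  simp only [mul_add, add_mul, smul_mul_assoc, mul_smul_comm, hC]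
  rw [← this]
  simp only [smul_sub]
  abel

theorem S_of (hx : Rel h x c) (hZ : Rec n h x z Z) (hW : Rec n h x w W) {j m : ℕ} (h1 : j < m)
    (h2 : m ≤ h j) (hC : ∀ i, j < i → Z i * W i = W i * Z i)
    (hU : ∀ m m', j < m → m ≤ m' → m' ≤ h m →
      Z m' * W m - W m * Z m' + (Z m * W m' - W m' * Z m) = 0) :
    S h x z w Z W j m := by
  have key : ∀ a ∈ Ico m (h j),
      c • (x a * Z (h a) * W (h j)) - W (h j) * (x a * Z (h a)) +
        (Z (h j) * (x a * W (h a)) - c • (x a * W (h a) * Z (h j))) = 0 := by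
    intro a ha
    rw [mem_Ico] at ha
    have hja : j < a := by omega
    have hle : h j ≤ h a := hx.mono hja.le
    have e1 := hW.qcomm hx ha.2 hle
    have e2 := hZ.qcomm hx ha.2 hle
    have e3 := hC (h a) (lt_trans hja (hx.lt a))
    have e4 := hU (h j) (h a) (hx.lt j) hle (hx.mono ha.2.le)
    rw [← mul_assoc (W (h j)), ← mul_assoc (Z (h j)), e1, e2]
    have e5 : c • (x a * (Z (h a) * W (h j) - W (h j) * Z (h a) +
        (Z (h j) * W (h a) - W (h a) * Z (h j)))) = 0 := by rw [e4]; simp
    rw [← e5]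
    simp only [add_mul, mul_add, mul_sub, sub_mul, smul_mul_assoc, mul_assoc, smul_add, smul_sub, e3]
    abel
  have ks := sum_eq_zero key
  simp only [sum_add_distrib, ← smul_sum, sum_sub_distrib, ← mul_sum, ← sum_mul] at ks
  set DZ := ∑ a ∈ Ico m (h j), x a * Z (h a) with hDZ
  set DW := ∑ a ∈ Ico m (h j), x a * W (h a) with hDW
  have tZ : Z m = Z (h j) + z • DZ := hZ.tele h2
  have tW : W m = W (h j) + w • DW := hW.tele h2
  have e1 := hW.qcomm hx h1 h2
  have e2 := hZ.qcomm hx h1 h2
  have e3 := hC (h j) (hx.lt j)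
  unfold S
  rw [← mul_assoc (Z m), ← mul_assoc (W m), e1, e2, tZ, tW]
  have e5 : (z * w) • (x j * (c • (DZ * W (h j)) - W (h j) * DZ +
      (Z (h j) * DW - c • (DW * Z (h j))))) = 0 := by rw [ks]; simp
  rw [← e5]
  simp only [add_mul, mul_add, mul_sub, smul_mul_assoc, mul_smul_comm, mul_assoc, smul_add,
    smul_sub, e3, add_sub_cancel_left, smul_smul]
  module

theorem comm_main (hx : Rel h x c) (hZ : Rec n h x z Z) (hW : Rec n h x w W) (j : ℕ) :
    Z j * W j = W j * Z j := by
  have := down n (fun j => Z j * W j = W j * Z j ∧ ∀ m, j < m → m ≤ h j → S h x z w Z W j m)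
    ?_ ?_ j
  · exact this.1
  · intro j hj
    refine ⟨by rw [hZ.top j hj]; simp, fun m h1 _ => ?_⟩
    unfold S
    rw [hZ.top m (by omega), hW.top m (by omega)]
    simp
  · intro j ih
    have hS : ∀ m, j < m → m ≤ h j → S h x z w Z W j m := by
      intro m h1 h2
      refine S_of hx hZ hW h1 h2 (fun i hi => (ih i hi).1) fun m m' h3 h4 h5 => ?_
      refine U_of hZ hW h4 (ih m' (by omega)).1 fun b hb => ?_
      rw [mem_Ico] at hb
      exact (ih b (by omega)).2 m' hb.2 (le_trans h5 (hx.mono hb.1))
    refine ⟨?_, hS⟩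
    have e1 := hS (j + 1) (by omega) (hx.lt j)
    have e2 := (ih (j + 1) (by omega)).1
    have e3 := (ih (h j) (hx.lt j)).1
    have e4 := hZ.comm hx j (h j) le_rfl
    have e5 := hW.comm hx j (h j) le_rfl
    have e6 : x j * Z (h j) * (x j * W (h j)) = x j * W (h j) * (x j * Z (h j)) := by
      calc _ = x j * (Z (h j) * x j) * W (h j) := by simp only [mul_assoc]
        _ = x j * x j * (W (h j) * Z (h j)) := by rw [e4, ← e3]; simp only [mul_assoc]
        _ = x j * (W (h j) * x j) * Z (h j) := by rw [e5]; simp only [mul_assoc]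
        _ = _ := by simp only [mul_assoc]
    unfold S at e1
    rw [hZ.step j, hW.step j, ← sub_eq_zero, ← e1]
    simp only [add_mul, mul_add, smul_mul_assoc, mul_smul_comm, smul_add, smul_sub, e2, e6,
      smul_smul]
    module

end Abstract

theorem coeff_zero_of_forall {F V : Type*} [Field F] [Infinite F] [AddCommGroup V] [Module F V]
    (N : ℕ) (f : ℕ → V) (hf : ∀ t : F, ∑ k ∈ range N, t ^ k • f k = 0) :
    ∀ k < N, f k = 0 := by
  intro k hk
  rw [← Module.forall_dual_apply_eq_zero_iff F]
  intro φ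
  have hp : (∑ k ∈ range N, Polynomial.monomial k (φ (f k)) : Polynomial F) = 0 := by
    apply Polynomial.funext
    intro t
    have := congrArg φ (hf t)
    simp only [map_sum, map_smul, smul_eq_mul, map_zero] at this
    rw [Polynomial.eval_finsetSum, Polynomial.eval_zero, ← this]
    exact sum_congr rfl fun k _ => by rw [Polynomial.eval_monomial, mul_comm]
  have := congrArg (fun p => Polynomial.coeff p k) hp
  simpa [Polynomial.coeff_monomial, hk] using this

variable {n : ℕ}

/-- extension of `h` to `ℕ` -/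
def hx (h : Fin n → ℕ) (j : ℕ) : ℕ := if hj : j < n then h ⟨j, hj⟩ else j + 1

/-- the variables -/
noncomputable def xx (h : Fin n → ℕ) (j : ℕ) : Tor h :=
  if hj : j < n then single (ex ⟨j, hj⟩) 1 else 0

/-- the independence polynomials -/
noncomputable def II (h : Fin n → ℕ) (t : K) (j : ℕ) : Tor h :=
  ∑ S ∈ univ.filter (fun S : Finset (Fin n) => Indep h S ∧ ∀ a ∈ S, j ≤ a.val),
    t ^ S.card • single (∑ a ∈ S, ex a) 1

variable {h : Fin n → ℕ}

theorem single_smul {L : Type} [AddCommGroup L] {ω : L →+ L →+ ℤ} {δ : L →+ ℤ} (p : L) (c d : K) :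
    (single p (c * d) : Nov ω δ) = c • single p d := by
  refine ext' fun q => ?_
  rw [co_smul, co_single, co_single]
  split_ifs <;> simp

theorem rel (hh : IsHessenberg h) : Rel (hx h) (xx h) (v ^ (-2 : ℤ)) where
  mono := by
    intro a b hab
    unfold hx
    by_cases hb : b < n
    · have ha : a < n := by omega
      rw [dif_pos ha, dif_pos hb]
      exact hh.1 (show (⟨a, ha⟩ : Fin n) ≤ ⟨b, hb⟩ from hab)
    · rw [dif_neg hb]
      by_cases ha : a < n
      · rw [dif_pos ha]
        have := (hh.2 ⟨a, ha⟩).2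
        omega
      · rw [dif_neg ha]; omega
  lt := by
    intro j
    unfold hx
    split_ifs with hj
    · exact (hh.2 ⟨j, hj⟩).1
    · omega
  adj := by
    intro a b hab hb
    unfold xx
    by_cases hbn : b < n
    · have ha : a < n := by omega
      rw [hx, dif_pos ha] at hb
      have he : IsEdge h ⟨a, ha⟩ ⟨b, hbn⟩ := Or.inl ⟨hab, hb⟩
      have hw : Wt h ⟨a, ha⟩ ⟨b, hbn⟩ = 1 := by
        rw [Wt, if_pos he, if_pos (show (⟨a, ha⟩ : Fin n) < ⟨b, hbn⟩ from hab)]
      rw [dif_pos ha, dif_pos hbn, single_mul_single, single_mul_single, om_ex_ex, om_ex_ex,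
        Wt_antisymm h ⟨a, ha⟩, hw, ← single_smul, add_comm]
      congr 1
      simp only [mul_one]
      rw [← zpow_add₀ v_ne_zero]
      norm_num
    · rw [dif_neg hbn]; simp
  far := by
    intro a b hb
    unfold xx
    by_cases hbn : b < n
    · by_cases ha : a < n
      · rw [hx, dif_pos ha] at hb
        have hlt := (hh.2 ⟨a, ha⟩).1
        have he : ¬ IsEdge h ⟨a, ha⟩ ⟨b, hbn⟩ := by
          rintro (⟨_, h2⟩ | ⟨h1, _⟩)
          · simp only at h2; omega
          · have : b < a := h1
            simp only at hlt; omega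
        have hw : Wt h ⟨a, ha⟩ ⟨b, hbn⟩ = 0 := by rw [Wt, if_neg he]
        rw [dif_pos ha, dif_pos hbn, single_mul_single, single_mul_single, om_ex_ex, om_ex_ex,
          Wt_antisymm h ⟨a, ha⟩, hw, add_comm, neg_zero]
      · rw [dif_neg ha]; simp
    · rw [dif_neg hbn]; simp

theorem indep_empty : Indep h ∅ := by intro a ha; simp at ha

theorem II_top (t : K) (j : ℕ) (hj : n ≤ j) : II h t j = 1 := by
  have : univ.filter (fun S : Finset (Fin n) => Indep h S ∧ ∀ a ∈ S, j ≤ a.val) = {∅} := by
    ext S
    simp only [mem_filter, mem_univ, true_and, mem_singleton]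
    constructor
    · rintro ⟨_, h2⟩
      rw [eq_empty_iff_forall_notMem]
      intro a ha
      have := h2 a ha
      have := a.2
      omega
    · rintro rfl
      exact ⟨indep_empty, by simp⟩
  rw [II, this]
  simp [one_def]

theorem rec (hh : IsHessenberg h) (t : K) : Rec n (hx h) (xx h) t (II h t) where
  top := II_top t
  step := by
    intro j
    by_cases hj : j < n
    swap
    · rw [II_top t j (by omega), II_top t (j + 1) (by omega), xx, dif_neg hj]; simp
    set a₀ : Fin n := ⟨j, hj⟩ with ha₀
    have hlt : j + 1 ≤ h a₀ := (hh.2 a₀).1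
    have hne : ∀ a : Fin n, h a₀ ≤ a.val → ¬ IsEdge h a₀ a := by
      rintro a ha (⟨_, h2⟩ | ⟨h1, _⟩)
      · omega
      · have : a.val < j := h1
        omega
    rw [xx, dif_pos hj, hx, dif_pos hj, ← ha₀, II,
      ← sum_filter_add_sum_filter_not _ (fun S : Finset (Fin n) => a₀ ∉ S)]
    congr 1
    · rw [II, filter_filter]
      refine sum_congr ?_ fun _ _ => rfl
      ext S
      simp only [mem_filter, mem_univ, true_and]
      constructor
      · rintro ⟨⟨h1, h2⟩, h3⟩
        refine ⟨h1, fun a ha => ?_⟩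
        have := h2 a ha
        have : a.val ≠ j := fun e => h3 (by rwa [show a₀ = a from Fin.ext e.symm])
        omega
      · rintro ⟨h1, h2⟩
        refine ⟨⟨h1, fun a ha => le_trans (Nat.le_succ j) (h2 a ha)⟩, fun h3 => ?_⟩
        have : j + 1 ≤ j := h2 a₀ h3
        omega
    · rw [II, mul_sum, smul_sum]
      symm
      refine sum_bij (fun T _ => insert a₀ T) ?_ ?_ ?_ ?_
      · intro T hT
        simp only [mem_filter, mem_univ, true_and] at hT ⊢
        refine ⟨⟨?_, ?_⟩, by simp⟩
        · intro a ha c hc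
          rcases mem_insert.1 ha with rfl | ha
          · rcases mem_insert.1 hc with rfl | hc
            · exact not_isEdge_self h _
            · exact hne c (hT.2 c hc)
          · rcases mem_insert.1 hc with rfl | hc
            · exact fun he => hne a (hT.2 a ha) (isEdge_symm.1 he)
            · exact hT.1 a ha c hc
        · intro a ha
          rcases mem_insert.1 ha with rfl | ha
          · exact le_rfl
          · have := hT.2 a ha
            omega
      · intro T hT T' hT' e
        simp only [mem_filter, mem_univ, true_and] at hT hT'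
        have h1 : a₀ ∉ T := fun h3 => by
          have : h a₀ ≤ j := hT.2 a₀ h3
          omega
        have h2 : a₀ ∉ T' := fun h3 => by
          have : h a₀ ≤ j := hT'.2 a₀ h3
          omega
        rw [← erase_insert h1, ← erase_insert h2, e]
      · intro S hS
        simp only [mem_filter, mem_univ, true_and, not_not] at hS
        refine ⟨S.erase a₀, ?_, insert_erase hS.2⟩
        simp only [mem_filter, mem_univ, true_and]
        refine ⟨fun a ha c hc => hS.1.1 a (mem_of_mem_erase ha) c (mem_of_mem_erase hc),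
          fun a ha => ?_⟩
        have h1 := hS.1.2 a (mem_of_mem_erase ha)
        have h2 : a.val ≠ j := fun e => (ne_of_mem_erase ha) (Fin.ext e)
        by_contra h3
        exact hS.1.1 a₀ hS.2 a (mem_of_mem_erase ha)
          (Or.inl ⟨show j < a.val by omega, by omega⟩)
      · intro T hT
        simp only [mem_filter, mem_univ, true_and] at hT
        have h1 : a₀ ∉ T := fun h3 => by
          have : h a₀ ≤ j := hT.2 a₀ h3
          omega
        have h0 : om h (ex a₀) (∑ a ∈ T, ex a) = 0 := by
          rw [map_sum]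
          refine sum_eq_zero fun a ha => ?_
          rw [om_ex_ex, Wt, if_neg (hne a (hT.2 a ha))]
        rw [card_insert_of_notMem h1, sum_insert h1, mul_smul_comm, single_mul_single, h0,
          smul_smul, pow_succ']
        simp

theorem II_zero (t : K) : II h t 0 = ∑ k ∈ range (n + 1), t ^ k • Ham h k := by
  rw [II, ← sum_fiberwise_of_maps_to (t := range (n + 1)) (g := fun S : Finset (Fin n) => S.card)]
  · refine sum_congr rfl fun k _ => ?_
    rw [Ham, smul_sum]
    refine sum_congr ?_ fun S hS => ?_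
    · ext S
      simp [and_comm]
    · rw [(mem_powersetCard.1 (mem_filter.1 hS).1).2]
  · intro S _
    have := card_le_univ S
    rw [Fintype.card_fin] at this
    exact mem_range.2 (by omega)

theorem Ham_eq_zero {k : ℕ} (hk : n < k) : Ham h k = 0 := by
  rw [Ham, powersetCard_eq_empty.2 (by simpa using hk)]
  simp

theorem Ham_comm (hh : IsHessenberg h) (j k : ℕ) : Ham h j * Ham h k = Ham h k * Ham h j := by
  by_cases hj : n < j
  · rw [Ham_eq_zero hj]; simp
  by_cases hk : n < k
  · rw [Ham_eq_zero hk]; simp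
  have h1 : ∀ z : K, II h z 0 * Ham h k - Ham h k * II h z 0 = 0 := by
    intro z
    refine coeff_zero_of_forall (F := K) (n + 1)
      (fun k => II h z 0 * Ham h k - Ham h k * II h z 0) (fun w => ?_) k (by omega)
    have := comm_main (rel hh) (rec hh z) (rec hh w) 0
    rw [II_zero w, ← sub_eq_zero, mul_sum, sum_mul, ← sum_sub_distrib] at this
    rw [← this]
    exact sum_congr rfl fun k _ => by rw [smul_sub, mul_smul_comm, smul_mul_assoc]
  rw [← sub_eq_zero]
  refine coeff_zero_of_forall (F := K) (n + 1)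
    (fun j => Ham h j * Ham h k - Ham h k * Ham h j) (fun z => ?_) j (by omega)
  have := h1 z
  rw [II_zero z, mul_sum, sum_mul, ← sum_sub_distrib] at this
  rw [← this]
  exact sum_congr rfl fun k _ => by rw [smul_sub, mul_smul_comm, smul_mul_assoc]

end HC

end Crest.Agent.R59
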