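import Crest.Agent.R59.GraphDefs

/-! # The Baxter equation and the commutation of the Hamiltonians with the Baxter operator -/

set_option autoImplicit false

namespace Crest.Agent.R59.Bax
open Finset Nov Crest.CombinatoricsR.UnitInterval

variable {n : ℕ} {h : Fin n → ℕ}

/-! ### The central coordinate -/

theorem om_none_left (m : ℤ) (r : Lt n) : om h (Pi.single none m) r = 0 := by
  simp [om_apply]

theorem om_none_right (m : ℤ) (r : Lt n) : om h r (Pi.single none m) = 0 := by
  simp [om_apply]

theorem om_antisymm (p r : Lt n) : om h p r = -om h r p := by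
  have := om_self h (p + r)
  simp only [map_add, AddMonoidHom.add_apply, om_self] at this
  omega

theorem central (m : ℤ) (F : Tor h) :
    single (Pi.single none m) 1 * F = F * single (Pi.single none m) 1 :=
  ext' fun p => by rw [co_single_mul, co_mul_single, om_none_left, om_none_right]; ring

theorem dl_ux_pos (a : Fin n) : 0 < dl n 0 (ux a) := by
  rw [dl_ux]; omega

theorem ux_none (a : Fin n) : ux a none = -1 := by simp [ux]

theorem ex_none (a : Fin n) : ex a none = 0 := by simp [ex]

theorem nsmul_ux_none (k : ℕ) (a : Fin n) : (k • ux a) none = -(k : ℤ) := by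
  simp [ux_none]

/-- the scaling automorphism `u ↦ v² u` -/
noncomputable def sc (F : Tor h) : Tor h :=
  ⟨fun p => v ^ (-2 * p none) * F.co p,
    F.nov.of_support_subset fun _ hp h0 => hp (by simp [h0])⟩

theorem co_sc (F : Tor h) (p : Lt n) : (sc F).co p = v ^ (-2 * p none) * F.co p := rfl

theorem sc_mul (F G : Tor h) : sc (F * G) = sc F * sc G := by
  refine ext' fun p => ?_
  rw [co_sc, co_mul_eq_sum (S := (finite_conv F G p).toFinset),
    co_mul_eq_sum (S := (finite_conv F G p).toFinset), Finset.mul_sum]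
  · refine Finset.sum_congr rfl fun r _ => ?_
    rw [co_sc, co_sc, show -2 * p none = -2 * r none + -2 * (p - r) none by simp; ring,
      zpow_add₀ v_ne_zero]
    ring
  · intro r h1 h2
    have h1' : F.co r ≠ 0 := fun h0 => h1 (by simp [co_sc, h0])
    have h2' : G.co (p - r) ≠ 0 := fun h0 => h2 (by simp [co_sc, h0])
    simp [h1', h2']
  · intro r h1 h2; simp [h1, h2]

theorem sc_sub (F G : Tor h) : sc (F - G) = sc F - sc G :=
  ext' fun p => by simp only [co_sc, co_sub]; ring

theorem sc_of_none {F : Tor h} (hF : ∀ p, F.co p ≠ 0 → p none = 0) : sc F = F :=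
  ext' fun p => by
    rw [co_sc]
    by_cases h0 : F.co p = 0
    · rw [h0, mul_zero]
    · rw [hF p h0]; simp

theorem sc_one : sc (1 : Tor h) = 1 :=
  sc_of_none fun p hp => by
    by_contra h0
    exact hp (co_one_of_ne fun e => h0 (by rw [e]; rfl))

theorem sc_ev (a : Fin n) (φ : PowerSeries K) :
    sc (ev (ux a) φ : Tor h) = ev (ux a) (PowerSeries.rescale (v ^ 2) φ) := by
  refine ext' fun p => ?_
  rw [co_sc, co_ev (dl_ux_pos a), co_ev (dl_ux_pos a)]
  by_cases hp : ∃ k : ℕ, p = k • ux a
  · obtain ⟨k, rfl⟩ := hp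
    rw [rayFun_nsmul (dl_ux_pos a).ne', rayFun_nsmul (dl_ux_pos a).ne', PowerSeries.coeff_rescale,
      nsmul_ux_none, ← pow_mul, ← zpow_natCast]
    congr 2
    push_cast; ring
  · have e : ∀ ψ : PowerSeries K, rayFun (ux a) ψ p = 0 := fun ψ => by
      by_contra h0
      exact hp (rayFun_ne_zero h0)
    rw [e, e, mul_zero]

/-- the central exponent is at most `m` on the support -/
def Le (m : ℤ) (F : Tor h) : Prop := ∀ p, F.co p ≠ 0 → p none ≤ m

theorem Le.mono {m m' : ℤ} {F : Tor h} (hF : Le m F) (hm : m ≤ m') : Le m' F :=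
  fun p hp => (hF p hp).trans hm

theorem Le.mul {m m' : ℤ} {F G : Tor h} (hF : Le m F) (hG : Le m' G) : Le (m + m') (F * G) := by
  intro p hp
  obtain ⟨r, h1, h2⟩ := co_mul_ne_zero hp
  have e1 := hF r h1
  have e2 := hG _ h2
  rw [Pi.sub_apply] at e2
  omega

theorem Le.add {m : ℤ} {F G : Tor h} (hF : Le m F) (hG : Le m G) : Le m (F + G) := by
  intro p hp
  by_cases h0 : F.co p = 0
  · exact hG p fun h1 => hp (by simp [h0, h1])
  · exact hF p h0

theorem Le.sub {m : ℤ} {F G : Tor h} (hF : Le m F) (hG : Le m G) : Le m (F - G) := by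
  intro p hp
  by_cases h0 : F.co p = 0
  · exact hG p fun h1 => hp (by simp [h0, h1])
  · exact hF p h0

theorem Le.sc {m : ℤ} {F : Tor h} (hF : Le m F) : Le m (sc F) :=
  fun p hp => hF p fun h0 => hp (by simp [co_sc, h0])

theorem le_zero (m : ℤ) : Le m (0 : Tor h) := fun _ hp => absurd rfl hp

theorem le_sum {ι : Type} {m : ℤ} (s : Finset ι) {F : ι → Tor h} (hF : ∀ i ∈ s, Le m (F i)) :
    Le m (∑ i ∈ s, F i) :=
  Finset.sum_induction F (Le m) (fun _ _ => Le.add) (le_zero m) hF

theorem le_smul_single {m : ℤ} {r : Lt n} (hr : r none ≤ m) (c d : K) :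
    Le m (c • single r d : Tor h) := by
  intro p hp
  by_cases e : p = r
  · rw [e]; exact hr
  · exact absurd (by rw [co_smul, co_single_of_ne e, mul_zero]) hp

theorem le_mul_sub_one {F G : Tor h} (hF : Le (-1) (F - 1)) (hG : Le (-1) (G - 1)) :
    Le (-1) (F * G - 1) := by
  have e : F * G - 1 = (F - 1) * (G - 1) + (F - 1) + (G - 1) := by noncomm_ring
  rw [e]
  exact (((hF.mul hG).mono (by norm_num)).add hF).add hG

theorem le_ev_sub_one (a : Fin n) {φ : PowerSeries K} (hφ : PowerSeries.constantCoeff φ = 1) :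
    Le (-1) ((ev (ux a) φ : Tor h) - 1) := by
  intro p hp
  by_cases h0 : p = 0
  · exact absurd (by rw [h0, co_sub, (isUni_ev (dl_ux_pos a) hφ).1, co_one_zero, sub_self]) hp
  · rw [co_sub, co_one_of_ne h0, sub_zero, co_ev (dl_ux_pos a)] at hp
    obtain ⟨k, rfl⟩ := rayFun_ne_zero hp
    have hk : k ≠ 0 := fun e => h0 (by rw [e, zero_nsmul])
    rw [nsmul_ux_none]
    omega

/-- uniqueness for the `q`-difference equation `y = I σ(y)` -/
theorem eq_zero_of_fix {I y : Tor h} (hI : Le (-1) (I - 1)) (hy : Le (-1) y)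
    (e : y = I * sc y) : y = 0 := by
  have key : ∀ m : ℕ, Le (-1 - m) y := by
    intro m
    induction m with
    | zero => simpa using hy
    | succ m ih =>
      intro p hp
      have h1 := ih p hp
      by_contra h2
      have h3 : p none = -1 - m := by push_cast at h2; omega
      have e' : y - sc y = (I - 1) * sc y := by rw [sub_mul, one_mul, ← e]
      have h4 : (y - sc y).co p = 0 := by
        by_contra h5
        rw [e'] at h5
        have := hI.mul ih.sc p h5
        omega
      rw [co_sub, co_sc] at h4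
      have h5 : (1 - v ^ (-2 * p none)) * y.co p = 0 := by linear_combination h4
      rcases mul_eq_zero.1 h5 with h6 | h6
      · exact v_zpow_ne_one (n := -2 * p none) (by omega) (sub_eq_zero.1 h6).symm
      · exact hp h6
  refine ext' fun p => ?_
  by_contra hp
  have := key (-p none).toNat p hp
  omega

/-! ### The Baxter equation -/

/-- the monomial of a set of vertices -/
noncomputable def zz (h : Fin n → ℕ) (T : Finset (Fin n)) : Tor h := single (∑ a ∈ T, ux a) 1

/-- the factors of the Baxter operator -/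
noncomputable def En (h : Fin n → ℕ) (c : K) (a : Fin n) : Tor h :=
  ev (ux a) (PowerSeries.rescale c (Eser true))

/-- the independence polynomial -/
noncomputable def Ip (h : Fin n → ℕ) (c : K) (S : Finset (Fin n)) : Tor h :=
  ∑ T ∈ S.powerset, if Indep h T then c ^ T.card • zz h T else 0

theorem sc_En (c : K) (a : Fin n) : sc (En h c a) = En h (c * v ^ 2) a := by
  rw [En, sc_ev, PowerSeries.rescale_rescale, En]

theorem En_eq (c : K) (a : Fin n) :
    En h c a = (1 + c • single (ux a) 1) * En h (c * v ^ 2) a := by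
  have e : PowerSeries.rescale c (Eser true) =
      (1 + c • PowerSeries.X) * PowerSeries.rescale (c * v ^ 2) (Eser true) := by
    conv_lhs => rw [Eser_true_eq]
    rw [map_mul, map_add, map_one, PowerSeries.rescale_X, PowerSeries.rescale_rescale,
      mul_comm (v ^ 2) c, PowerSeries.smul_eq_C_mul]
  rw [En, e, ev_mul (om_self h), ev_add, ev_smul, ev_one (dl_ux_pos a), ev_X (dl_ux_pos a), En]

theorem om_ux_sum {j : Fin n} {T : Finset (Fin n)} (hT : ∀ a ∈ T, j < a) :
    om h (ux j) (∑ a ∈ T, ux a) = (T.filter fun a => IsEdge h j a).card := by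
  rw [map_sum, Finset.card_filter, Nat.cast_sum]
  refine Finset.sum_congr rfl fun a ha => ?_
  rw [om_ux_left, om_ux_right, om_ex_ex, Wt, if_pos (hT a ha)]
  split_ifs <;> simp

theorem indep_insert {j : Fin n} {T : Finset (Fin n)} :
    Indep h (insert j T) ↔ Indep h T ∧ ∀ a ∈ T, ¬ IsEdge h j a := by
  constructor
  · intro H
    exact ⟨fun a ha c hc => H a (mem_insert_of_mem ha) c (mem_insert_of_mem hc),
      fun a ha => H j (mem_insert_self _ _) a (mem_insert_of_mem ha)⟩
  · rintro ⟨H1, H2⟩ a ha c hc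
    rcases mem_insert.1 ha with rfl | ha' <;> rcases mem_insert.1 hc with rfl | hc'
    · exact not_isEdge_self h _
    · exact H2 c hc'
    · exact fun e => H2 a ha' (isEdge_symm.1 e)
    · exact H1 a ha' c hc'

/-- the larger neighbours of a vertex form a clique -/
theorem card_nbr_le (hh : IsHessenberg h) {j : Fin n} {T : Finset (Fin n)} (hT : ∀ a ∈ T, j < a)
    (hI : Indep h T) : (T.filter fun a => IsEdge h j a).card ≤ 1 := by
  have key : ∀ a ∈ T, ∀ c ∈ T, IsEdge h j c → ¬ a < c := by
    intro a ha c hc e hac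
    refine hI a ha c hc (Or.inl ⟨hac, ?_⟩)
    rcases e with e | e
    · exact e.2.trans (hh.1 (hT a ha).le)
    · exact absurd e.1 (not_lt.2 (hT c hc).le)
  refine Finset.card_le_one.2 fun a ha c hc => ?_
  rw [mem_filter] at ha hc
  exact le_antisymm (not_lt.1 (key c hc.1 a ha.1 ha.2)) (not_lt.1 (key a ha.1 c hc.1 hc.2))

theorem En_mul_zz (c : K) (j : Fin n) (T : Finset (Fin n)) {w : ℤ}
    (hw : om h (ux j) (∑ a ∈ T, ux a) = w) :
    En h c j * zz h T = zz h T * En h (c * v ^ (2 * w)) j := by
  rw [En, ev_mul_comm (om_self h) (w := w), PowerSeries.rescale_rescale, En]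
  exact (supp_single _ _).mono (Set.singleton_subset_iff.2 hw)

theorem step_zz (hh : IsHessenberg h) (c : K) {j : Fin n} {T : Finset (Fin n)}
    (hT : ∀ a ∈ T, j < a) (hI : Indep h T) :
    En h c j * zz h T =
      (zz h T + if Indep h (insert j T) then c • zz h (insert j T) else 0) *
        En h (c * v ^ 2) j := by
  have hj : j ∉ T := fun hj => lt_irrefl _ (hT j hj)
  have hw := om_ux_sum (h := h) hT
  by_cases H : ∀ a ∈ T, ¬ IsEdge h j a
  · rw [Finset.filter_eq_empty_iff.2 H, Finset.card_empty, Nat.cast_zero] at hw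
    rw [if_pos (indep_insert.2 ⟨hI, H⟩), En_mul_zz c j T hw, mul_zero, zpow_zero, mul_one,
      En_eq c j, ← mul_assoc, mul_add, mul_one, mul_smul_comm, zz, zz, single_mul_single,
      om_antisymm, hw, Finset.sum_insert hj, add_comm (ux j)]
    simp
  · rw [if_neg fun H' => H (indep_insert.1 H').2, add_zero]
    have h1 : (T.filter fun a => IsEdge h j a).card = 1 := by
      refine le_antisymm (card_nbr_le hh hT hI) (Finset.card_pos.2 ?_)
      push Not at H
      obtain ⟨a, ha, e⟩ := H
      exact ⟨a, mem_filter.2 ⟨ha, e⟩⟩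
    rw [h1, Nat.cast_one] at hw
    rw [En_mul_zz c j T hw, mul_one, zpow_ofNat]

theorem step_Ip (hh : IsHessenberg h) (c : K) {j : Fin n} {S : Finset (Fin n)}
    (hS : ∀ a ∈ S, j < a) :
    En h c j * Ip h c S = Ip h c (insert j S) * En h (c * v ^ 2) j := by
  have hj : j ∉ S := fun hj => lt_irrefl _ (hS j hj)
  rw [Ip, Ip, Finset.sum_powerset_insert hj, ← Finset.sum_add_distrib, Finset.mul_sum,
    Finset.sum_mul]
  refine Finset.sum_congr rfl fun T hT => ?_
  have hT' : ∀ a ∈ T, j < a := fun a ha => hS a (mem_powerset.1 hT ha)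
  have hjT : j ∉ T := fun hj => lt_irrefl _ (hT' j hj)
  by_cases hI : Indep h T
  · rw [if_pos hI, mul_smul_comm, step_zz hh c hT' hI, ← smul_mul_assoc, smul_add,
      Finset.card_insert_of_notMem hjT]
    split_ifs
    · rw [smul_smul, pow_succ c]
    · rw [smul_zero]
  · rw [if_neg hI, if_neg fun H => hI (indep_insert.1 H).1]
    simp

theorem baxter (hh : IsHessenberg h) (c : K) : ∀ l : List (Fin n), l.Pairwise (· < ·) →
    (l.map (En h c)).prod = Ip h c l.toFinset * (l.map (En h (c * v ^ 2))).prod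
  | [], _ => by
    have : Indep h ∅ := fun _ ha => absurd ha (Finset.notMem_empty _)
    simp [Ip, this, zz, ← one_def]
  | j :: l, hl => by
    rw [List.pairwise_cons] at hl
    rw [List.map_cons, List.map_cons, List.prod_cons, List.prod_cons, baxter hh c l hl.2,
      ← mul_assoc, step_Ip hh c fun a ha => hl.1 a (List.mem_toFinset.1 ha), List.toFinset_cons,
      mul_assoc]

theorem sc_prod (c : K) : ∀ l : List (Fin n),
    sc (l.map (En h c)).prod = (l.map (En h (c * v ^ 2))).prod
  | [] => by simpa using sc_one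
  | j :: l => by
    rw [List.map_cons, List.map_cons, List.prod_cons, List.prod_cons, sc_mul, sc_prod c l, sc_En]

theorem le_prod_sub_one (c : K) : ∀ l : List (Fin n), Le (-1) ((l.map (En h c)).prod - 1)
  | [] => by simpa using le_zero (-1)
  | j :: l => by
    rw [List.map_cons, List.prod_cons]
    refine le_mul_sub_one (le_ev_sub_one j ?_) (le_prod_sub_one c l)
    rw [← PowerSeries.coeff_zero_eq_constantCoeff_apply, PowerSeries.coeff_rescale, pow_zero,
      one_mul, PowerSeries.coeff_zero_eq_constantCoeff_apply, constantCoeff_Eser]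

theorem sum_ux_none (T : Finset (Fin n)) : (∑ a ∈ T, ux a) none = -(T.card : ℤ) := by
  simp [Finset.sum_apply, ux_none]

theorem le_Ip_sub_one (c : K) (S : Finset (Fin n)) : Le (-1) (Ip h c S - 1) := by
  have h0 : Indep h ∅ := fun _ ha => absurd ha (Finset.notMem_empty _)
  rw [Ip, ← Finset.add_sum_erase _ _ (empty_mem_powerset S), if_pos h0, card_empty, pow_zero,
    one_smul, zz, sum_empty, ← one_def, add_sub_cancel_left]
  refine le_sum _ fun T hT => ?_
  split_ifs
  · refine le_smul_single ?_ _ _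
    have := Finset.card_pos.2 (nonempty_iff_ne_empty.2 (ne_of_mem_erase hT))
    rw [sum_ux_none]
    omega
  · exact le_zero _

theorem Ham_none (k : ℕ) (p : Lt n) (hp : (Ham h k).co p ≠ 0) : p none = 0 := by
  rw [Ham, co_sum] at hp
  obtain ⟨S, _, hS⟩ := Finset.exists_ne_zero_of_sum_ne_zero hp
  by_cases e : p = ∑ a ∈ S, ex a
  · simp [e, Finset.sum_apply, ex_none]
  · exact absurd (co_single_of_ne e _) hS

theorem Ip_univ (c : K) : Ip h c univ = ∑ k ∈ range (n + 1),
    c ^ k • (single (Pi.single none (-(k : ℤ))) 1 * Ham h k) := by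
  rw [Ip, Finset.sum_powerset, card_univ, Fintype.card_fin]
  refine Finset.sum_congr rfl fun k _ => ?_
  rw [Ham, Finset.mul_sum, Finset.smul_sum, Finset.sum_filter]
  refine Finset.sum_congr rfl fun T hT => ?_
  have hk := (mem_powersetCard.1 hT).2
  have e : ∑ a ∈ T, ux a = Pi.single none (-(k : ℤ)) + ∑ a ∈ T, ex a := by
    funext o
    cases o with
    | none => simp [Finset.sum_apply, ux_none, ex_none, hk]
    | some b => simp [Finset.sum_apply, ux, ex]
  rw [single_mul_single, om_none_left, zz, e, hk]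
  simp

theorem Ham_mul_Qop (hh : IsHessenberg h)
    (hc : ∀ j k, Ham h j * Ham h k = Ham h k * Ham h j) (k : ℕ) :
    Ham h k * Qop h = Qop h * Ham h k := by
  have hQ : Qop h = ((List.finRange n).map (En h v)).prod := by
    rw [Qop, List.ofFn_eq_map]; rfl
  have hB : Qop h = Ip h v univ * sc (Qop h) := by
    rw [hQ, sc_prod, baxter hh v _ (List.pairwise_lt_finRange n), List.toFinset_finRange]
  have hI : Ham h k * Ip h v univ = Ip h v univ * Ham h k := by
    rw [Ip_univ, Finset.mul_sum, Finset.sum_mul]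
    refine Finset.sum_congr rfl fun j _ => ?_
    rw [mul_smul_comm, smul_mul_assoc, ← mul_assoc, ← central, mul_assoc, mul_assoc, hc]
  have hH : sc (Ham h k) = Ham h k := sc_of_none (Ham_none k)
  have hH0 : Le 0 (Ham h k) := fun p hp => (Ham_none k p hp).le
  have hQ1 : Le (-1) (Qop h - 1) := hQ ▸ le_prod_sub_one v _
  refine sub_eq_zero.1 (eq_zero_of_fix (le_Ip_sub_one v univ) ?_ ?_)
  · have e : Ham h k * Qop h - Qop h * Ham h k =
        Ham h k * (Qop h - 1) - (Qop h - 1) * Ham h k := by noncomm_ring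
    rw [e]
    exact ((hH0.mul hQ1).mono (by norm_num)).sub ((hQ1.mul hH0).mono (by norm_num))
  · rw [sc_sub, sc_mul, sc_mul, hH, mul_sub, ← mul_assoc, ← mul_assoc, ← hI, ← hB, mul_assoc,
      ← hB]

end Crest.Agent.R59.Bax
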