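import Crest.Agent.R59.GraphDefs
import Crest.Agent.R59.GraphHAux1
import Crest.Agent.R59.GraphHAux2

/-! # The Hamiltonians commute with each other and with the Baxter operator -/

set_option autoImplicit false

namespace Crest.Agent.R59
open Finset Nov Crest.CombinatoricsR.UnitInterval

variable {n : ℕ} {h : Fin n → ℕ}

theorem Ham_comm (hh : IsHessenberg h) (j k : ℕ) : Ham h j * Ham h k = Ham h k * Ham h j :=
  HC.Ham_comm hh j k

theorem Ham_mul_Qop (hh : IsHessenberg h) (k : ℕ) : Ham h k * Qop h = Qop h * Ham h k :=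
  Bax.Ham_mul_Qop hh (Ham_comm hh) k

end Crest.Agent.R59
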