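import Crest.Agent.R59.GraphH

/-! # Evaluating polynomials in the elementary symmetric functions at the Hamiltonians -/

set_option autoImplicit false

namespace Crest.Agent.R59
open Finset Nov Crest.CombinatoricsR.UnitInterval

variable {n : ℕ} {h : Fin n → ℕ}

namespace Phi

open scoped IsMulCommutative in
theorem exists_hom {σ R : Type} [Ring R] (x : σ → R) (hx : ∀ i j, x i * x j = x j * x i) :
    ∃ Φ : MvPolynomial σ ℤ →+* R, ∀ i, Φ (MvPolynomial.X i) = x i := by
  have := Subring.isMulCommutative_closure (s := Set.range x) (by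
    rintro _ ⟨i, rfl⟩ _ ⟨j, rfl⟩
    exact hx i j)
  refine ⟨(Subring.closure (Set.range x)).subtype.comp
    (MvPolynomial.eval₂Hom (Int.castRingHom _)
      fun i => (⟨x i, Subring.subset_closure ⟨i, rfl⟩⟩ : Subring.closure (Set.range x))), fun i => ?_⟩
  simp

/-- the exponent of a monomial in the vertex variables -/
def xe (α : Fin n →₀ ℕ) : Lt n := ∑ a, (α a : ℤ) • ex a

theorem xe_none (α : Fin n →₀ ℕ) : xe α none = 0 := by
  simp [xe, ex, Finset.sum_apply]

theorem xe_some (α : Fin n →₀ ℕ) (c : Fin n) : xe α (some c) = α c := by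
  simp [xe, ex, Finset.sum_apply, Pi.single_apply]

theorem xe_injective : Function.Injective (xe : (Fin n →₀ ℕ) → Lt n) := by
  intro α β e
  ext c
  have := congrFun e (some c)
  rw [xe_some, xe_some] at this
  exact_mod_cast this

theorem xe_add (α β : Fin n →₀ ℕ) : xe (α + β) = xe α + xe β := by
  simp [xe, add_smul, sum_add_distrib]

theorem xe_zero : xe (0 : Fin n →₀ ℕ) = 0 := by simp [xe]

theorem xe_ind (S : Finset (Fin n)) : xe (∑ i ∈ S, Finsupp.single i 1) = ∑ a ∈ S, ex a := by
  funext o
  cases o with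
  | none => simp [xe_none, ex, Finset.sum_apply]
  | some c =>
    simp [xe_some, ex, Finset.sum_apply, Pi.single_apply, Finsupp.finsetSum_apply,
      Finsupp.single_apply, eq_comm]

theorem support_ind (S : Finset (Fin n)) :
    (∑ i ∈ S, Finsupp.single i 1 : Fin n →₀ ℕ).support = S := by
  ext c
  simp [Finsupp.finsetSum_apply, Finsupp.single_apply]

theorem isPoly_zero : IsPoly (0 : Tor h) := ⟨by simp [Function.support], fun p hp => by simp at hp⟩

theorem isPoly_single (α : Fin n →₀ ℕ) (c : K) : IsPoly (single (xe α) c : Tor h) := by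
  have key : ∀ p, (single (xe α) c : Tor h).co p ≠ 0 → p = xe α := fun p hp => by
    by_contra hne
    exact hp (co_single_of_ne hne _)
  refine ⟨(Set.finite_singleton (xe α)).subset fun p hp => key p hp, fun p hp => ?_⟩
  rw [key p hp]
  exact ⟨xe_none α, fun a => by rw [xe_some]; positivity⟩

theorem isPoly_add {F G : Tor h} (hF : IsPoly F) (hG : IsPoly G) : IsPoly (F + G) := by
  have key : ∀ p, (F + G).co p ≠ 0 → F.co p ≠ 0 ∨ G.co p ≠ 0 := fun p hp => by
    by_contra hc
    push Not at hc
    exact hp (by simp [hc.1, hc.2])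
  exact ⟨(hF.1.union hG.1).subset fun p hp => key p hp,
    fun p hp => (key p hp).elim (hF.2 p) (hG.2 p)⟩

open Pointwise in
theorem isPoly_mul {F G : Tor h} (hF : IsPoly F) (hG : IsPoly G) : IsPoly (F * G) := by
  refine ⟨(hF.1.add hG.1).subset fun p hp => ?_, fun p hp => ?_⟩
  · obtain ⟨r, h1, h2⟩ := co_mul_ne_zero hp
    exact ⟨r, h1, p - r, h2, by simp⟩
  · obtain ⟨r, h1, h2⟩ := co_mul_ne_zero hp
    obtain ⟨a1, a2⟩ := hF.2 _ h1
    obtain ⟨b1, b2⟩ := hG.2 _ h2
    rw [Pi.sub_apply] at b1
    refine ⟨by omega, fun a => ?_⟩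
    have := a2 a
    have := b2 a
    rw [Pi.sub_apply] at this
    omega

theorem isPoly_sum {ι : Type} (s : Finset ι) {F : ι → Tor h} (hF : ∀ i ∈ s, IsPoly (F i)) :
    IsPoly (∑ i ∈ s, F i) :=
  Finset.sum_induction F IsPoly (fun _ _ => isPoly_add) isPoly_zero hF

theorem isPoly_Ham (k : ℕ) : IsPoly (Ham h k) :=
  isPoly_sum _ fun S _ => by rw [← xe_ind]; exact isPoly_single _ _

theorem intCast_eq (a : ℤ) : (a : Tor h) = single 0 (a : K) := by
  rw [← map_intCast (algebraMap K (Tor h)) a, Algebra.algebraMap_eq_smul_one]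
  refine ext' fun p => ?_
  rw [co_smul, one_def, co_single, co_single]
  split_ifs <;> simp

theorem Ham_zero : Ham h 0 = 1 := by
  have : (powersetCard 0 (univ : Finset (Fin n))).filter (Indep h) = {∅} := by
    rw [powersetCard_zero, filter_singleton, if_pos]
    intro a ha
    simp at ha
  rw [Ham, this, sum_singleton, sum_empty, one_def]

theorem Ham_of_lt {k : ℕ} (hk : n < k) : Ham h k = 0 := by
  rw [Ham, powersetCard_eq_empty.2 (by simpa using hk)]
  simp

theorem om_xe {α β γ : Fin n →₀ ℕ} (hα : Indep h α.support) (e : β + γ = α) :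
    om h (xe β) (xe γ) = 0 := by
  rw [om_apply]
  refine sum_eq_zero fun a _ => sum_eq_zero fun c _ => ?_
  rw [xe_some, xe_some]
  by_cases h1 : β a = 0
  · simp [h1]
  by_cases h2 : γ c = 0
  · simp [h2]
  have : ¬ IsEdge h a c := hα a (by rw [← e]; simp [h1]) c (by rw [← e]; simp [h2])
  simp [Wt, this]

theorem co_mul_xe {F G : Tor h} (hF : IsPoly F) (hG : IsPoly G) {α : Fin n →₀ ℕ}
    (hα : Indep h α.support) :
    (F * G).co (xe α) = ∑ x ∈ antidiagonal α, F.co (xe x.1) * G.co (xe x.2) := by
  classical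
  rw [co_mul_eq_sum F G (S := (antidiagonal α).image fun x => xe x.1), sum_image]
  · refine sum_congr rfl fun x hx => ?_
    have e := mem_antidiagonal.1 hx
    have : xe α - xe x.1 = xe x.2 := by rw [← e, xe_add]; simp
    rw [this, om_xe hα e]
    simp
  · intro x hx y hy hxy
    have h1 := xe_injective hxy
    have e1 := mem_antidiagonal.1 (mem_coe.1 hx)
    have e2 := mem_antidiagonal.1 (mem_coe.1 hy)
    refine Prod.ext h1 ?_
    have : x.1 + x.2 = x.1 + y.2 := by rw [e1, h1, e2]
    exact add_left_cancel this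
  · intro r h1 h2
    obtain ⟨a1, a2⟩ := hF.2 _ h1
    obtain ⟨-, b2⟩ := hG.2 _ h2
    refine mem_image.2 ⟨(Finsupp.equivFunOnFinite.symm fun a => (r (some a)).toNat,
      Finsupp.equivFunOnFinite.symm fun a => α a - (r (some a)).toNat), mem_antidiagonal.2 ?_, ?_⟩
    · ext a
      have := a2 a
      have := b2 a
      rw [Pi.sub_apply, xe_some] at this
      simp only [Finsupp.coe_add, Pi.add_apply, Finsupp.coe_equivFunOnFinite_symm]
      omega
    · funext o
      cases o with
      | none => rw [xe_none, a1]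
      | some c =>
        have := a2 c
        rw [xe_some]
        simp only [Finsupp.coe_equivFunOnFinite_symm]
        omega

theorem co_Ham (k : ℕ) {α : Fin n →₀ ℕ} (hα : Indep h α.support) :
    (Ham h k).co (xe α) = ((MvPolynomial.coeff α (MvPolynomial.esymm (Fin n) ℤ k) : ℤ) : K) := by
  classical
  rw [Ham, co_sum, MvPolynomial.esymm_eq_sum_monomial, MvPolynomial.coeff_sum, Int.cast_sum,
    sum_filter]
  refine sum_congr rfl fun S _ => ?_
  rw [← xe_ind, co_single, MvPolynomial.coeff_monomial]
  by_cases e : (∑ i ∈ S, Finsupp.single i 1 : Fin n →₀ ℕ) = α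
  · have : Indep h S := by rwa [← support_ind S, e]
    rw [if_pos this, if_pos e, if_pos (by rw [e])]
    simp
  · rw [if_neg e, if_neg (fun e' => e (xe_injective e').symm)]
    simp

theorem indep_left {α β γ : Fin n →₀ ℕ} (hα : Indep h α.support) (e : β + γ = α) :
    Indep h β.support := by
  have : β.support ⊆ α.support := fun a ha => by
    rw [← e]
    have := Finsupp.mem_support_iff.1 ha
    simp [this]
  exact fun a ha c hc => hα a (this ha) c (this hc)

end Phi

open Phi in
theorem exists_Phi (hh : IsHessenberg h) :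
    ∃ Φ : MvPolynomial (Fin n) ℤ →+* Tor h, (∀ k, Φ (Ee n k) = Ham h k) ∧
      (∀ P, IsPoly (Φ P)) ∧ (∀ P, Φ P * Qop h = Qop h * Φ P) ∧
      ∀ (P : MvPolynomial (Fin n) ℤ) (α : Fin n →₀ ℕ), Indep h α.support →
        (Φ P).co (∑ a, (α a : ℤ) • ex a) = ((MvPolynomial.coeff α (toSym n P) : ℤ) : K) := by
  classical
  obtain ⟨Φ, hΦ⟩ := exists_hom (fun k : Fin n => Ham h (k + 1)) fun i j => Ham_comm hh _ _
  have hC : ∀ a : ℤ, Φ (MvPolynomial.C a) = (a : Tor h) := fun a => by simp
  have hP : ∀ P, IsPoly (Φ P) := fun P => by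
    induction P using MvPolynomial.induction_on with
    | C a => rw [hC, intCast_eq, ← xe_zero]; exact isPoly_single _ _
    | add p q hp hq => rw [map_add]; exact isPoly_add hp hq
    | mul_X p i hp => rw [map_mul, hΦ]; exact isPoly_mul hp (isPoly_Ham _)
  refine ⟨Φ, fun k => ?_, hP, fun P => ?_, fun P => ?_⟩
  · unfold Ee
    split_ifs with h0 h1
    · rw [h0, map_one, Ham_zero]
    · rw [hΦ]
      congr 1
      simp only
      omega
    · rw [map_zero, Ham_of_lt (by omega)]
  · induction P using MvPolynomial.induction_on with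
    | C a => rw [hC]; exact Int.cast_comm _ _
    | add p q hp hq => rw [map_add, add_mul, mul_add, hp, hq]
    | mul_X p i hp => rw [map_mul, hΦ, mul_assoc, Ham_mul_Qop hh, ← mul_assoc, hp, mul_assoc]
  · change ∀ α : Fin n →₀ ℕ, Indep h α.support → (Φ P).co (xe α) = _
    induction P using MvPolynomial.induction_on with
    | C a =>
      intro α _
      have e : toSym n (MvPolynomial.C a) = MvPolynomial.C a := (toSym n).commutes a
      rw [hC, intCast_eq, e, MvPolynomial.coeff_C, ← xe_zero, co_single]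
      by_cases e : 0 = α
      · rw [if_pos e, if_pos (by rw [e])]
      · rw [if_neg e, if_neg (fun e' => e (xe_injective e').symm), Int.cast_zero]
    | add p q hp hq =>
      intro α hα
      rw [map_add, map_add, co_add, MvPolynomial.coeff_add, Int.cast_add, hp α hα, hq α hα]
    | mul_X p i hp =>
      intro α hα
      have e : toSym n (MvPolynomial.X i) = MvPolynomial.esymm (Fin n) ℤ (i + 1) := by
        simp [toSym]
      rw [map_mul, map_mul, hΦ, e, co_mul_xe (hP p) (isPoly_Ham _) hα, MvPolynomial.coeff_mul,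
        Int.cast_sum]
      refine sum_congr rfl fun x hx => ?_
      have e := mem_antidiagonal.1 hx
      rw [hp _ (indep_left hα e), co_Ham _ (indep_left hα ((add_comm _ _).trans e)), Int.cast_mul]

end Crest.Agent.R59
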