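import Crest.Agent.R59.Base

/-!
# The Novikov completion of the quantum torus

`z^p z^r = v^(ω p r) z^(p+r)`; an element is a function `L → K` whose support has finitely many
points below every level of the grading `δ`.
-/

set_option autoImplicit false

namespace Crest.Agent.R59
open Finset Pointwise

variable {L : Type} [AddCommGroup L]

/-- twisted convolution of raw functions -/
noncomputable def tmul (ω : L →+ L →+ ℤ) (F G : L → K) : L → K :=
  fun p => ∑ᶠ r, v ^ (ω r (p - r)) * F r * G (p - r)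

/-- finiteness condition -/
def IsNov (δ : L →+ ℤ) (F : L → K) : Prop := ∀ D : ℤ, {p | F p ≠ 0 ∧ δ p ≤ D}.Finite

/-- the Novikov ring -/
@[ext] structure Nov (ω : L →+ L →+ ℤ) (δ : L →+ ℤ) where
  /-- coefficients -/
  co : L → K
  nov : IsNov δ co

theorem IsNov.of_finite {δ : L →+ ℤ} {F : L → K} (h : (Function.support F).Finite) : IsNov δ F :=
  fun _ => h.subset fun _ hp => hp.1

theorem IsNov.of_support_subset {δ : L →+ ℤ} {F G : L → K} (hG : IsNov δ G)
    (h : ∀ p, F p ≠ 0 → G p ≠ 0) : IsNov δ F :=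
  fun D => (hG D).subset fun p hp => ⟨h p hp.1, hp.2⟩

theorem IsNov.exists_lb {δ : L →+ ℤ} {F : L → K} (hF : IsNov δ F) : ∃ b : ℤ, ∀ p, F p ≠ 0 → b ≤ δ p := by
  obtain ⟨b, hb⟩ := ((hF 0).image δ).bddBelow
  refine ⟨min b 0, fun p hp => ?_⟩
  by_cases h : δ p ≤ 0
  · exact le_trans (min_le_left _ _) (hb ⟨p, ⟨hp, h⟩, rfl⟩)
  · exact le_trans (min_le_right _ _) (not_le.1 h).le

theorem IsNov.finite_conv {δ : L →+ ℤ} {F G : L → K} (hF : IsNov δ F) (hG : IsNov δ G) (p : L) :
    {r | F r ≠ 0 ∧ G (p - r) ≠ 0}.Finite := by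
  obtain ⟨b, hb⟩ := hG.exists_lb
  refine (hF (δ p - b)).subset fun r hr => ⟨hr.1, ?_⟩
  have := hb _ hr.2
  rw [map_sub] at this
  omega

theorem tmul_ne_zero {ω : L →+ L →+ ℤ} {F G : L → K} {p : L} (h : tmul ω F G p ≠ 0) :
    ∃ r, F r ≠ 0 ∧ G (p - r) ≠ 0 := by
  by_contra hc
  push Not at hc
  apply h
  apply finsum_eq_zero_of_forall_eq_zero
  intro r
  by_cases hr : F r = 0
  · simp [hr]
  · simp [hc r hr]

theorem IsNov.tmul {ω : L →+ L →+ ℤ} {δ : L →+ ℤ} {F G : L → K} (hF : IsNov δ F) (hG : IsNov δ G) :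
    IsNov δ (tmul ω F G) := by
  intro D
  obtain ⟨a, ha⟩ := hF.exists_lb
  obtain ⟨b, hb⟩ := hG.exists_lb
  refine (((hF (D - b)).add (hG (D - a)))).subset fun p hp => ?_
  obtain ⟨r, h1, h2⟩ := tmul_ne_zero hp.1
  have e1 := ha r h1
  have e2 := hb _ h2
  have e3 := hp.2
  rw [map_sub] at e2
  refine ⟨r, ⟨h1, by omega⟩, p - r, ⟨h2, by rw [map_sub]; omega⟩, by simp⟩

theorem tmul_eq_sum {ω : L →+ L →+ ℤ} {F G : L → K} {p : L} {S : Finset L}
    (h : ∀ r, F r ≠ 0 → G (p - r) ≠ 0 → r ∈ S) :
    tmul ω F G p = ∑ r ∈ S, v ^ (ω r (p - r)) * F r * G (p - r) := by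
  apply finsum_eq_sum_of_support_subset
  intro r hr
  rw [Function.mem_support] at hr
  exact h r (fun h0 => hr (by simp [h0])) (fun h0 => hr (by simp [h0]))

theorem tmul_assoc {ω : L →+ L →+ ℤ} {δ : L →+ ℤ} {F G H : L → K} (hF : IsNov δ F) (hG : IsNov δ G)
    (hH : IsNov δ H) : tmul ω (tmul ω F G) H = tmul ω F (tmul ω G H) := by
  classical
  funext p
  obtain ⟨a, ha⟩ := hF.exists_lb
  obtain ⟨b, hb⟩ := hG.exists_lb
  obtain ⟨c, hc⟩ := hH.exists_lb
  set A := (hF (δ p - b - c)).toFinset with hA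
  set B := (hG (δ p - a - c)).toFinset with hB
  have mA : ∀ r s, F r ≠ 0 → G s ≠ 0 → H (p - r - s) ≠ 0 → r ∈ A ∧ s ∈ B := by
    intro r s h1 h2 h3
    have e1 := ha r h1
    have e2 := hb s h2
    have e3 := hc _ h3
    rw [map_sub, map_sub] at e3
    simp only [hA, hB, Set.Finite.mem_toFinset, Set.mem_ofPred_eq]
    exact ⟨⟨h1, by omega⟩, ⟨h2, by omega⟩⟩
  have key : ∀ r s : L, v ^ (ω (r + s) (p - (r + s))) * (v ^ (ω r s) * F r * G s) * H (p - (r + s)) =
      v ^ (ω r (p - r)) * F r * (v ^ (ω s (p - r - s)) * G s * H (p - r - s)) := by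
    intro r s
    have e : ω (r + s) (p - (r + s)) + ω r s = ω r (p - r) + ω s (p - r - s) := by
      have : p - (r + s) = p - r - s := by abel
      rw [this]
      simp only [map_add, map_sub, AddMonoidHom.add_apply]
      ring
    have : p - (r + s) = p - r - s := by abel
    calc _ = v ^ (ω (r + s) (p - (r + s)) + ω r s) * (F r * G s * H (p - r - s)) := by
            rw [zpow_add₀ v_ne_zero, this]; ring
      _ = _ := by rw [e, zpow_add₀ v_ne_zero]; ring
  have lhs : tmul ω (tmul ω F G) H p = ∑ x ∈ A ×ˢ B,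
      v ^ (ω (x.1 + x.2) (p - (x.1 + x.2))) * (v ^ (ω x.1 x.2) * F x.1 * G x.2) *
        H (p - (x.1 + x.2)) := by
    rw [tmul_eq_sum (S := (A ×ˢ B).image fun x => x.1 + x.2)]
    · rw [← Finset.sum_fiberwise_of_maps_to (g := fun x : L × L => x.1 + x.2)
        (t := (A ×ˢ B).image fun x => x.1 + x.2) (fun x hx => mem_image_of_mem _ hx)]
      refine Finset.sum_congr rfl fun t _ => ?_
      by_cases hH0 : H (p - t) = 0
      · rw [hH0, mul_zero]
        symm
        refine Finset.sum_eq_zero fun x hx => ?_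
        rw [(mem_filter.1 hx).2, hH0, mul_zero]
      · rw [tmul_eq_sum (S := ((A ×ˢ B).filter fun x => x.1 + x.2 = t).image Prod.fst)]
        · rw [Finset.sum_image, Finset.mul_sum, Finset.sum_mul]
          · refine Finset.sum_congr rfl fun x hx => ?_
            rw [← (mem_filter.1 hx).2]
            simp
          · intro x hx y hy hxy
            have h1 := (mem_filter.1 hx).2
            have h2 := (mem_filter.1 hy).2
            refine Prod.ext hxy ?_
            have : x.1 + x.2 = x.1 + y.2 := by rw [h1, hxy, h2]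
            exact add_left_cancel this
        · intro r h1 h2
          have := mA r (t - r) h1 h2 (by rwa [show p - r - (t - r) = p - t by abel])
          exact mem_image.2 ⟨(r, t - r), mem_filter.2 ⟨mem_product.2 this, by simp⟩, rfl⟩
    · intro t h1 h2
      obtain ⟨r, h3, h4⟩ := tmul_ne_zero h1
      have := mA r (t - r) h3 h4 (by rwa [show p - r - (t - r) = p - t by abel])
      exact mem_image.2 ⟨(r, t - r), mem_product.2 this, by simp⟩
  rw [lhs, tmul_eq_sum (S := A), Finset.sum_product]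
  · refine Finset.sum_congr rfl fun r _ => ?_
    by_cases hF0 : F r = 0
    · simp [hF0]
    · rw [tmul_eq_sum (S := B), Finset.mul_sum]
      · exact Finset.sum_congr rfl fun s _ => key r s
      · intro s h1 h2
        exact (mA r s hF0 h1 h2).2
  · intro r h1 h2
    obtain ⟨s, h3, h4⟩ := tmul_ne_zero h2
    exact (mA r s h1 h3 h4).1

theorem tmul_add {ω : L →+ L →+ ℤ} {δ : L →+ ℤ} {F G H : L → K} (hF : IsNov δ F) (hG : IsNov δ G)
    (hH : IsNov δ H) : tmul ω F (G + H) = tmul ω F G + tmul ω F H := by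
  classical
  funext p
  set S := (hF.finite_conv hG p).toFinset ∪ (hF.finite_conv hH p).toFinset with hS
  rw [Pi.add_apply, tmul_eq_sum (S := S), tmul_eq_sum (S := S), tmul_eq_sum (S := S),
    ← Finset.sum_add_distrib]
  · exact Finset.sum_congr rfl fun r _ => by simp [mul_add]
  · intro r h1 h2; simp [hS, h1, h2]
  · intro r h1 h2; simp [hS, h1, h2]
  · intro r h1 h2
    by_cases h : G (p - r) = 0
    · have : H (p - r) ≠ 0 := fun h' => h2 (by simp [h, h'])
      simp [hS, h1, this]
    · simp [hS, h1, h]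

theorem add_tmul {ω : L →+ L →+ ℤ} {δ : L →+ ℤ} {F G H : L → K} (hF : IsNov δ F) (hG : IsNov δ G)
    (hH : IsNov δ H) : tmul ω (F + G) H = tmul ω F H + tmul ω G H := by
  classical
  funext p
  set S := (hF.finite_conv hH p).toFinset ∪ (hG.finite_conv hH p).toFinset with hS
  rw [Pi.add_apply, tmul_eq_sum (S := S), tmul_eq_sum (S := S), tmul_eq_sum (S := S),
    ← Finset.sum_add_distrib]
  · exact Finset.sum_congr rfl fun r _ => by simp [mul_add, add_mul]
  · intro r h1 h2; simp [hS, h1, h2]
  · intro r h1 h2; simp [hS, h1, h2]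
  · intro r h1 h2
    by_cases h : F r = 0
    · have : G r ≠ 0 := fun h' => h1 (by simp [h, h'])
      simp [hS, h2, this]
    · simp [hS, h2, h]

open Classical in
theorem single_tmul (ω : L →+ L →+ ℤ) (r : L) (c : K) (G : L → K) (p : L) :
    tmul ω (Pi.single r c) G p = v ^ (ω r (p - r)) * c * G (p - r) := by
  rw [tmul_eq_sum (S := {r})]
  · simp
  · intro s h1 _
    by_contra h
    exact h1 (Pi.single_eq_of_ne (by simpa using h) _)

open Classical in
theorem tmul_single (ω : L →+ L →+ ℤ) (F : L → K) (s : L) (c : K) (p : L) :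
    tmul ω F (Pi.single s c) p = v ^ (ω (p - s) s) * F (p - s) * c := by
  rw [tmul_eq_sum (S := {p - s})]
  · rw [Finset.sum_singleton, sub_sub_cancel, Pi.single_eq_same]
  · intro r _ h2
    by_contra h
    refine h2 (Pi.single_eq_of_ne (fun h' => h ?_) _)
    rw [← h']; simp

namespace Nov
variable {ω : L →+ L →+ ℤ} {δ : L →+ ℤ}

open Classical in
/-- the monomial `c z^p` -/
noncomputable def single (p : L) (c : K) : Nov ω δ :=
  ⟨Pi.single p c, IsNov.of_finite ((Set.finite_singleton p).subset Pi.support_single_subset)⟩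

noncomputable instance : Zero (Nov ω δ) := ⟨⟨0, fun _ => by simp⟩⟩
noncomputable instance : One (Nov ω δ) := ⟨single 0 1⟩
noncomputable instance : Add (Nov ω δ) := ⟨fun F G => ⟨F.co + G.co, fun D =>
  ((F.nov D).union (G.nov D)).subset fun p hp => by
    by_cases h : F.co p = 0
    · exact Or.inr ⟨fun h' => hp.1 (by simp [h, h']), hp.2⟩
    · exact Or.inl ⟨h, hp.2⟩⟩⟩
noncomputable instance : SMul K (Nov ω δ) := ⟨fun c F => ⟨c • F.co,
  F.nov.of_support_subset fun p hp h => hp (by simp [h])⟩⟩
noncomputable instance : Neg (Nov ω δ) := ⟨fun F => ⟨-F.co,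
  F.nov.of_support_subset fun p hp h => hp (by simp [h])⟩⟩
noncomputable instance : Mul (Nov ω δ) := ⟨fun F G => ⟨tmul ω F.co G.co, F.nov.tmul G.nov⟩⟩

@[simp] theorem co_zero (p : L) : (0 : Nov ω δ).co p = 0 := rfl
@[simp] theorem co_add (F G : Nov ω δ) (p : L) : (F + G).co p = F.co p + G.co p := rfl
@[simp] theorem co_neg (F : Nov ω δ) (p : L) : (-F).co p = -F.co p := rfl
@[simp] theorem co_smul (c : K) (F : Nov ω δ) (p : L) : (c • F).co p = c * F.co p := rfl
theorem co_mul (F G : Nov ω δ) : (F * G).co = tmul ω F.co G.co := rfl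
open Classical in
theorem co_single (r : L) (c : K) (p : L) : (single r c : Nov ω δ).co p = if p = r then c else 0 := by
  simp [single, Pi.single_apply]
@[simp] theorem co_single_self (r : L) (c : K) : (single r c : Nov ω δ).co r = c := by
  simp [co_single]
theorem co_single_of_ne {r p : L} (h : p ≠ r) (c : K) : (single r c : Nov ω δ).co p = 0 := by
  simp [co_single, h]
theorem one_def : (1 : Nov ω δ) = single 0 1 := rfl
@[simp] theorem co_one_zero : (1 : Nov ω δ).co 0 = 1 := co_single_self _ _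
theorem co_one_of_ne {p : L} (h : p ≠ 0) : (1 : Nov ω δ).co p = 0 := co_single_of_ne h _

theorem ext' {F G : Nov ω δ} (h : ∀ p, F.co p = G.co p) : F = G := Nov.ext (funext h)

noncomputable instance : AddCommGroup (Nov ω δ) where
  add_assoc F G H := ext' fun p => by simp [add_assoc]
  zero_add F := ext' fun p => by simp
  add_zero F := ext' fun p => by simp
  add_comm F G := ext' fun p => by simp [add_comm]
  neg_add_cancel F := ext' fun p => by simp
  nsmul := nsmulRec
  zsmul := zsmulRec

theorem co_single_mul (r : L) (c : K) (G : Nov ω δ) (p : L) :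
    (single r c * G).co p = v ^ (ω r (p - r)) * c * G.co (p - r) := single_tmul ω r c G.co p

theorem co_mul_single (F : Nov ω δ) (s : L) (c : K) (p : L) :
    (F * single s c).co p = v ^ (ω (p - s) s) * F.co (p - s) * c := tmul_single ω F.co s c p

noncomputable instance : Ring (Nov ω δ) where
  mul_assoc F G H := Nov.ext (tmul_assoc F.nov G.nov H.nov)
  one_mul F := ext' fun p => by rw [one_def, co_single_mul]; simp
  mul_one F := ext' fun p => by rw [one_def, co_mul_single]; simp
  left_distrib F G H := Nov.ext (tmul_add F.nov G.nov H.nov)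
  right_distrib F G H := Nov.ext (add_tmul F.nov G.nov H.nov)
  zero_mul F := ext' fun p => by
    by_contra h
    obtain ⟨r, h1, _⟩ := tmul_ne_zero h
    exact h1 rfl
  mul_zero F := ext' fun p => by
    by_contra h
    obtain ⟨r, _, h2⟩ := tmul_ne_zero h
    exact h2 rfl
  zsmul := zsmulRec
  neg_add_cancel := neg_add_cancel

@[simp] theorem co_sub (F G : Nov ω δ) (p : L) : (F - G).co p = F.co p - G.co p := by
  rw [sub_eq_add_neg, co_add, co_neg, sub_eq_add_neg]

noncomputable instance : Module K (Nov ω δ) where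
  one_smul F := ext' fun p => by simp
  mul_smul a b F := ext' fun p => by simp [mul_assoc]
  smul_zero a := ext' fun p => by simp
  smul_add a F G := ext' fun p => by simp [mul_add]
  add_smul a b F := ext' fun p => by simp [add_mul]
  zero_smul F := ext' fun p => by simp

theorem co_mul_eq_sum (F G : Nov ω δ) {p : L} {S : Finset L}
    (h : ∀ r, F.co r ≠ 0 → G.co (p - r) ≠ 0 → r ∈ S) :
    (F * G).co p = ∑ r ∈ S, v ^ (ω r (p - r)) * F.co r * G.co (p - r) := tmul_eq_sum h

theorem finite_conv (F G : Nov ω δ) (p : L) : {r | F.co r ≠ 0 ∧ G.co (p - r) ≠ 0}.Finite :=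
  F.nov.finite_conv G.nov p

theorem co_mul_ne_zero {F G : Nov ω δ} {p : L} (h : (F * G).co p ≠ 0) :
    ∃ r, F.co r ≠ 0 ∧ G.co (p - r) ≠ 0 := tmul_ne_zero h

noncomputable instance : Algebra K (Nov ω δ) := Algebra.ofModule
  (fun c F G => ext' fun p => by
    rw [co_smul, co_mul_eq_sum (S := (finite_conv F G p).toFinset),
      co_mul_eq_sum (S := (finite_conv F G p).toFinset), Finset.mul_sum]
    · exact Finset.sum_congr rfl fun r _ => by simp; ring
    · intro r h1 h2; simp [h1, h2]
    · intro r h1 h2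
      have : F.co r ≠ 0 := fun h => h1 (by simp [h])
      simp [this, h2])
  (fun c F G => ext' fun p => by
    rw [co_smul, co_mul_eq_sum (S := (finite_conv F G p).toFinset),
      co_mul_eq_sum (S := (finite_conv F G p).toFinset), Finset.mul_sum]
    · exact Finset.sum_congr rfl fun r _ => by simp; ring
    · intro r h1 h2; simp [h1, h2]
    · intro r h1 h2
      have : G.co (p - r) ≠ 0 := fun h => h2 (by simp [h])
      simp [this, h1])

/-- the coefficient as a linear map -/
noncomputable def coL (p : L) : Nov ω δ →ₗ[K] K where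
  toFun F := F.co p
  map_add' _ _ := rfl
  map_smul' _ _ := rfl

theorem co_sum {ι : Type*} (s : Finset ι) (f : ι → Nov ω δ) (p : L) :
    (∑ i ∈ s, f i).co p = ∑ i ∈ s, (f i).co p := map_sum (coL p) f s

theorem single_mul_single (r s : L) (c d : K) :
    (single r c * single s d : Nov ω δ) = single (r + s) (v ^ (ω r s) * c * d) := by
  refine ext' fun p => ?_
  rw [co_single_mul, co_single, co_single]
  by_cases h : p = r + s
  · subst h; simp
  · have : p - r ≠ s := fun h' => h (by rw [← h']; simp)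
    simp [h, this]

end Nov

end Crest.Agent.R59
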