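import Crest.Agent.R59.Ev

/-! # Attractor rays and the cluster scattering element -/

set_option autoImplicit false

namespace Crest.Agent.R59
open Finset Pointwise Nov

variable {L : Type} [AddCommGroup L]

/-- `σ` refines the sign of `ω n` and its zero part is the line through `n` -/
structure Adm (ω : L →+ L →+ ℤ) (n : L) (σ : Tri L) : Prop where
  pos : ∀ p, 0 < ω n p → σ.sg p = 1
  neg : ∀ p, ω n p < 0 → σ.sg p = -1
  zero : ∀ p, σ.sg p = 0 ↔ Par n p

/-- the initial data `∑ E⁻(v z^(e i))` -/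
noncomputable def In {ι : Type} [Fintype ι] (e : ι → L) : L → K :=
  fun n => ∑ i, rayFun (e i) (PowerSeries.rescale v (Eser true)) n

/-- the cone of a seed -/
def cone {ι : Type} (e : ι → L) : AddSubmonoid L := AddSubmonoid.closure (Set.range e)

variable {ω : L →+ L →+ ℤ} {δ : L →+ ℤ}

/-- `g` is the cluster scattering element of the seed `e` -/
structure Cond {ι : Type} [Fintype ι] (e : ι → L) (g : Nov ω δ) : Prop where
  uni : IsUni g
  supp : Supp g (cone e)
  init : ∀ n, n ≠ 0 → ∀ σ : Tri L, Adm ω n σ → (f0 σ g).co n = In e n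

/-- `F` expanded in the chamber `σ` -/
noncomputable def chart (σ : Tri L) (g F : Nov ω δ) : Nov ω δ := inv (fp σ g) * F * fp σ g

/-- the asymptotic coefficient (coefficient in the theta basis) -/
noncomputable def asym (g F : Nov ω δ) (r : L) : K := (chart (Tri.ofZ (ω r)) g F).co r

theorem ray_lex_sg (σ τ : Tri L) (p : L) :
    (σ.lex τ).sg p = if σ.sg p = 0 then τ.sg p else σ.sg p := rfl

theorem ray_ofZ_sg (θ : L →+ ℤ) (p : L) : (Tri.ofZ θ).sg p = SignType.sign (θ p) := rfl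

theorem ray_ofR_sg (θ : L →+ ℝ) (p : L) : (Tri.ofR θ).sg p = SignType.sign (θ p) := rfl

theorem adm_lex (hω : ∀ p, ω p p = 0) {n : L} {θ : L →+ ℝ} (h : ∀ p, θ p = 0 ↔ Par n p) :
    Adm ω n ((Tri.ofZ (ω n)).lex (Tri.ofR θ)) := by
  refine ⟨fun p hp => ?_, fun p hp => ?_, fun p => ?_⟩
  · simp [ray_lex_sg, ray_ofZ_sg, sign_pos hp]
  · simp [ray_lex_sg, ray_ofZ_sg, sign_neg hp]
  · simp only [ray_lex_sg, ray_ofZ_sg, ray_ofR_sg, sign_eq_zero_iff]
    by_cases h0 : ω n p = 0
    · simp [h0, h p]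
    · simp only [h0, if_false, sign_eq_zero_iff, false_iff]
      exact fun hp => h0 (hp.map_eq_zero (hω n))

/-- a real linear form vanishing exactly on the line through `n` -/
theorem exists_ray_form (hθ : ∃ θ : L →+ ℝ, Function.Injective θ) {n : L} (hn : δ n ≠ 0) :
    ∃ κ : L →+ ℝ, ∀ p, κ p = 0 ↔ Par n p := by
  obtain ⟨θ, hθ⟩ := hθ
  let κ : L →+ ℝ := AddMonoidHom.mk' (fun p => (δ n : ℝ) * θ p - (δ p : ℝ) * θ n) fun p r => by
    simp only [map_add, Int.cast_add]; ring
  have hκ : ∀ p, κ p = (δ n : ℝ) * θ p - (δ p : ℝ) * θ n := fun _ => rfl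
  refine ⟨κ, fun p => ⟨fun h => ⟨δ n, δ p, hn, hθ ?_⟩, fun h => h.map_eq_zero_real ?_⟩⟩
  · rw [hκ] at h
    simp only [map_zsmul, zsmul_eq_mul]
    linarith
  · rw [hκ]; ring

theorem exists_adm (hω : ∀ p, ω p p = 0) (hθ : ∃ θ : L →+ ℝ, Function.Injective θ) {n : L}
    (hn : δ n ≠ 0) : ∃ σ : Tri L, Adm ω n σ := by
  obtain ⟨κ, hκ⟩ := exists_ray_form hθ hn
  exact ⟨_, adm_lex hω hκ⟩

theorem exists_adm_pos (hω : ∀ p, ω p p = 0) (hθ : ∃ θ : L →+ ℝ, Function.Injective θ) {n e : L}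
    (hn : δ n ≠ 0) (he : 0 ≤ ω n e) (hp : ¬ Par n e) : ∃ σ : Tri L, Adm ω n σ ∧ σ.sg e = 1 := by
  have key : ∀ κ : L →+ ℝ, (∀ p, κ p = 0 ↔ Par n p) → 0 < κ e →
      ∃ σ : Tri L, Adm ω n σ ∧ σ.sg e = 1 := by
    intro κ hκ h
    refine ⟨_, adm_lex hω hκ, ?_⟩
    rcases he.eq_or_lt with h0 | h0
    · simp [ray_lex_sg, ray_ofZ_sg, ray_ofR_sg, ← h0, sign_pos h]
    · exact (adm_lex hω hκ).pos e h0
  obtain ⟨κ, hκ⟩ := exists_ray_form hθ hn
  rcases lt_or_gt_of_ne (fun h => hp ((hκ e).1 h)) with h | h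
  · exact key (-κ) (fun p => by rw [AddMonoidHom.neg_apply, neg_eq_zero]; exact hκ p)
      (by simpa using h)
  · exact key κ hκ h

theorem Adm.of_par {n m : L} {σ : Tri L} (hω : ∀ p, ω p p = 0) (h : Adm ω n σ) (hp : Par n m)
    (hn : 0 < δ n) (hm : 0 < δ m) : Adm ω m σ := by
  have _ := hω
  have hs : ∀ p, SignType.sign (ω m p) = SignType.sign (ω n p) := fun p =>
    hp.sign_eq hn hm (ω.flip p)
  refine ⟨fun p hp' => h.pos p ?_, fun p hp' => h.neg p ?_, fun p => (h.zero p).trans ?_⟩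
  · rw [← sign_eq_one_iff, ← hs, sign_eq_one_iff]; exact hp'
  · rw [← sign_eq_neg_one_iff, ← hs, sign_eq_neg_one_iff]; exact hp'
  · exact ⟨fun h' => (hp.symm hm.ne').trans h', fun h' => hp.trans h'⟩

theorem Adm.comap {n : L} {σ : Tri L} {T : L ≃+ L} (hT : ∀ p r, ω (T p) (T r) = ω p r)
    (h : Adm ω (T n) σ) : Adm ω n (σ.comap T.toAddMonoidHom) := by
  refine ⟨fun p hp => h.pos (T p) (by rwa [hT]), fun p hp => h.neg (T p) (by rwa [hT]),
    fun p => (h.zero (T p)).trans ⟨?_, ?_⟩⟩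
  · rintro ⟨a, b, ha, hab⟩
    exact ⟨a, b, ha, T.injective (by simpa only [map_zsmul] using hab)⟩
  · rintro ⟨a, b, ha, hab⟩
    exact ⟨a, b, ha, by rw [← map_zsmul, hab, map_zsmul]⟩

/-- the grading derivation -/
noncomputable def gradD (F : Nov ω δ) : Nov ω δ :=
  ⟨fun p => (δ p : K) * F.co p, F.nov.of_support_subset fun _ hp h => hp (by simp [h])⟩

theorem co_gradD (F : Nov ω δ) (p : L) : (gradD F).co p = (δ p : K) * F.co p := rfl

theorem gradD_mul (F G : Nov ω δ) : gradD (F * G) = gradD F * G + F * gradD G := by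
  refine ext' fun p => ?_
  rw [co_add, co_gradD, co_mul_eq_sum F G (S := (finite_conv F G p).toFinset),
    co_mul_eq_sum (gradD F) G (S := (finite_conv F G p).toFinset),
    co_mul_eq_sum F (gradD G) (S := (finite_conv F G p).toFinset), Finset.mul_sum,
    ← Finset.sum_add_distrib]
  · refine Finset.sum_congr rfl fun r _ => ?_
    simp only [co_gradD, map_sub δ, Int.cast_sub]
    ring
  · intro r h1 h2
    have : G.co (p - r) ≠ 0 := fun h => h2 (by simp [co_gradD, h])
    simp [this, h1]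
  · intro r h1 h2
    have : F.co r ≠ 0 := fun h => h1 (by simp [co_gradD, h])
    simp [this, h2]
  · intro r h1 h2; simp [h1, h2]

theorem gradD_one : gradD (1 : Nov ω δ) = 0 := by
  refine ext' fun p => ?_
  by_cases h : p = 0
  · simp [co_gradD, h]
  · simp [co_gradD, co_one_of_ne h]

theorem eq_one_of_gradD {x : Nov ω δ} (hx : IsUni x) (h : gradD x = 0) : x = 1 := by
  refine ext' fun p => ?_
  by_cases hp : p = 0
  · rw [hp, hx.1, co_one_zero]
  · rw [co_one_of_ne hp]
    by_contra h0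
    have h1 := hx.2 p hp h0
    have h2 : (gradD x).co p = 0 := by rw [h]; rfl
    rw [co_gradD, mul_eq_zero] at h2
    rcases h2 with h2 | h2
    · exact h1.ne' (by exact_mod_cast h2)
    · exact h0 h2

/-- logarithmic derivative -/
noncomputable def logD (x : Nov ω δ) : Nov ω δ := Nov.inv x * gradD x

theorem eq_of_logD {x y : Nov ω δ} (hx : IsUni x) (hy : IsUni y) (h : logD x = logD y) : x = y := by
  have h1 : gradD x = x * logD y := by
    rw [← h, logD, ← mul_assoc, hx.mul_inv, one_mul]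
  have h2 : gradD (Nov.inv y) = -(logD y * Nov.inv y) := by
    have h3 := gradD_mul y (Nov.inv y)
    rw [hy.mul_inv, gradD_one] at h3
    have h4 : Nov.inv y * (gradD y * Nov.inv y + y * gradD (Nov.inv y)) = 0 := by
      rw [← h3, mul_zero]
    rw [mul_add, ← mul_assoc, ← mul_assoc, hy.inv_mul, one_mul] at h4
    exact eq_neg_of_add_eq_zero_right h4
  have h5 : x * Nov.inv y = 1 := by
    refine eq_one_of_gradD (hx.mul hy.inv) ?_
    rw [gradD_mul, h1, h2, mul_neg, mul_assoc, add_neg_cancel]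
  calc x = x * (Nov.inv y * y) := by rw [hy.inv_mul, mul_one]
    _ = y := by rw [← mul_assoc, h5, one_mul]

theorem co_logD_mul (hω : ∀ p, ω p p = 0) {x y : Nov ω δ} (hx : IsUni x) (hy : IsUni y) {r : L}
    (ho : Supp y {p | ω r p = 0}) : (logD (x * y)).co r = (logD x).co r + (logD y).co r := by
  have : logD (x * y) = Nov.inv y * logD x * y + logD y := by
    rw [logD, hx.inv_mul_rev hy, gradD_mul, mul_add, logD, logD]
    congr 1
    · simp only [mul_assoc]
    · rw [mul_assoc, ← mul_assoc (Nov.inv x), hx.inv_mul, one_mul]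
  rw [this, co_add, co_conj_of_orth hω hy ho]

theorem sg_of_logD {σ : Tri L} {s : SignType} {x : Nov ω δ} (hx : IsUni x) (hs : Sg σ s x) {r : L}
    (h : (logD x).co r ≠ 0) : σ.sg r = s := by
  obtain ⟨p, h1, h2⟩ := co_mul_ne_zero h
  rw [co_gradD] at h2
  have h3 : r - p ≠ 0 := fun h0 => h2 (by simp [h0])
  have h4 : σ.sg (r - p) = s := hs _ h3 (right_ne_zero_of_mul h2)
  by_cases hp : p = 0
  · simpa [hp] using h4
  · have h5 : σ.sg p = s := hx.sg_inv hs p hp h1
    have := σ.add_same p (r - p) (h5.trans h4.symm)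
    rwa [add_sub_cancel, h5] at this

theorem supp_f0_ofZ {g : Nov ω δ} (hg : IsUni g) (f : L →+ ℤ) :
    Supp (f0 (Tri.ofZ f) g) (AddMonoidHom.mker f) := by
  intro p hp
  by_cases h0 : p = 0
  · rw [h0]; exact zero_mem _
  · have := (isFact_fact (Tri.ofZ f) hg).sg_0 p h0 hp
    exact sign_eq_zero_iff.1 this

theorem Adm.f0_eq {g : Nov ω δ} (hg : IsUni g) {n : L} {σ : Tri L} (hσ : Adm ω n σ) :
    f0 σ g = f0 σ (f0 (Tri.ofZ (ω n)) g) := by
  rw [← (fact_lex (Tri.ofZ (ω n)) σ hg).2.1]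
  refine (fact_congr (M := ⊤) hg (fun _ _ => trivial) fun p _ => ?_).2.1
  rcases lt_trichotomy (ω n p) 0 with h | h | h
  · simp [ray_lex_sg, ray_ofZ_sg, sign_neg h, hσ.neg p h]
  · simp [ray_lex_sg, ray_ofZ_sg, h]
  · simp [ray_lex_sg, ray_ofZ_sg, sign_pos h, hσ.pos p h]

theorem Adm.co_logD_f0 (hω : ∀ p, ω p p = 0) {h : Nov ω δ} (hh : IsUni h) {n : L} {σ : Tri L}
    (hσ : Adm ω n σ) (hs : Supp h (AddMonoidHom.mker (ω n))) {r : L} (hr : Par n r) :
    (logD (f0 σ h)).co r = (logD h).co r := by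
  have hf := isFact_fact σ hh
  obtain ⟨-, h0, hm⟩ := supp_fact σ hh hs
  have ho : ∀ {y : Nov ω δ}, Supp y (AddMonoidHom.mker (ω n)) → Supp y {p | ω r p = 0} :=
    fun hy p hp => hr.map_eq_zero (f := ω.flip p) (hy p hp)
  have hr0 : σ.sg r = 0 := (hσ.zero r).2 hr
  have e1 : (logD (fp σ h)).co r = 0 := by
    by_contra hne
    have := sg_of_logD hf.uni_p hf.sg_p hne
    rw [hr0] at this
    exact absurd this (by decide)
  have e2 : (logD (fm σ h)).co r = 0 := by
    by_contra hne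
    have := sg_of_logD hf.uni_m hf.sg_m hne
    rw [hr0] at this
    exact absurd this (by decide)
  conv_rhs => rw [hf.eq]
  rw [co_logD_mul hω (hf.uni_p.mul hf.uni_0) hf.uni_m (ho hm),
    co_logD_mul hω hf.uni_p hf.uni_0 (ho h0), e1, e2, zero_add, add_zero]

/-- the attractor wall does not depend on the admissible refinement -/
theorem f0_adm_eq (hω : ∀ p, ω p p = 0) {g : Nov ω δ} (hg : IsUni g) {n : L} {σ τ : Tri L}
    (hσ : Adm ω n σ) (hτ : Adm ω n τ) : f0 σ g = f0 τ g := by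
  rw [hσ.f0_eq hg, hτ.f0_eq hg]
  have hh : IsUni (f0 (Tri.ofZ (ω n)) g) := (isFact_fact _ hg).uni_0
  have hs := supp_f0_ofZ hg (ω n)
  set h := f0 (Tri.ofZ (ω n)) g
  refine eq_of_logD (isFact_fact σ hh).uni_0 (isFact_fact τ hh).uni_0 (ext' fun r => ?_)
  by_cases hr : Par n r
  · rw [hσ.co_logD_f0 hω hh hs hr, hτ.co_logD_f0 hω hh hs hr]
  · have key : ∀ {σ : Tri L}, Adm ω n σ → (logD (f0 σ h)).co r = 0 := fun {σ} hσ => by
      by_contra hne
      exact hr ((hσ.zero r).1
        (sg_of_logD (isFact_fact σ hh).uni_0 (isFact_fact σ hh).sg_0 hne))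
    rw [key hσ, key hτ]

section cond
variable {ι : Type} [Fintype ι] (e : ι → L) (he : ∀ i, 0 < δ (e i)) (s : L → Tri L)

open Classical in
/-- the correction in degree `D` -/
noncomputable def condLayer (D : ℤ) (G : Nov ω δ) : Nov ω δ :=
  ⟨fun p => if p ∈ cone e ∧ δ p = D then In e p - (f0 (s p) G).co p else 0, fun D' =>
    (finite_closure_range he D').subset fun p hp => by
      refine ⟨?_, hp.2⟩
      by_contra h
      exact hp.1 (if_neg fun h' => h h'.1)⟩

/-- the approximations of the scattering element -/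
noncomputable def condSeq : ℕ → Nov ω δ
  | 0 => 1
  | D + 1 => condSeq D + condLayer e he s (D + 1) (condSeq D)

theorem co_condLayer_of_ne {D : ℤ} (G : Nov ω δ) {p : L} (h : ¬ (p ∈ cone e ∧ δ p = D)) :
    (condLayer e he s D G).co p = 0 := if_neg h

theorem co_condLayer {D : ℤ} (G : Nov ω δ) {p : L} (h : p ∈ cone e ∧ δ p = D) :
    (condLayer e he s D G).co p = In e p - (f0 (s p) G).co p := if_pos h

theorem supp_condSeq (D : ℕ) : Supp (condSeq e he s D : Nov ω δ) (cone e) := by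
  induction D with
  | zero => exact supp_one
  | succ D ih =>
    refine ih.add fun p hp => ?_
    by_contra h
    exact hp (co_condLayer_of_ne e he s _ fun h' => h h'.1)

theorem co_condSeq_of_le {D D' : ℕ} (h : D ≤ D') {p : L} (hp : δ p ≤ D) :
    (condSeq e he s D' : Nov ω δ).co p = (condSeq e he s D : Nov ω δ).co p := by
  induction D', h using Nat.le_induction with
  | base => rfl
  | succ k hk ih =>
    rw [condSeq, co_add, ih, co_condLayer_of_ne, add_zero]
    rintro ⟨-, h⟩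
    omega

include he in
theorem isUni_of_supp_cone {g : Nov ω δ} (h0 : g.co 0 = 1) (h : Supp g (cone e)) : IsUni g :=
  ⟨h0, fun p hp h' => pos_of_mem_closure_range he (h p h') hp⟩

theorem isUni_condSeq (D : ℕ) : IsUni (condSeq e he s D : Nov ω δ) := by
  refine isUni_of_supp_cone e he ?_ (supp_condSeq e he s D)
  rw [co_condSeq_of_le e he s (Nat.zero_le D) (by simp)]
  exact co_one_zero

/-- the limit -/
noncomputable def condLim : Nov ω δ :=
  ⟨fun p => (condSeq e he s (δ p).toNat : Nov ω δ).co p, fun D =>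
    (finite_closure_range he D).subset fun p hp => ⟨supp_condSeq e he s _ p hp.1, hp.2⟩⟩

theorem co_condLim {D : ℕ} {p : L} (hp : δ p ≤ D) :
    (condLim e he s : Nov ω δ).co p = (condSeq e he s D : Nov ω δ).co p :=
  (co_condSeq_of_le e he s (by omega) (by omega)).symm

theorem supp_condLim : Supp (condLim e he s : Nov ω δ) (cone e) :=
  fun p hp => supp_condSeq e he s _ p hp

theorem isUni_condLim : IsUni (condLim e he s : Nov ω δ) := by
  refine isUni_of_supp_cone e he ?_ (supp_condLim e he s)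
  rw [co_condLim e he s (D := 0) (by simp)]
  exact co_one_zero

theorem co_f0_condLim {n : L} (hn : n ∈ cone e) (h0 : n ≠ 0) (hs : (s n).sg n = 0) :
    (f0 (s n) (condLim e he s : Nov ω δ)).co n = In e n := by
  have hM : ∀ m ∈ cone e, m ≠ 0 → 0 < δ m := fun m hm => pos_of_mem_closure_range he hm
  have hpos := hM n hn h0
  obtain ⟨D, hD⟩ : ∃ D : ℕ, δ n = D + 1 := ⟨(δ n - 1).toNat, by omega⟩
  have h := f0_co_top (σ := s n) hM (isUni_condLim e he s) (isUni_condSeq (ω := ω) e he s D)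
    (supp_condLim e he s) (supp_condSeq e he s D) hs fun p _ hp' hne => by
      have := hM _ hp' (sub_ne_zero.2 hne.symm)
      rw [map_sub] at this
      exact co_condLim e he s (by omega)
  rw [co_condLim e he s (D := D + 1) (by push_cast; omega), condSeq, co_add,
    co_condLayer e he s _ ⟨hn, hD⟩] at h
  linear_combination h

end cond

/-- existence of the cluster scattering element -/
theorem exists_cond (hω : ∀ p, ω p p = 0) (hθ : ∃ θ : L →+ ℝ, Function.Injective θ) {ι : Type}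
    [Fintype ι] (e : ι → L) (he : ∀ i, 0 < δ (e i)) : ∃ g : Nov ω δ, Cond e g := by
  have hs : ∀ n : L, ∃ σ : Tri L, δ n ≠ 0 → Adm ω n σ := fun n => by
    by_cases hn : δ n = 0
    · exact ⟨Tri.ofZ 0, fun h => absurd hn h⟩
    · obtain ⟨σ, hσ⟩ := exists_adm hω hθ hn
      exact ⟨σ, fun _ => hσ⟩
  choose s hs using hs
  refine ⟨condLim e he s, isUni_condLim e he s, supp_condLim e he s, fun n h0 σ hσ => ?_⟩
  by_cases hn : n ∈ cone e
  · have hpos := pos_of_mem_closure_range he hn h0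
    rw [f0_adm_eq hω (isUni_condLim e he s) hσ (hs n hpos.ne')]
    exact co_f0_condLim e he s hn h0 (((hs n hpos.ne').zero n).2 (Par.refl n))
  · have h1 : (f0 σ (condLim e he s : Nov ω δ)).co n = 0 := by
      by_contra h
      exact hn ((supp_fact σ (isUni_condLim e he s) (supp_condLim e he s)).2.1 n h)
    rw [h1, In]
    refine (Finset.sum_eq_zero fun i _ => ?_).symm
    by_contra h
    obtain ⟨k, rfl⟩ := rayFun_ne_zero h
    exact hn (nsmul_mem (AddSubmonoid.subset_closure (Set.mem_range_self i)) k)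

/-- the asymptotic coefficient can be read off in any refinement -/
theorem asym_eq_lex (hω : ∀ p, ω p p = 0) {g : Nov ω δ} (hg : IsUni g) (F : Nov ω δ) (r : L)
    (τ : Tri L) : (chart ((Tri.ofZ (ω r)).lex τ) g F).co r = asym g F r := by
  have hf := isFact_fact (Tri.ofZ (ω r)) hg
  have hf' := isFact_fact τ hf.uni_0
  have hs := (supp_fact τ hf.uni_0 (supp_f0_ofZ hg (ω r))).1
  rw [asym, ← co_conj_of_orth hω hf'.uni_p hs (chart (Tri.ofZ (ω r)) g F), chart, chart,
    (fact_lex _ τ hg).1, hf.uni_p.inv_mul_rev hf'.uni_p]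
  simp only [mul_assoc]

theorem supp_chart {g F : Nov ω δ} {M : AddSubmonoid L} {A : Set L} (σ : Tri L) (hg : IsUni g)
    (h : Supp g M) (hF : Supp F A) : Supp (chart σ g F) (A + (M : Set L)) := by
  have ha := (supp_fact σ hg h).1
  refine ((((isFact_fact σ hg).uni_p.supp_inv ha).mul hF).mul ha).mono ?_
  rintro _ ⟨_, ⟨m, hm, a, ha, rfl⟩, m', hm', rfl⟩
  exact ⟨a, ha, m + m', M.add_mem hm hm', by simp only; abel⟩

/-- if `ω r` is nonnegative on the support of `F`, the asymptotic coefficient is the coefficient -/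
theorem asym_eq_co (hω : ∀ p, ω p p = 0) {g F : Nov ω δ} (hg : IsUni g) {r : L}
    (hF : Supp F {p | 0 ≤ ω r p}) : asym g F r = F.co r := by
  have hf := isFact_fact (Tri.ofZ (ω r)) hg
  have hc : ∀ {x : Nov ω δ}, IsUni x → Sg (Tri.ofZ (ω r)) 1 x → Cong {p | 0 < ω r p} x 1 := by
    intro x hx hs p hp
    by_cases h0 : p = 0
    · rw [h0, hx.1, co_one_zero]
    · rw [co_one_of_ne h0]
      by_contra h
      exact hp (sign_eq_one_iff.1 (hs p h0 h))
  have ha : Supp (fp (Tri.ofZ (ω r)) g) {p | 0 ≤ ω r p} := by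
    intro p hp
    by_cases h0 : p = 0
    · simp [h0]
    · exact (sign_eq_one_iff.1 (hf.sg_p p h0 hp)).le
  have hUB : ({p | 0 < ω r p} + {p | 0 ≤ ω r p} : Set L) ⊆ {p | 0 < ω r p} := by
    rintro _ ⟨a, ha, b, hb, rfl⟩
    simp only [Set.mem_ofPred_eq, map_add] at ha hb ⊢
    omega
  have h1 := ((((hc hf.uni_p.inv (hf.uni_p.sg_inv hf.sg_p)).mul_right hF).mono hUB).mul_right
    ha).mono hUB
  have h2 := ((hc hf.uni_p hf.sg_p).mul_left hF).mono hUB
  rw [one_mul] at h1
  rw [mul_one] at h2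
  exact (h1.trans h2) r (by simp [hω r])

end Crest.Agent.R59
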