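import Crest.Agent.R59.Theta

/-! # Positivity of the walls of the cluster scattering element: the double induction -/

set_option autoImplicit false
set_option linter.unusedSectionVars false

namespace Crest.Agent.R59
open Finset Pointwise Nov

variable {L : Type} [AddCommGroup L] {ω : L →+ L →+ ℤ} {δ : L →+ ℤ}

namespace WC

/-- the rank two statement used as a black box -/
def OutOfIn (ω : L →+ L →+ ℤ) (δ : L →+ ℤ) (pr : L → Bool) : Prop :=
  ∀ (M : AddSubmonoid L), (∀ p ∈ M, p ≠ 0 → 0 < δ p) →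
    (∀ D : ℤ, {p | p ∈ M ∧ δ p ≤ D}.Finite) → ∀ m : L, m ∈ M → m ≠ 0 →
    (∀ p ∈ M, ∀ r ∈ M, δ m * ω p r = ω p m * δ r - ω r m * δ p) →
    (∀ p ∈ M, ∀ r ∈ M, p ≠ 0 → ω p r = 0 → Par p r) →
    ∀ (U : Set L), Upper M U → ∀ D : ℤ, (∀ p, D < δ p → p ∈ U) →
    ∀ h : Nov ω δ, IsUni h → Supp h M →
    (∀ n ∈ M, n ≠ 0 → ∃ l : List (L × ℤ), (∀ x ∈ l, x.1 ∈ M ∧ x.1 ≠ 0 ∧ Par n x.1) ∧
      Cong U (f0 (Tri.ofZ (ω n)) h) (prodE pr l)) →
    ∃ l : List (L × ℤ), (∀ x ∈ l, x.1 ∈ M ∧ x.1 ≠ 0 ∧ Par m x.1) ∧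
      Cong U (f0 (Tri.ofZ (ω m)).neg h) (prodE pr l)

/-- the real linear form of an integral one -/
def toR (ψ : L →+ ℤ) : L →+ ℝ := (Int.castAddHom ℝ).comp ψ

@[simp] theorem toR_apply (ψ : L →+ ℤ) (p : L) : toR ψ p = (ψ p : ℝ) := rfl

/-- `θ + s ψ` -/
def mv (θ : L →+ ℝ) (s : ℝ) (ψ : L →+ ℤ) : L →+ ℝ := θ + s • toR ψ

@[simp] theorem mv_apply (θ : L →+ ℝ) (s : ℝ) (ψ : L →+ ℤ) (p : L) :
    mv θ s ψ p = θ p + s * (ψ p : ℝ) := rfl

theorem ofR_sg (θ : L →+ ℝ) (p : L) : (Tri.ofR θ).sg p = SignType.sign (θ p) := rfl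
theorem ofZ_sg (θ : L →+ ℤ) (p : L) : (Tri.ofZ θ).sg p = SignType.sign (θ p) := rfl
theorem lex_sg (σ τ : Tri L) (p : L) :
    (σ.lex τ).sg p = if σ.sg p = 0 then τ.sg p else σ.sg p := rfl
theorem neg_sg (σ : Tri L) (p : L) : σ.neg.sg p = -σ.sg p := rfl

theorem sign_cast (z : ℤ) : SignType.sign (z : ℝ) = SignType.sign z := by
  rcases lt_trichotomy z 0 with h | h | h
  · rw [sign_neg h, sign_neg (by exact_mod_cast h)]
  · simp [h]
  · rw [sign_pos h, sign_pos (by exact_mod_cast h)]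

theorem omega_swap (hω : ∀ p, ω p p = 0) (p r : L) : ω r p = -ω p r := by
  have := hω (p + r)
  simp only [map_add, AddMonoidHom.add_apply, hω p, hω r] at this
  linarith

/-- `p` lies in the rational plane spanned by `m` and `m'` -/
def InPl (m m' p : L) : Prop := ∃ N α β : ℤ, N ≠ 0 ∧ N • p = α • m + β • m'

theorem plane_id (hω : ∀ p, ω p p = 0) {m m' p r : L} (hp : InPl m m' p) (hr : InPl m m' r) :
    δ m * ω p r = ω p m * δ r - ω r m * δ p := by
  obtain ⟨N, α, β, hN, hp⟩ := hp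
  obtain ⟨N', α', β', hN', hr⟩ := hr
  have hs := omega_swap hω m m'
  have e1 : N * δ p = α * δ m + β * δ m' := by simpa using congrArg δ hp
  have e2 : N' * δ r = α' * δ m + β' * δ m' := by simpa using congrArg δ hr
  have e3 : N * ω p m = β * ω m' m := by
    simpa [hω m] using congrArg (fun x => ω x m) hp
  have e4 : N' * ω r m = β' * ω m' m := by
    simpa [hω m] using congrArg (fun x => ω x m) hr
  have e5 : N' * ω p r = α' * ω p m + β' * ω p m' := by simpa using congrArg (ω p) hr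
  have e6 : N * ω p m' = α * ω m m' := by
    simpa [hω m'] using congrArg (fun x => ω x m') hp
  apply mul_left_cancel₀ (mul_ne_zero hN hN')
  rw [hs] at e3 e4
  linear_combination (N * δ m) * e5 + (δ m * α') * e3 + (δ m * β') * e6 - (N' * δ r) * e3
    + (β * ω m m') * e2 + (N * δ p) * e4 - (β' * ω m m') * e1

theorem plane_par (hω : ∀ p, ω p p = 0) {m m' p r : L} (hw : ω m m' ≠ 0) (hp : InPl m m' p)
    (hr : InPl m m' r) (hδ : δ p ≠ 0) (h : ω p r = 0) : Par p r := by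
  obtain ⟨N, α, β, hN, hp⟩ := hp
  obtain ⟨N', α', β', hN', hr⟩ := hr
  have hs := omega_swap hω m m'
  have e1 : N * δ p = α * δ m + β * δ m' := by simpa using congrArg δ hp
  have e3 : N * ω p m = β * ω m' m := by
    simpa [hω m] using congrArg (fun x => ω x m) hp
  have e5 : N' * ω p r = α' * ω p m + β' * ω p m' := by simpa using congrArg (ω p) hr
  have e6 : N * ω p m' = α * ω m m' := by
    simpa [hω m'] using congrArg (fun x => ω x m') hp
  rw [hs] at e3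
  have e7 : α * β' = β * α' := by
    apply mul_right_cancel₀ hw
    linear_combination (N * N') * h - N * e5 - α' * e3 - β' * e6
  by_cases hα : α = 0
  · have hβ : β ≠ 0 := by
      intro hβ
      rw [hα, hβ] at e1
      exact mul_ne_zero hN hδ (by simpa using e1)
    refine ⟨β * N', β' * N, mul_ne_zero hβ hN', ?_⟩
    rw [mul_smul, mul_smul, hr, hp, smul_add, smul_add, smul_smul, smul_smul, smul_smul,
      smul_smul, ← e7, mul_comm α β', mul_comm β β']
  · refine ⟨α * N', α' * N, mul_ne_zero hα hN', ?_⟩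
    rw [mul_smul, mul_smul, hr, hp, smul_add, smul_add, smul_smul, smul_smul, smul_smul,
      smul_smul, e7, mul_comm α α', mul_comm β α']

theorem inPl_of_ker {θ : L →+ ℝ} {ψ : L →+ ℤ} {s : ℝ} {m m' p : L}
    (hθ : ∀ p, θ p = 0 ↔ Par m p) (hψ : ψ m' ≠ 0) (h' : mv θ s ψ m' = 0) (hp : mv θ s ψ p = 0) :
    InPl m m' p := by
  have h1 : θ (ψ m' • p - ψ p • m') = 0 := by
    rw [mv_apply] at h' hp
    rw [map_sub, map_zsmul, map_zsmul, zsmul_eq_mul, zsmul_eq_mul]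
    linear_combination (ψ m' : ℝ) * hp - (ψ p : ℝ) * h'
  obtain ⟨a, b, ha, hab⟩ := (hθ _).1 h1
  refine ⟨a * ψ m', b, a * ψ p, mul_ne_zero ha hψ, ?_⟩
  rw [← hab, mul_smul, mul_smul, smul_sub]
  abel

section main

variable {ι : Type} [Fintype ι] {e : ι → L} {pr : L → Bool} {g : Nov ω δ}

theorem cone_pos (he : ∀ i, 0 < δ (e i)) {p : L} (hp : p ∈ cone e) (h0 : p ≠ 0) : 0 < δ p :=
  pos_of_mem_closure_range he hp h0

theorem cone_nonneg (he : ∀ i, 0 < δ (e i)) (p : L) (hp : p ∈ cone e) : 0 ≤ δ p := by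
  by_cases h0 : p = 0
  · simp [h0]
  · exact (cone_pos he hp h0).le

/-- locality for two trichotomies which agree in low degree -/
theorem f0_cong (he : ∀ i, 0 < δ (e i)) (hg : Cond e g) {σ τ : Tri L} {D : ℤ}
    (h : ∀ p ∈ cone e, p ≠ 0 → δ p ≤ D → σ.sg p = τ.sg p) :
    Cong {p | D < δ p} (f0 σ g) (f0 τ g) := by
  refine (fact_cong (upper_lt (cone_nonneg he) D) hg.uni hg.uni hg.supp hg.supp
    (Cong.refl _ _) fun p hp hpU => ?_).2.1
  by_cases h0 : p = 0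
  · rw [h0, σ.sg_zero, τ.sg_zero]
  · exact h p hp h0 (not_lt.1 hpU)

/-- the attractor wall is an initial wall or trivial -/
theorem attractor (hω : ∀ p, ω p p = 0) (he : ∀ i, 0 < δ (e i)) (hodd : ∀ i, pr (e i) = true)
    (hray : ∀ i j, Par (e i) (e j) → i = j) (hg : Cond e g) {m : L} (hm : m ∈ cone e)
    (hm0 : m ≠ 0) {σ : Tri L} (hσ : Adm ω m σ) :
    ∃ l : List (L × ℤ), (∀ x ∈ l, x.1 ∈ cone e ∧ x.1 ≠ 0 ∧ Par m x.1) ∧
      f0 σ g = prodE pr l := by
  have hf := isFact_fact σ hg.uni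
  have hsupp := (supp_fact σ hg.uni hg.supp).2.1
  have hδm := cone_pos he hm hm0
  have hpar : ∀ n, n ≠ 0 → (f0 σ g).co n ≠ 0 → n ∈ cone e ∧ Par m n := fun n hn h =>
    ⟨hsupp n h, (hσ.zero n).1 (hf.sg_0 n hn h)⟩
  have hco : ∀ n, n ≠ 0 → n ∈ cone e → Par m n → (f0 σ g).co n = In e n := fun n hn h1 h2 =>
    hg.init n hn σ (hσ.of_par hω h2 hδm (cone_pos he h1 hn))
  have hterm : ∀ i n, n ≠ 0 → n ∈ cone e → Par m n →
      rayFun (e i) (PowerSeries.rescale v (Eser true)) n ≠ 0 → Par m (e i) := by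
    intro i n hn h1 h2 h3
    obtain ⟨k, hk⟩ := rayFun_ne_zero h3
    have h4 : Par (e i) n := by rw [hk]; exact (Par.refl _).nsmul k
    exact h2.trans (h4.symm (δ := δ) (cone_pos he h1 hn).ne')
  by_cases hi : ∃ i, Par m (e i)
  · obtain ⟨i, hi⟩ := hi
    have hei : e i ∈ cone e := AddSubmonoid.subset_closure ⟨i, rfl⟩
    have hei0 : e i ≠ 0 := fun h => (he i).ne' (by rw [h, map_zero])
    refine ⟨[(e i, 1)], by simpa using ⟨hei, hei0, hi⟩, ?_⟩
    have hE : (prodE pr [(e i, 1)] : Nov ω δ) = E0 (e i) := by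
      rw [E0_eq_Efac (hodd i)]
      simp [prodE]
    rw [hE]
    refine ext' fun n => ?_
    by_cases hn : n = 0
    · rw [hn, hf.uni_0.1, (isUni_E0 (he i)).1]
    have hE2 : (E0 (e i) : Nov ω δ).co n = rayFun (e i) (PowerSeries.rescale v (Eser true)) n := by
      rw [E0, co_ev (he i)]
    by_cases hc : n ∈ cone e ∧ Par m n
    · rw [hco n hn hc.1 hc.2, hE2, In]
      refine Finset.sum_eq_single i (fun j _ hj => ?_) (fun h => absurd (mem_univ i) h)
      by_contra h3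
      have h4 := hterm j n hn hc.1 hc.2 h3
      exact hj (hray j i ((h4.symm (δ := δ) (he j).ne').trans hi))
    · have h1 : (f0 σ g).co n = 0 := by
        by_contra h
        exact hc (hpar n hn h)
      rw [h1, hE2]
      symm
      by_contra h3
      obtain ⟨k, hk⟩ := rayFun_ne_zero h3
      exact hc ⟨hk ▸ nsmul_mem hei k, hk ▸ hi.nsmul k⟩
  · refine ⟨[], by simp, ?_⟩
    have hE : (prodE pr [] : Nov ω δ) = 1 := by simp [prodE]
    rw [hE]
    refine ext' fun n => ?_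
    by_cases hn : n = 0
    · rw [hn, hf.uni_0.1, co_one_zero]
    rw [co_one_of_ne hn]
    by_contra h
    obtain ⟨h1, h2⟩ := hpar n hn h
    rw [hco n hn h1 h2, In] at h
    obtain ⟨j, _, hj⟩ := Finset.exists_ne_zero_of_sum_ne_zero h
    exact hi ⟨j, hterm j n hn h1 h2 hj⟩

/-- the statement at level `D` for the form `θ` and the ray of `m` -/
def St (pr : L → Bool) (e : ι → L) (g : Nov ω δ) (D : ℤ) (θ : L →+ ℝ) (m : L) : Prop :=
  ∃ l : List (L × ℤ), (∀ x ∈ l, x.1 ∈ cone e ∧ x.1 ≠ 0 ∧ Par m x.1) ∧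
    Cong {p | D < δ p} (f0 (Tri.ofR θ) g) (prodE pr l)

theorem st_of_nonpos (hg : Cond e g) {D : ℤ} (hD : D ≤ 0) (θ : L →+ ℝ) (m : L) :
    St pr e g D θ m := by
  refine ⟨[], by simp, fun p hp => ?_⟩
  have hf := isFact_fact (Tri.ofR θ) hg.uni
  have hE : (prodE pr [] : Nov ω δ) = 1 := by simp [prodE]
  rw [hE]
  by_cases hn : p = 0
  · rw [hn, hf.uni_0.1, co_one_zero]
  rw [co_one_of_ne hn]
  by_contra h
  have := hf.uni_0.2 p hn h
  exact hp (show D < δ p by omega)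

theorem st_of_good (hω : ∀ p, ω p p = 0) (he : ∀ i, 0 < δ (e i)) (hodd : ∀ i, pr (e i) = true)
    (hray : ∀ i j, Par (e i) (e j) → i = j) (hg : Cond e g) {m : L} (hm : m ∈ cone e)
    (hm0 : m ≠ 0) {θ : L →+ ℝ} (hθ : ∀ p, θ p = 0 ↔ Par m p) {D : ℤ}
    (hgood : ∀ n ∈ cone e, n ≠ 0 → δ n ≤ D → 0 ≤ θ n * ω m n) : St pr e g D θ m := by
  obtain ⟨l, hl, h⟩ := attractor hω he hodd hray hg hm hm0 (adm_lex hω hθ)
  refine ⟨l, hl, ?_⟩
  rw [← h]
  refine f0_cong he hg fun p hp h0 hD => ?_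
  rw [lex_sg, ofZ_sg, ofR_sg]
  split_ifs with h1
  · rfl
  · have h2 : ω m p ≠ 0 := fun h => h1 (by rw [h, sign_zero])
    have h3 : θ p ≠ 0 := fun h => h2 (((hθ p).1 h).map_eq_zero (hω m))
    have h4 := hgood p hp h0 hD
    rw [← sign_cast]
    have h5 : ((ω m p : ℤ) : ℝ) ≠ 0 := by exact_mod_cast h2
    rcases lt_or_gt_of_ne h5 with h6 | h6
    · have : θ p < 0 := lt_of_le_of_ne (by nlinarith) h3
      rw [sign_neg this, sign_neg h6]
    · have : 0 < θ p := lt_of_le_of_ne (by nlinarith) h3.symm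
      rw [sign_pos this, sign_pos h6]

/-- off the ray both sides vanish -/
theorem co_eq_of_not_par (he : ∀ i, 0 < δ (e i)) (hg : Cond e g) {m : L} {θ : L →+ ℝ}
    (hθ : ∀ p, θ p = 0 ↔ Par m p) {l : List (L × ℤ)}
    (hl : ∀ x ∈ l, x.1 ∈ cone e ∧ x.1 ≠ 0 ∧ Par m x.1) {p : L} (hp : ¬ Par m p) :
    (f0 (Tri.ofR θ) g).co p = (prodE pr l : Nov ω δ).co p := by
  have h0 : p ≠ 0 := fun h => hp (h ▸ par_zero m)
  have key : ∀ x : Nov ω δ, Sg (Tri.ofR θ) 0 x → x.co p = 0 := by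
    intro x hx
    by_contra h
    have := hx p h0 h
    rw [ofR_sg, sign_eq_zero_iff] at this
    exact hp ((hθ p).1 this)
  rw [key _ (isFact_fact _ hg.uni).sg_0, key _ (sg_prodE pr fun x hx =>
    ⟨cone_pos he (hl x hx).1 (hl x hx).2.1, by
      rw [ofR_sg, (hθ _).2 (hl x hx).2.2, sign_zero]⟩)]

/-- a small perturbation realises the lexicographic refinement in low degree -/
theorem exists_perturb [Countable L] (he : ∀ i, 0 < δ (e i)) (hg : Cond e g) (θ : L →+ ℝ)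
    (ψ : L →+ ℤ) (D : ℤ) :
    ∃ θ' : L →+ ℝ, (∀ p, θ' p = 0 ↔ θ p = 0 ∧ ψ p = 0) ∧
      (∀ p ∈ cone e, δ p ≤ D → θ p ≠ 0 → SignType.sign (θ' p) = SignType.sign (θ p)) ∧
      (∀ p, θ p = 0 → SignType.sign (θ' p) = SignType.sign (ψ p)) ∧
      Cong {p | D < δ p} (f0 (Tri.ofR θ') g) (f0 (Tri.ofZ ψ) (f0 (Tri.ofR θ) g)) := by
  obtain ⟨ε, hε, h1, h2⟩ := exists_generic_perturb θ (toR ψ) _ (finite_closure_range he D)
  have h3 : ∀ p, θ p = 0 → SignType.sign (mv θ ε ψ p) = SignType.sign (ψ p) := by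
    intro p hp
    rw [mv_apply, hp, zero_add, sign_mul, sign_pos hε, one_mul, sign_cast]
  refine ⟨mv θ ε ψ, fun p => ?_, fun p hp hD h => h2 p ⟨hp, hD⟩ h, h3, ?_⟩
  · simpa using h1 p
  · rw [← (fact_lex _ _ hg.uni).2.1]
    refine f0_cong he hg fun p hp _ hD => ?_
    rw [lex_sg, ofZ_sg, ofR_sg, ofR_sg]
    split_ifs with h
    · exact h3 p (sign_eq_zero_iff.1 h)
    · exact h2 p ⟨hp, hD⟩ fun h' => h (by rw [h', sign_zero])

theorem step [Countable L] (hω : ∀ p, ω p p = 0) (hout : OutOfIn ω δ pr)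
    (he : ∀ i, 0 < δ (e i)) (hodd : ∀ i, pr (e i) = true)
    (hray : ∀ i j, Par (e i) (e j) → i = j) (hg : Cond e g) {D : ℤ} (hD : 0 < D)
    (ih : ∀ (θ : L →+ ℝ) (m : L), m ∈ cone e → m ≠ 0 → (∀ p, θ p = 0 ↔ Par m p) →
      St pr e g (D - 1) θ m)
    {m : L} (hm : m ∈ cone e) (hm0 : m ≠ 0) (θ : L →+ ℝ) (hθ : ∀ p, θ p = 0 ↔ Par m p) :
    St pr e g D θ m := by
  classical
  let Γ : Finset L := (finite_closure_range he D).toFinset.filter fun n => n ≠ 0
  have hΓ : ∀ n, n ∈ Γ ↔ n ∈ cone e ∧ n ≠ 0 ∧ δ n ≤ D := by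
    intro n
    simp only [Γ, mem_filter, Set.Finite.mem_toFinset, Set.mem_ofPred_eq, cone]
    tauto
  have hδm := cone_pos he hm hm0
  induction hc : (Γ.filter fun n => θ n * ω m n < 0).card using Nat.strong_induction_on
    generalizing θ with
  | _ c ihc =>
  by_cases hne : ∃ n ∈ Γ, θ n * ω m n < 0
  swap
  · refine st_of_good hω he hodd hray hg hm hm0 hθ fun n h1 h2 h3 => ?_
    by_contra h
    exact hne ⟨n, (hΓ n).2 ⟨h1, h2, h3⟩, not_le.1 h⟩
  obtain ⟨s, m', -, hm'Γ, hbad, hz, hw⟩ := exists_first_wall θ (ω m) Γ hne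
  set θ₀ : L →+ ℝ := mv θ s (ω m) with hθ₀
  have hψ : ω m m' ≠ 0 := by
    intro h
    rw [h] at hbad
    simp at hbad
  have hpar0 : ∀ p, Par m p → θ₀ p = 0 := by
    intro p hp
    rw [hθ₀, mv_apply, (hθ p).2 hp, hp.map_eq_zero (hω m)]
    simp
  have hpl : ∀ p, θ₀ p = 0 → InPl m m' p := fun p hp => inPl_of_ker hθ hψ hz hp
  have hw1 : ∀ n ∈ Γ, θ₀ n ≠ 0 → SignType.sign (θ₀ n) = SignType.sign (θ n) := fun n hn h =>
    (hw n hn).1 h fun h' => h (hpar0 n ((hθ n).1 h'))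
  let MJ : AddSubmonoid L := cone e ⊓ AddMonoidHom.mker θ₀
  have hMJ : ∀ p, p ∈ MJ ↔ p ∈ cone e ∧ θ₀ p = 0 := fun p => Iff.rfl
  set h : Nov ω δ := f0 (Tri.ofR θ₀) g with hh
  have hf := isFact_fact (Tri.ofR θ₀) hg.uni
  have huni : IsUni h := hf.uni_0
  have hsupp : Supp h MJ := by
    intro p hp
    refine (hMJ p).2 ⟨(supp_fact _ hg.uni hg.supp).2.1 p hp, ?_⟩
    by_cases h0 : p = 0
    · rw [h0, map_zero]
    · exact sign_eq_zero_iff.1 (hf.sg_0 p h0 hp)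
  -- the outgoing side
  have hminus : Cong {p | D < δ p} (f0 (Tri.ofR θ) g) (f0 (Tri.ofZ (ω m)).neg h) := by
    rw [hh, ← (fact_lex _ _ hg.uni).2.1]
    refine f0_cong he hg fun p hp h0 hD' => ?_
    have hpΓ := (hΓ p).2 ⟨hp, h0, hD'⟩
    rw [lex_sg, neg_sg, ofZ_sg, ofR_sg, ofR_sg]
    split_ifs with h1
    · exact (hw p hpΓ).2 (sign_eq_zero_iff.1 h1)
    · exact (hw1 p hpΓ fun h' => h1 (by rw [h', sign_zero])).symm
  -- the incoming side on the ray of `m`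
  obtain ⟨θp, hp1, hp2, hp3, hp4⟩ := exists_perturb he hg θ₀ (ω m) D
  have hθp : ∀ p, θp p = 0 ↔ Par m p := by
    intro p
    rw [hp1]
    refine ⟨fun h => (hθ p).1 ?_, fun h => ⟨hpar0 p h, h.map_eq_zero (hω m)⟩⟩
    have := h.1
    rw [hθ₀, mv_apply, h.2] at this
    simpa using this
  have hlt : (Γ.filter fun n => θp n * ω m n < 0).card < c := by
    rw [← hc]
    refine card_lt_card ⟨fun n hn => ?_, fun hsub => ?_⟩
    · obtain ⟨h1, h2⟩ := mem_filter.1 hn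
      refine mem_filter.2 ⟨h1, ?_⟩
      have h3 : θ₀ n ≠ 0 := by
        intro h
        have h4 := hp3 n h
        rw [← sign_eq_neg_one_iff, sign_mul, h4, sign_cast] at h2
        revert h2
        cases SignType.sign (ω m n) <;> decide
      have h4 := hp2 n ((hΓ n).1 h1).1 ((hΓ n).1 h1).2.2 h3
      rw [← sign_eq_neg_one_iff, sign_mul] at h2 ⊢
      rw [← hw1 n h1 h3, ← h4]
      exact h2
    · have h2 := (mem_filter.1 (hsub (mem_filter.2 ⟨hm'Γ, hbad⟩))).2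
      have h4 := hp3 m' hz
      rw [← sign_eq_neg_one_iff, sign_mul, h4, sign_cast] at h2
      revert h2
      cases SignType.sign (ω m m') <;> decide
  obtain ⟨lp, hlp, hcp⟩ := ihc _ hlt θp hθp rfl
  let U : Set L := {p | D < δ p ∨ (δ p = D ∧ ¬ Par m p)}
  have hUD : {p | D < δ p} ⊆ U := fun p hp => Or.inl hp
  have hMpos : ∀ p ∈ MJ, p ≠ 0 → 0 < δ p := fun p hp h0 => cone_pos he ((hMJ p).1 hp).1 h0
  obtain ⟨l, hl, hcl⟩ := hout MJ hMpos
    (fun D' => (finite_closure_range he D').subset fun p hp => ⟨((hMJ p).1 hp.1).1, hp.2⟩)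
    m ((hMJ m).2 ⟨hm, hpar0 m (Par.refl m)⟩) hm0
    (fun p hp r hr => plane_id hω (hpl p ((hMJ p).1 hp).2) (hpl r ((hMJ r).1 hr).2))
    (fun p hp r hr h0 h => plane_par (δ := δ) hω hψ (hpl p ((hMJ p).1 hp).2)
      (hpl r ((hMJ r).1 hr).2) (hMpos p hp h0).ne' h)
    U (by
      intro p hp r hr
      by_cases h0 : r = 0
      · rwa [h0, add_zero]
      · have := hMpos r hr h0
        refine Or.inl ?_
        rw [map_add]
        rcases hp with hp | hp
        · omega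
        · omega) D (fun p hp => Or.inl hp) h huni hsupp (by
      intro n hn hn0
      have hδn := hMpos n hn hn0
      by_cases hmn : Par m n
      · refine ⟨lp, fun x hx => ⟨(hMJ _).2 ⟨(hlp x hx).1, hpar0 _ (hlp x hx).2.2⟩, (hlp x hx).2.1,
          (hmn.symm (δ := δ) hδn.ne').trans (hlp x hx).2.2⟩, ?_⟩
        have : f0 (Tri.ofZ (ω n)) h = f0 (Tri.ofZ (ω m)) h :=
          (fact_congr huni hsupp fun p _ => hmn.sign_eq hδm hδn (ω.flip p)).2.1
        rw [this]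
        exact (hp4.symm.trans hcp).mono hUD
      · obtain ⟨θn, hn1, -, -, hn4⟩ := exists_perturb he hg θ₀ (ω n) D
        have hn' := (hMJ n).1 hn
        have hθn : ∀ p, θn p = 0 ↔ Par n p := by
          intro p
          rw [hn1]
          exact ⟨fun h => plane_par (δ := δ) hω hψ (hpl n hn'.2) (hpl p h.1) hδn.ne' h.2,
            fun h => ⟨h.map_eq_zero_real hn'.2, h.map_eq_zero (hω n)⟩⟩
        obtain ⟨ln, hln, hcn⟩ := ih θn n hn'.1 hn0 hθn
        refine ⟨ln, fun x hx => ⟨(hMJ _).2 ⟨(hln x hx).1, (hln x hx).2.2.map_eq_zero_real hn'.2⟩,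
          (hln x hx).2.1, (hln x hx).2.2⟩, fun p hp => ?_⟩
        have hp' : δ p ≤ D := not_lt.1 fun h => hp (Or.inl h)
        rw [← hn4 p (not_lt.2 hp')]
        by_cases hpD : δ p = D
        · have h1 : Par m p := by
            by_contra h
            exact hp (Or.inr ⟨hpD, h⟩)
          refine co_eq_of_not_par he hg hθn hln fun h2 => hmn (h1.trans (h2.symm (δ := δ) ?_))
          omega
        · exact hcn p (show ¬ (D - 1 < δ p) by omega))
  have hl' : ∀ x ∈ l, x.1 ∈ cone e ∧ x.1 ≠ 0 ∧ Par m x.1 := fun x hx =>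
    ⟨((hMJ _).1 (hl x hx).1).1, (hl x hx).2⟩
  refine ⟨l, hl', fun p hp => ?_⟩
  by_cases hpU : p ∈ U
  · rcases hpU with h1 | h1
    · exact absurd h1 hp
    · exact co_eq_of_not_par he hg hθ hl' h1.2
  · rw [hminus p hp]
    exact hcl p hpU

theorem wallPos [Countable L] (hω : ∀ p, ω p p = 0) (hout : OutOfIn ω δ pr)
    (he : ∀ i, 0 < δ (e i)) (hodd : ∀ i, pr (e i) = true)
    (hray : ∀ i j, Par (e i) (e j) → i = j) (hg : Cond e g) : WallPos pr (cone e) g := by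
  have key : ∀ k : ℕ, ∀ (θ : L →+ ℝ) (m : L), m ∈ cone e → m ≠ 0 →
      (∀ p, θ p = 0 ↔ Par m p) → St pr e g k θ m := by
    intro k
    induction k with
    | zero => exact fun θ m _ _ _ => st_of_nonpos hg (by simp) θ m
    | succ k ih =>
      intro θ m hm hm0 hθ
      refine step hω hout he hodd hray hg (by positivity) (fun θ' m' h1 h2 h3 => ?_) hm hm0 θ hθ
      have := ih θ' m' h1 h2 h3
      rwa [show (((k + 1 : ℕ) : ℤ) - 1) = k by push_cast; ring]
  intro θ m hm hm0 hθ D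
  by_cases hD : D ≤ 0
  · exact st_of_nonpos hg hD θ m
  · have := key D.toNat θ m hm hm0 hθ
    rwa [Int.toNat_of_nonneg (by omega)] at this

end main

end WC

end Crest.Agent.R59
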